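import Vale.Agent.P352Z.Main0
import Vale.Agent.P352X.R.FAR
import Vale.Agent.P352X.R.GRP.C
import Vale.Agent.P352X.R.LIE
import Vale.Agent.P352X.Api2c
import Vale.Agent.P352X.Api4
import Vale.Agent.P352X.Api1C

/-!
# P352Z, block EV: derivatives of test functions, the fields `T(F)` and the leg
-/

set_option linter.all false

open MeasureTheory Filter Topology Set
open scoped SchwartzMap ComplexConjugate ENNReal ContDiff

namespace Vale.Agent.P352X.ZZ

open Vale.Agent.P352 Vale.Agent.P352.GF Vale.Agent.P352.BW Vale.Agent.P352.H246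
open Vale.Agent.P352.H496 Vale.Agent.P352.H755 Vale.Agent.P352.H15
open UniformSpace (Completion)

noncomputable section

namespace Ev

/-! ### directional derivatives of Schwartz functions -/

section ld

variable {E E' E'' : Type*} [NormedAddCommGroup E] [NormedSpace ℝ E] [NormedAddCommGroup E']
  [NormedSpace ℝ E'] [NormedAddCommGroup E''] [NormedSpace ℝ E'']

/-- the directional derivative -/
abbrev ld (v : E) : 𝓢(E, ℂ) →L[ℂ] 𝓢(E, ℂ) := LineDeriv.lineDerivOpCLM ℂ 𝓢(E, ℂ) v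

lemma ld_apply (v : E) (F : 𝓢(E, ℂ)) (x : E) : ld v F x = fderiv ℝ F x v :=
  SchwartzMap.lineDerivOp_apply_eq_fderiv v F x

lemma ld_line (v : E) (F : 𝓢(E, ℂ)) (x : E) :
    ld v F x = deriv (fun t : ℝ => F (x + t • v)) 0 := SchwartzMap.lineDerivOp_apply v F x

/-- the chain rule along a map that sends lines to lines -/
lemma ld_comp {F : 𝓢(E', ℂ)} {G : 𝓢(E, ℂ)} {A : E → E'} {v : E} {v' : E'}
    (h : ∀ x, G x = F (A x)) (hA : ∀ x (t : ℝ), A (x + t • v) = A x + t • v') (x : E) :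
    ld v G x = ld v' F (A x) := by
  simp only [ld_line, h, hA]

/-- a factor that is constant along the direction -/
lemma ld_mul {G : 𝓢(E', ℂ)} {F : 𝓢(E, ℂ)} {A : E → E'} {f : E → ℂ} {v : E} {v' : E'}
    (h : ∀ x, F x = G (A x) * f x) (hA : ∀ x (t : ℝ), A (x + t • v) = A x + t • v')
    (hf : ∀ x (t : ℝ), f (x + t • v) = f x) (x : E) : ld v F x = ld v' G (A x) * f x := by
  simp only [ld_line, h, hA, hf, deriv_mul_const_field]

lemma ld_mul' {G : 𝓢(E', ℂ)} {F : 𝓢(E, ℂ)} {A : E → E'} {f : E → ℂ} {v : E} {v' : E'}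
    (h : ∀ x, F x = f x * G (A x)) (hA : ∀ x (t : ℝ), A (x + t • v) = A x + t • v')
    (hf : ∀ x (t : ℝ), f (x + t • v) = f x) (x : E) : ld v F x = f x * ld v' G (A x) :=
  (ld_mul (fun x => (h x).trans (mul_comm _ _)) hA hf x).trans (mul_comm _ _)

lemma ld_star {G G' : 𝓢(E, ℂ)} (h : ∀ x, G' x = star (G x)) (v x : E) :
    ld v G' x = star (ld v G x) := by
  simp only [ld_line, h, deriv.star]

lemma tsupport_ld (v : E) (F : 𝓢(E, ℂ)) : tsupport (ld v F) ⊆ tsupport F :=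
  SchwartzMap.tsupport_lineDerivOp_subset v F

lemma cs_ld (v : E) {F : 𝓢(E, ℂ)} (h : HasCompactSupport F) : HasCompactSupport (ld v F) :=
  h.isCompact.of_isClosed_subset (isClosed_tsupport _) (tsupport_ld v F)

lemma ld_sum {ι : Type*} (t : Finset ι) (a : ι → ℝ) (v : ι → E) (F : 𝓢(E, ℂ)) :
    ld (∑ i ∈ t, a i • v i) F = ∑ i ∈ t, (a i : ℂ) • ld (v i) F := by
  ext x
  simp only [ld_apply, map_sum, map_smul, SchwartzMap.sum_apply, SchwartzMap.smul_apply,
    smul_eq_mul, Complex.real_smul]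

lemma ld_smul (a : ℝ) (v : E) (F : 𝓢(E, ℂ)) : ld (a • v) F = (a : ℂ) • ld v F := by
  ext x
  simp only [ld_apply, map_smul, SchwartzMap.smul_apply, smul_eq_mul, Complex.real_smul]

lemma ld_add (v w : E) (F : 𝓢(E, ℂ)) : ld (v + w) F = ld v F + ld w F := by
  ext x
  simp only [ld_apply, map_add, SchwartzMap.add_apply]

lemma ld_comm (v w : E) (F : 𝓢(E, ℂ)) : ld v (ld w F) = ld w (ld v F) := by
  have d2 := fun x => ((F.smooth ⊤).fderiv_right (m := ∞) le_rfl).differentiable (by simp) x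
  have e : ∀ h k x, ld h (ld k F) x = fderiv ℝ (fderiv ℝ F) x h k := fun h k x => by
    rw [ld_apply, show (ld k F : E → ℂ) = fun y => fderiv ℝ F y k from funext (ld_apply k F),
      fderiv_clm_apply (d2 x) (differentiableAt_const _)]
    simp
  ext x
  rw [e, e]
  exact ((F.smooth ⊤).contDiffAt.isSymmSndFDerivAt (by simp; norm_cast)).eq v w

lemma sch_ld {f : E → ℂ} (hf : Dc f) (v : E) : ld v (sch f) = sch fun x => fderiv ℝ f x v := by
  ext x
  rw [ld_apply, Far.sch_coe hf, Far.sch_apply (Ap.cs_fderiv v hf)]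

/-- seminorm bounds for continuous linear maps -/
lemma sn_clm (L : 𝓢(E, ℂ) →L[ℂ] 𝓢(E', ℂ)) (m : ℕ) :
    ∃ (m' : ℕ) (C : ℝ), 0 ≤ C ∧ ∀ f, sn m (L f) ≤ C * sn m' f := by
  obtain ⟨C, N, C0, h⟩ := ST.clm_sn' (L.restrictScalars ℝ) m
  exact ⟨N, C, C0, fun f => by rw [Api4.sn_eq, Api4.sn_eq]; exact h f⟩

end ld

lemma ev_ld (h : V) (f : Sch) : ev (ld h f) = dv h (ev f) :=
  funext fun x => (ld_apply h f x).trans (Ap.dv_eq (f.differentiable x) h).symm

lemma ev_pd (n : Ix) (f : Sch) : ev (ld (bas n 1) f) = pd n (ev f) := by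
  rw [ev_ld, Ap.dv_bas]

lemma bar_pd (n : Ix) (f : Fn) : bar (pd n f) = pd n (bar f) := by
  funext x
  simp only [bar, pd, deriv.star]

lemma bar_dv (h : V) (f : Fn) : bar (dv h f) = dv h (bar f) := by
  funext x
  simp only [dv, ← bar_pd, bar, star_sum, star_mul', Complex.star_def, Complex.conj_ofReal]

lemma p21_eq (n : Ix) : p21 n = ld ((bas n 1, 0) : V × V) := rfl
lemma p22_eq (n : Ix) : p22 n = ld ((0, bas n 1) : V × V) := rfl
lemma p31_eq (n : Ix) : p31 n = ld ((bas n 1, 0, 0) : V × V × V) := rfl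
lemma p33_eq (n : Ix) : p33 n = ld ((0, 0, bas n 1) : V × V × V) := rfl

lemma p21_tens {F : S2} {f : Sch} {g : Fn} (e : ∀ x y, F (x, y) = f x * g y) (n : Ix) (x y : V) :
    p21 n F (x, y) = ld (bas n 1) f x * g y :=
  ld_mul (A := Prod.fst) (f := fun z => g z.2) (fun z => e z.1 z.2) (fun _ _ => rfl)
    (fun z t => by simp) (x, y)

lemma p22_tens {F : S2} {f : Fn} {g : Sch} (e : ∀ x y, F (x, y) = f x * g y) (n : Ix) (x y : V) :
    p22 n F (x, y) = f x * ld (bas n 1) g y :=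
  ld_mul' (A := Prod.snd) (f := fun z => f z.1) (fun z => e z.1 z.2) (fun _ _ => rfl)
    (fun z t => by simp) (x, y)

/-- similitudes send lines to lines -/
lemma sim_line (s : ℝ) (L : Ix → V) (a x : V) (q : Ix) (t : ℝ) :
    sim s L a (x + t • bas q 1) = sim s L a x + t • ∑ n, (s * L q n) • bas n 1 := by
  have : ∑ n, (s * L q n) • bas n 1 = s • L q := Ap.sum_bas (s • L q)
  rw [this]
  funext n
  simp only [sim, Pi.add_apply, Pi.smul_apply, smul_eq_mul, add_mul, Finset.sum_add_distrib, bas]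
  simp
  ring

/-- the derivative of a pull back in the second point -/
lemma p22_sim {s : ℝ} {L : Ix → V} {a : V} {F G : S2}
    (e : ∀ x y, G (x, y) = F (sim s L a x, sim s L a y)) (q : Ix) (x y : V) :
    p22 q G (x, y) = ∑ n, ((s * L q n : ℝ) : ℂ) * p22 n F (sim s L a x, sim s L a y) := by
  have := ld_comp (A := fun z : V × V => (sim s L a z.1, sim s L a z.2)) (v := (0, bas q 1))
    (v' := ∑ n, (s * L q n) • ((0, bas n 1) : V × V)) (fun z => e z.1 z.2) (fun z t => by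
      refine Prod.ext (by simp [Prod.fst_sum]) ?_
      simp only [Prod.snd_add, Prod.smul_snd, Prod.snd_sum, sim_line]) (x, y)
  rw [p22_eq, this, ld_sum]
  simp only [SchwartzMap.sum_apply, SchwartzMap.smul_apply, smul_eq_mul, p22_eq]

/-- the derivative of a pull back in the first point -/
lemma p21_sim {s : ℝ} {L : Ix → V} {a : V} {F G : S2}
    (e : ∀ x y, G (x, y) = F (sim s L a x, sim s L a y)) (q : Ix) (x y : V) :
    p21 q G (x, y) = ∑ n, ((s * L q n : ℝ) : ℂ) * p21 n F (sim s L a x, sim s L a y) := by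
  have := ld_comp (A := fun z : V × V => (sim s L a z.1, sim s L a z.2)) (v := (bas q 1, 0))
    (v' := ∑ n, (s * L q n) • ((bas n 1, 0) : V × V)) (fun z => e z.1 z.2) (fun z t => by
      refine Prod.ext ?_ (by simp [Prod.snd_sum])
      simp only [Prod.fst_add, Prod.smul_fst, Prod.fst_sum, sim_line]) (x, y)
  rw [p21_eq, this, ld_sum]
  simp only [SchwartzMap.sum_apply, SchwartzMap.smul_apply, smul_eq_mul, p21_eq]

/-! ### tensor test functions -/

/-- tensor test functions -/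
def TT (F : Ix → Ix → Fn) : Prop := ∀ m n, GF.IsTest (F m n)
/-- the values of a Schwartz tensor -/
def evF (F : Ix → Ix → Sch) : Ix → Ix → Fn := fun m n => ev (F m n)
/-- complex conjugation -/
def barF (F : Ix → Ix → Fn) : Ix → Ix → Fn := fun m n => bar (F m n)
/-- seminorms of a Schwartz tensor -/
def snF (k : ℕ) (F : Ix → Ix → Sch) : ℝ := ∑ m, ∑ n, sn k (F m n)
/-- tensor test functions in a region -/
def InF (O : Set V) (F : Ix → Ix → Fn) : Prop := ∀ m n, In O (F m n)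
/-- `ad` on Schwartz functions -/
def adS (h : V) (f : Sch) : Ix → Ix → Sch := fun m n => ((eta m * h m : ℝ) : ℂ) • ld (bas n 1) f

lemma evF_adS (h : V) (f : Sch) : evF (adS h f) = ad h (ev f) := by
  funext m n x
  rw [ad, ← ev_pd]
  rfl

lemma tt_evF (F : Ix → Ix → Sch) : TT (evF F) := fun m n => ⟨F m n, rfl⟩

lemma InF.tt {O : Set V} {F : Ix → Ix → Fn} (h : InF O F) : TT F := fun m n => (h m n).1

lemma InF.mono {O O' : Set V} {F : Ix → Ix → Fn} (h : InF O F) (e : O ⊆ O') : InF O' F :=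
  fun m n => Ap.in_mono (h m n) e

lemma InF.bar {O : Set V} {F : Ix → Ix → Fn} (h : InF O F) : InF O (barF F) :=
  fun m n => Ap.in_bar (h m n)

lemma TT.bar {F : Ix → Ix → Fn} (h : TT F) : TT (barF F) := fun m n => Ap.test_bar (h m n)

lemma barF_barF (F : Ix → Ix → Fn) : barF (barF F) = F :=
  funext fun m => funext fun n => Ap.bar_bar _

lemma TT.lin {F G : Ix → Ix → Fn} (hF : TT F) (hG : TT G) (a : ℂ) :
    TT fun m n x => F m n x + a * G m n x := fun m n => Ap.sw_lin a (hF m n) (hG m n)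

lemma tt_ad (h : V) {f : Fn} (hf : IsTest f) : TT (ad h f) :=
  fun m n => Ap.sw_cmul _ (Ap.test_pd n hf)

lemma tt_hk (h k : V) {f : Fn} (hf : IsTest f) : TT (hk h k f) := Ap.test_hk h k hf

lemma tsupport_ad (h : V) (f : Fn) (m n : Ix) : tsupport (ad h f m n) ⊆ tsupport f :=
  tsupport_mul_subset_right.trans (Ap.tsupport_pd n f)

lemma in_ad (h : V) {O : Set V} {f : Fn} (hf : In O f) : InF O (ad h f) :=
  fun m n => Ap.in_cmul _ (Ap.in_pd n hf)

lemma barF_ad (h : V) (f : Fn) : barF (ad h f) = ad h (bar f) := by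
  funext m n x
  simp only [barF, ad, ← bar_pd, bar, star_mul', Complex.star_def, Complex.conj_ofReal]

lemma barF_hk (a b : V) (h : Fn) : barF (hk a b h) = hk a b (bar h) := by
  funext m n x
  simp [barF, bar, hk]

lemma ad_lin (h : V) {f g : Fn} (a : ℂ) (hf : IsTest f) (hg : IsTest g) :
    ad h (fun x => f x + a * g x) = fun m n x => ad h f m n x + a * ad h g m n x := by
  obtain ⟨f, rfl⟩ := hf
  obtain ⟨g, rfl⟩ := hg
  funext m n x
  have : (fun x => ev f x + a * ev g x) = ev (f + a • g) := rfl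
  simp only [ad, this, ← ev_pd, map_add, map_smul]
  simp only [ev, SchwartzMap.add_apply, SchwartzMap.smul_apply, smul_eq_mul]
  ring

lemma snF_nonneg (k : ℕ) (F : Ix → Ix → Sch) : 0 ≤ snF k F :=
  Finset.sum_nonneg fun _ _ => Finset.sum_nonneg fun _ _ => Lie.sn_nonneg _ _

lemma sn_le_snF (k : ℕ) (F : Ix → Ix → Sch) (m n : Ix) : sn k (F m n) ≤ snF k F :=
  (Finset.single_le_sum (f := fun n => sn k (F m n)) (fun _ _ => Lie.sn_nonneg _ _)
    (Finset.mem_univ n)).trans (Finset.single_le_sum (f := fun m => ∑ n, sn k (F m n))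
      (fun _ _ => Finset.sum_nonneg fun _ _ => Lie.sn_nonneg _ _) (Finset.mem_univ m))

lemma snF_mono {k l : ℕ} (h : k ≤ l) (F : Ix → Ix → Sch) : snF k F ≤ snF l F :=
  Finset.sum_le_sum fun _ _ => Finset.sum_le_sum fun _ _ => Lie.sn_mono h _

lemma snF_adS (h : V) (k : ℕ) : ∃ (k' : ℕ) (C : ℝ), 0 ≤ C ∧ ∀ f, snF k (adS h f) ≤ C * sn k' f := by
  choose N C C0 hC using fun q : Ix × Ix =>
    sn_clm (((eta q.1 * h q.1 : ℝ) : ℂ) • ld (bas q.2 1 : V)) k
  refine ⟨Finset.univ.sup N, ∑ m, ∑ n, C (m, n), Finset.sum_nonneg fun _ _ =>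
    Finset.sum_nonneg fun _ _ => C0 _, fun f => ?_⟩
  simp only [snF, Finset.sum_mul]
  exact Finset.sum_le_sum fun m _ => Finset.sum_le_sum fun n _ => (hC (m, n) f).trans
    (mul_le_mul_of_nonneg_left (Lie.sn_mono (Finset.le_sup (Finset.mem_univ _)) f) (C0 _))

lemma adS_sub (h : V) (f g : Sch) : adS h (f - g) = adS h f - adS h g := by
  funext m n
  simp only [adS, map_sub, smul_sub, Pi.sub_apply]

/-! ### the fields -/

variable {D : Type*} [NormedAddCommGroup D] [InnerProductSpace ℂ D] (c : Ctx D)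

lemma fld (m n : Ix) : c.Q.fld (c.T m n) := c.Q.bose_fld _ (c.hT.bose m n)

lemma T_smul (m n : Ix) (a : ℂ) {f : Fn} (hf : IsTest f) (v : D) :
    c.T m n (fun x => a * f x) v = a • c.T m n f v := Grp.fld_smul (fld c m n) a hf v

lemma T_adj (m n : Ix) {f : Fn} (hf : IsTest f) : Adj (c.T m n f) (c.T m n (bar f)) :=
  fun v w => c.hT.herm m n f v w hf

lemma Tf_adj {F : Ix → Ix → Fn} (hF : TT F) : Adj (c.Tf F) (c.Tf (barF F)) :=
  fun v w => by simp only [Ctx.Tf, barF, sum_inner, inner_sum, T_adj c _ _ (hF _ _) v w]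

lemma Wf_adj (h : V) {f : Fn} (hf : IsTest f) : Adj (c.Wf h f) (c.Wf h (bar f)) := by
  have := Tf_adj c (tt_ad h hf)
  rwa [barF_ad] at this

lemma Thf_adj {f : Fn} (hf : IsTest f) : Adj (c.Thf f) (c.Thf (bar f)) := Wf_adj c va hf

lemma Thf_def (f : Fn) : c.Thf f = c.Tf (ad va f) := rfl
lemma Th_def (f : Fn) : c.Th f = c.Tv (ad va f) := rfl

lemma adj_sum {X Y : D → D} (h : Adj X Y) {ι : Type*} (s : Finset ι) (a : ι → ℂ) (v : ι → D) :
    X (∑ i ∈ s, a i • v i) = ∑ i ∈ s, a i • X (v i) :=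
  ext_inner_right ℂ fun u => by simp only [h _ u, sum_inner, inner_smul_left]

lemma adj_sum' {X Y : D → D} (h : Adj X Y) {ι : Type*} (s : Finset ι) (v : ι → D) :
    X (∑ i ∈ s, v i) = ∑ i ∈ s, X (v i) := by simpa using adj_sum h s (fun _ => 1) v

lemma adj_zero {X Y : D → D} (h : Adj X Y) : X 0 = 0 :=
  ext_inner_right ℂ fun u => by rw [h, inner_zero_left, inner_zero_left]

lemma coe_sum {ι : Type*} (s : Finset ι) (v : ι → D) :
    ((∑ i ∈ s, v i : D) : Completion D) = ∑ i ∈ s, (v i : Completion D) :=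
  map_sum (Completion.toComplL (𝕜 := ℂ)) v s

lemma Tf_lin {F G : Ix → Ix → Fn} (hF : TT F) (hG : TT G) (a : ℂ) (v : D) :
    c.Tf (fun m n x => F m n x + a * G m n x) v = c.Tf F v + a • c.Tf G v := by
  simp only [Ctx.Tf, Finset.smul_sum, ← Finset.sum_add_distrib]
  exact Finset.sum_congr rfl fun m _ => Finset.sum_congr rfl fun n _ =>
    c.Q.lin _ _ _ a v (fld c m n) (hF m n) (hG m n)

lemma Tv_lin {F G : Ix → Ix → Fn} (hF : TT F) (hG : TT G) (a : ℂ) :
    c.Tv (fun m n x => F m n x + a * G m n x) = c.Tv F + a • c.Tv G := by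
  rw [Ctx.Tv, Tf_lin c hF hG, Completion.coe_add, Completion.coe_smul]
  rfl

lemma Tv_eq (F : Ix → Ix → Fn) :
    c.Tv F = ∑ m, ∑ n, ((c.T m n (F m n) c.Q.vac : D) : Completion D) := by
  simp only [Ctx.Tv, Ctx.Tf, coe_sum]

lemma Tv_sub (F G : Ix → Ix → Sch) : c.Tv (evF (F - G)) = c.Tv (evF F) - c.Tv (evF G) := by
  have := Tv_lin c (tt_evF F) (tt_evF G) (-1)
  rw [neg_one_smul, ← sub_eq_add_neg] at this
  rw [← this]
  congr 1
  funext m n x
  simp [evF, ev, sub_eq_add_neg]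

lemma Tf_hk (h k : V) {f : Fn} (hf : IsTest f) (v : D) : c.Tf (hk h k f) v =
    ∑ m, ∑ n, ((eta m * h m * (eta n * k n) : ℝ) : ℂ) • c.T m n f v :=
  Finset.sum_congr rfl fun m _ => Finset.sum_congr rfl fun n _ => T_smul c m n _ hf v

lemma Tv_hk (h k : V) {f : Fn} (hf : IsTest f) : c.Tv (hk h k f) = ∑ m, ∑ n,
    ((eta m * h m * (eta n * k n) : ℝ) : ℂ) • ((c.T m n f c.Q.vac : D) : Completion D) := by
  simp only [Ctx.Tv, Tf_hk c h k hf, coe_sum, Completion.coe_smul]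

/-- a component as a value of `Tf` -/
lemma T_eq_hk (m n : Ix) {f : Fn} (hf : IsTest f) (v : D) :
    c.T m n f v = c.Tf (hk (bas m (eta m)) (bas n (eta n)) f) v := by
  rw [Tf_hk c _ _ hf, Finset.sum_eq_single m, Finset.sum_eq_single n]
  · fin_cases m <;> fin_cases n <;> simp [bas, eta, o]
  all_goals simp +contextual [bas]

lemma Wf_eq (h : V) {f : Fn} (hf : IsTest f) (v : D) :
    c.Wf h f v = ∑ m, ∑ n, ((eta m * h m : ℝ) : ℂ) • c.T m n (pd n f) v := by
  unfold Ctx.Wf Ctx.Tf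
  exact Finset.sum_congr rfl fun m _ => Finset.sum_congr rfl fun n _ =>
    T_smul c m n _ (Ap.test_pd n hf) v

lemma Thf_eq {f : Fn} (hf : IsTest f) (v : D) :
    c.Thf f v = ∑ m, ∑ n, ((eta m * va m : ℝ) : ℂ) • c.T m n (pd n f) v := Wf_eq c va hf v

lemma Th_eq {f : Fn} (hf : IsTest f) : c.Th f = ∑ m, ∑ n,
    ((eta m * va m : ℝ) : ℂ) • ((c.T m n (pd n f) c.Q.vac : D) : Completion D) := by
  simp only [Ctx.Th, Thf_eq c hf, coe_sum, Completion.coe_smul]

lemma Thf_lin {f g : Fn} (a : ℂ) (hf : IsTest f) (hg : IsTest g) (v : D) :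
    c.Thf (fun x => f x + a * g x) v = c.Thf f v + a • c.Thf g v := by
  rw [Thf_def, ad_lin va a hf hg, Tf_lin c (tt_ad _ hf) (tt_ad _ hg)]
  rfl

lemma Th_lin {f g : Fn} (a : ℂ) (hf : IsTest f) (hg : IsTest g) :
    c.Th (fun x => f x + a * g x) = c.Th f + a • c.Th g := by
  rw [Ctx.Th, Thf_lin c a hf hg, Completion.coe_add, Completion.coe_smul]
  rfl

lemma Th_add {f g : Fn} (hf : IsTest f) (hg : IsTest g) :
    c.Th (fun x => f x + g x) = c.Th f + c.Th g := by
  simpa only [one_mul, one_smul] using Th_lin c 1 hf hg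

lemma Th_zero : c.Th (fun _ => 0) = 0 := by
  simpa using Th_add c (f := fun _ => 0) (g := fun _ => 0) Ap.sw_zero Ap.sw_zero

lemma Th_smul (a : ℂ) {f : Fn} (hf : IsTest f) : c.Th (fun x => a * f x) = a • c.Th f := by
  simpa only [zero_add, Th_zero] using Th_lin c a Ap.sw_zero hf

lemma Th_sub (f g : Sch) : c.Th (ev (f - g)) = c.Th (ev f) - c.Th (ev g) := by
  simp only [Th_def, ← evF_adS, adS_sub, Tv_sub]

/-- the leg as a continuous linear map -/
def thL (v : D) : Sch →L[ℂ] D := ∑ m, ∑ n,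
  ((eta m * va m : ℝ) : ℂ) • Grp.fC (fld c m n) v ∘L ld (bas n 1)

lemma thL_apply (v : D) (f : Sch) : thL c v f = c.Thf (ev f) v := by
  simp only [thL, Thf_eq c ⟨f, rfl⟩, ContinuousLinearMap.sum_apply, ContinuousLinearMap.smul_apply,
    ContinuousLinearMap.comp_apply, Grp.fC_apply, ev_pd]

/-- locality -/
lemma Tf_comm {F G : Ix → Ix → Fn} (hF : TT F) (hG : TT G)
    (h : ∀ m n k l, Sep (F m n) (G k l)) (v : D) : c.Tf F (c.Tf G v) = c.Tf G (c.Tf F v) := by
  rw [Ctx.Tf.eq_1 c F, Ctx.Tf.eq_1 c F, adj_sum' (Tf_adj c hG)]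
  refine Finset.sum_congr rfl fun m _ => ?_
  rw [adj_sum' (Tf_adj c hG)]
  refine Finset.sum_congr rfl fun n _ => ?_
  rw [Ctx.Tf, Ctx.Tf, adj_sum' (T_adj c m n (hF m n))]
  refine Finset.sum_congr rfl fun k _ => ?_
  rw [adj_sum' (T_adj c m n (hF m n))]
  exact Finset.sum_congr rfl fun l _ =>
    c.Q.loc _ _ _ _ v (c.hT.bose m n) (fld c k l) (hF m n) (hG k l) (h m n k l)

lemma sep_mono {f g f' g' : Fn} (h : Sep f g) (a : tsupport f' ⊆ tsupport f)
    (b : tsupport g' ⊆ tsupport g) : Sep f' g' := fun x hx y hy => h x (a hx) y (b hy)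

variable {c}

lemma perp_TF (hg : GRP c) {F : Ix → Ix → Fn} (hF : TT F) : inner ℂ c.Om (c.Tv F) = 0 := by
  simp only [Tv_eq, inner_sum, Ctx.Om, om, Completion.inner_coe, hg.perp _ _ _ (hF _ _),
    Finset.sum_const_zero]

lemma perp_Th (hg : GRP c) {f : Fn} (hf : IsTest f) : inner ℂ c.Om (c.Th f) = 0 :=
  perp_TF hg (tt_ad _ hf)

/-- the leg in null coordinates -/
lemma Th_null (hg : GRP c) {f : Fn} (hf : IsTest f) : c.Th f = c.Tv (hk va va (dv vb f)) +
    c.Tv (hk va vb (dv va f)) - ∑ i, c.Tv (hk va (ex i) (dv (ex i) f)) := by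
  simp only [Ctx.Th, Ctx.Thf, Ctx.Tv, hg.trace va f _ hf, Completion.coe_sub, Completion.coe_add,
    coe_sum]

end Ev

end

end Vale.Agent.P352X.ZZ
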