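import Vale.Agent.P352Z.R.Ev

/-!
# P352Z, row FAR: far parts of the plane, and both legs on one side
-/

set_option linter.all false

open MeasureTheory Filter Topology
open scoped SchwartzMap ComplexConjugate ENNReal ContDiff

namespace Vale.Agent.P352X.ZZ

open Vale.Agent.P352 Vale.Agent.P352.GF Vale.Agent.P352.BW Vale.Agent.P352.H246
open Vale.Agent.P352.H496 Vale.Agent.P352.H755 Vale.Agent.P352.H15
open UniformSpace (Completion)

noncomputable section

namespace Far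

export Vale.Agent.P352X.Far (sch_apply sch_coe dc_star isTest_dc tsupport_pr dc_pr scE tst_kL
  tsupport_kL bar_pr dc_tri sw1 sw2 legs tri late_iff d2_far d2_sub_comm far_est norm_legs split)
export Ev (T_smul Tv_hk)

/-! ### factorization -/

variable {D : Type*} [NormedAddCommGroup D] [InnerProductSpace ℂ D] (c : Ctx D)

/-- `w(ϑ, ϑ)` -/
def wTT (w : I2 → I2 → S2 →L[ℂ] Completion D) (G : S2) : Completion D := ∑ m, ∑ n, ∑ p, ∑ q,
  ((eta m * va m * (eta p * va p) : ℝ) : ℂ) • w (m, n) (p, q) (p21 n (p22 q G))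

/-- the derivatives act on the two legs -/
lemma p13 {f : Fn} {G : S2} {F : S3} (e : ∀ x y z, F (x, y, z) = G (x, z) * f y) (n q : Ix)
    (x y z : V) : p31 n (p33 q F) (x, y, z) = p21 n (p22 q G) (x, z) * f y :=
  Ev.ld_mul (A := fun z : V × V × V => (z.1, z.2.2)) (f := fun z => f z.2.1) (fun z =>
    Ev.ld_mul (A := fun z : V × V × V => (z.1, z.2.2)) (f := fun z => f z.2.1)
      (fun z => e z.1 z.2.1 z.2.2) (fun z t => by simp) (fun z t => by simp) z)
    (fun z t => by simp) (fun z t => by simp) (x, y, z)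

lemma legs_p (n q : Ix) (G : S2) : legs (p21 n (p22 q G)) ⊆ legs G :=
  have h := (Ev.tsupport_ld ((bas n 1, 0) : V × V) _).trans
    (Ev.tsupport_ld ((0, bas q 1) : V × V) G)
  Set.union_subset_union (Set.image_mono h) (Set.image_mono h)

lemma sum6 {M : Type*} [AddCommMonoid M] (F : Ix → Ix → Ix → Ix → Ix → Ix → M) :
    ∑ m, ∑ n, ∑ k, ∑ l, ∑ p, ∑ q, F m n k l p q = ∑ k, ∑ l, ∑ m, ∑ n, ∑ p, ∑ q, F m n k l p q :=
  Grp.sum4 fun m n k l => ∑ p, ∑ q, F m n k l p q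

/-- the middle leg is not earlier than the two others -/
theorem facP [Fact c.tp] (f : Sch) (G : S2) (F : S3) (e : ∀ x y z, F (x, y, z) = G (x, z) * f y)
    (h : Late (tsupport f) (legs G)) :
    c.t0 F = inner ℂ (c.Tv (hk va va (bar (ev f)))) (wTT c.wp G) := by
  have key : ∀ I J K n q, c.t I J K (p31 n (p33 q F)) =
      inner ℂ ((c.T J.1 J.2 (bar (ev f)) c.Q.vac : D) : Completion D)
        (c.wp I K (p21 n (p22 q G))) := by
    intro I J K n q
    rw [c.hTP.swap1 I J K _ (SchwartzMap.compCLMOfContinuousLinearEquiv ℂ sw1 _) fun _ _ _ => rfl]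
    exact c.hTP.fac1 J I K f _ _ (fun x y z => (p13 e n q y x z).trans (mul_comm _ _))
      fun x hx y hy => h x hx y (legs_p n q G hy)
  rw [Tv_hk c va va (isTest_bar ⟨f, rfl⟩)]
  simp only [sum_inner, inner_smul_left]
  simp only [Ctx.t0, key, wTT, inner_sum, inner_smul_right, Complex.conj_ofReal, Finset.mul_sum]
  rw [sum6]
  refine Finset.sum_congr rfl fun k _ => Finset.sum_congr rfl fun l _ =>
    Finset.sum_congr rfl fun m _ => Finset.sum_congr rfl fun n _ =>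
    Finset.sum_congr rfl fun p _ => Finset.sum_congr rfl fun q _ => ?_
  push_cast
  ring

/-- the middle leg is not later than the two others -/
theorem facM [Fact c.tp] (f : Sch) (G G' : S2) (F : S3) (e : ∀ x y z, F (x, y, z) = G (x, z) * f y)
    (e' : ∀ x, G' x = star (G x)) (h : Late (legs G) (tsupport f)) :
    c.t0 F = inner ℂ (wTT c.wm G') (c.Tv (hk va va (ev f))) := by
  have key : ∀ I J K n q, c.t I J K (p31 n (p33 q F)) = inner ℂ (c.wm I K (p21 n (p22 q G')))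
      ((c.T J.1 J.2 (ev f) c.Q.vac : D) : Completion D) := by
    intro I J K n q
    rw [c.hTP.swap2 I J K _ (SchwartzMap.compCLMOfContinuousLinearEquiv ℂ sw2 _) fun _ _ _ => rfl]
    exact c.hTP.fac3 I K J (p21 n (p22 q G)) _ f _ (fun x y z => p13 e n q x z y)
      (Ev.ld_star (Ev.ld_star e' _) _) fun x hx y hy => h x (legs_p n q G hx) y hy
  rw [Tv_hk c va va ⟨f, rfl⟩]
  simp only [inner_sum, inner_smul_right]
  simp only [Ctx.t0, key, wTT, sum_inner, inner_smul_left, Complex.conj_ofReal, Finset.mul_sum]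
  rw [sum6]
  refine Finset.sum_congr rfl fun k _ => Finset.sum_congr rfl fun l _ =>
    Finset.sum_congr rfl fun m _ => Finset.sum_congr rfl fun n _ =>
    Finset.sum_congr rfl fun p _ => Finset.sum_congr rfl fun q _ => ?_
  push_cast
  ring

lemma t0_add (F G : S3) : c.t0 (F + G) = c.t0 F + c.t0 G := by
  simp only [Ctx.t0, map_add, mul_add, Finset.sum_add_distrib]

variable {c}

/-- `U(sc(L, 1)) T_aa(g ρ) Ω = L T_aa(g_L ρ) Ω` -/
theorem usc_Tv [Fact c.can] (hg : GRP c) {g : P3 → ℝ} {ρ : ℝ → ℝ} (h1 : Tst g) (h2 : Tst ρ) {L : ℝ}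
    (hL : 0 < L) :
    Usc c.Q L 1 (c.Tv (hk va va (pr g ρ))) = (L : ℂ) • c.Tv (hk va va (pr (kL g L) ρ)) := by
  obtain ⟨hΛ, hs⟩ := hg.lsc L 1 hL one_pos
  have hq : 0 < Real.sqrt (L * 1) := Real.sqrt_pos.2 (by positivity)
  have hq' : 0 < Real.sqrt L := Real.sqrt_pos.2 hL
  have ht := isTest_dc (dc_pr (tst_kL h1 hL) h2)
  set Λ := bst va vb (Real.sqrt (L / 1) - 1) (Real.sqrt (1 / L) - 1)
  have e1 : (fun x => pr (kL g L) ρ (sim (Real.sqrt (L * 1)) Λ 0 x)) = pr g ρ := by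
    funext x
    rw [hs]
    simp only [pr, kL, pl_1, pl_2, al_scp, be_scp, tx_scp, mul_one, one_mul, smul_smul]
    rw [inv_mul_cancel₀ hq'.ne', one_smul, mul_div_cancel_left₀ _ hL.ne']
    rfl
  have e2 : sim 1 Λ 0 va = Real.sqrt L • va := by
    have h3 : Real.sqrt L • sim 1 Λ 0 va = L • va := by
      have : scp L 1 va = L • va := null_ext (by simp) (by simp) (by simp)
      rw [← this, ← hs]
      funext n
      simp [sim]
    have h4 : L • va = Real.sqrt L • Real.sqrt L • va := by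
      rw [smul_smul, Real.mul_self_sqrt hL.le]
    exact smul_right_injective _ hq'.ne' (h3.trans h4)
  have := hg.ten _ Λ 0 va va _ c.Q.vac hq hΛ ht
  rw [e1, e2, c.Q.U_vac _ _ _ hq hΛ] at this
  rw [Ctx.Tv, Usc, hg.coe _ _ _ _ hq hΛ, this]
  change c.Tv _ = _
  rw [Tv_hk c _ _ ht, Tv_hk c _ _ ht, Finset.smul_sum]
  refine Finset.sum_congr rfl fun m _ => ?_
  rw [Finset.smul_sum]
  refine Finset.sum_congr rfl fun n _ => ?_
  rw [smul_smul, ← Complex.ofReal_mul]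
  congr 2
  simp only [Pi.smul_apply, smul_eq_mul]
  have := Real.mul_self_sqrt hL.le
  linear_combination (eta m * va m * (eta n * va n)) * this

lemma perp_Tv (hg : GRP c) (h k : V) {f : Fn} (hf : IsTest f) :
    inner ℂ c.Om (c.Tv (hk h k f)) = 0 := by
  rw [Tv_hk c _ _ hf]
  simp only [inner_sum, inner_smul_right, Ctx.Om, om, Completion.inner_coe, hg.perp _ _ _ hf,
    mul_zero, Finset.sum_const_zero]

/-- weak nullity along `sc(L, 1)` -/
lemma wn (hg : GRP c) (hb : BAS c) {η : Completion D} (h : inner ℂ c.Om η = 0)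
    (w : Completion D) : Tendsto (fun L : ℝ => inner ℂ (Usc c.Q L 1 η) w) atTop (𝓝 0) := by
  have := hb.wn ℝ atTop (fun L => max L 1) (fun _ => 1) (fun _ => 0) (fun _ => η) η w
    (fun L => ⟨lt_max_of_lt_right one_pos, one_pos⟩)
    (Or.inl (tendsto_atTop_mono (fun L => le_max_left L 1) tendsto_id)) tendsto_const_nhds h
  refine this.congr' ?_
  filter_upwards [eventually_ge_atTop (1 : ℝ)] with L hL
  rw [hg.ut0, max_eq_left hL]
  rfl

theorem triP [Fact c.tp] (hg : GRP c) {g : P3 → ℝ} {ρ : ℝ → ℝ} {Ψ : V × V → ℂ} (h1 : Tst g) (h2 : Tst ρ)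
    (h3 : Dc Ψ) {L : ℝ} (hL : 0 < L) (h : Late (tsupport (pr (kL g L) ρ)) (legs Ψ)) :
    (L : ℂ) * c.t0 (tri Ψ g ρ L) =
      inner ℂ (Usc c.Q L 1 (c.Tv (hk va va (pr g ρ)))) (wTT c.wp (sch Ψ)) := by
  have hf := dc_pr (tst_kL h1 hL) h2
  rw [facP c (sch (pr (kL g L) ρ)) (sch Ψ) _ (fun x y z => by
      rw [sch_apply (dc_tri h3 hf), sch_apply h3, sch_apply hf])
      (by rwa [sch_coe hf, sch_coe h3]), usc_Tv hg h1 h2 hL, inner_smul_left, Complex.conj_ofReal,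
    ev, sch_coe hf, bar_pr]

theorem triM [Fact c.tp] (hg : GRP c) {g : P3 → ℝ} {ρ : ℝ → ℝ} {Ψ : V × V → ℂ} (h1 : Tst g) (h2 : Tst ρ)
    (h3 : Dc Ψ) {L : ℝ} (hL : 0 < L) (h : Late (legs Ψ) (tsupport (pr (kL g L) ρ))) :
    (L : ℂ) * c.t0 (tri Ψ g ρ L) = inner ℂ (wTT c.wm (sch fun z => star (Ψ z)))
      (Usc c.Q L 1 (c.Tv (hk va va (pr g ρ)))) := by
  have hf := dc_pr (tst_kL h1 hL) h2
  rw [facM c (sch (pr (kL g L) ρ)) (sch Ψ) (sch fun z => star (Ψ z)) _ (fun x y z => by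
      rw [sch_apply (dc_tri h3 hf), sch_apply h3, sch_apply hf])
      (fun x => by rw [sch_apply (dc_star h3), sch_apply h3])
      (by rwa [sch_coe hf, sch_coe h3]), usc_Tv hg h1 h2 hL, inner_smul_right, ev, sch_coe hf]

lemma limP (hg : GRP c) (hb : BAS c) {g : P3 → ℝ} {ρ : ℝ → ℝ} (h1 : Tst g) (h2 : Tst ρ)
    (w : Completion D) :
    Tendsto (fun L : ℝ => inner ℂ (Usc c.Q L 1 (c.Tv (hk va va (pr g ρ)))) w) atTop (𝓝 0) :=
  wn hg hb (perp_Tv hg _ _ (isTest_dc (dc_pr h1 h2))) w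

lemma limM (hg : GRP c) (hb : BAS c) {g : P3 → ℝ} {ρ : ℝ → ℝ} (h1 : Tst g) (h2 : Tst ρ)
    (w : Completion D) :
    Tendsto (fun L : ℝ => inner ℂ w (Usc c.Q L 1 (c.Tv (hk va va (pr g ρ))))) atTop (𝓝 0) := by
  have := (Complex.continuous_conj.tendsto 0).comp (limP hg hb h1 h2 w)
  simpa only [Function.comp_def, inner_conj_symm, map_zero] using this

/-- **Exact factorization** of the far part. -/
theorem far_fac [Fact c.tp] (hg : GRP c) {κ : P3 → ℝ} (h1 : Tst κ) (h0 : (0 : P3) ∉ tsupport κ) (R b : ℝ) :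
    ∃ (κp κm : P3 → ℝ) (A : ℝ), Tst κp ∧ Tst κm ∧ tsupport κp ⊆ tsupport κ ∧
      tsupport κm ⊆ tsupport κ ∧ (∀ y, κ y = κp y + κm y) ∧ 0 < A ∧ ∀ L, A ≤ L →
      ∀ (ρ : ℝ → ℝ) (Ψ : V × V → ℂ), Tst ρ → tsupport ρ ⊆ Set.Icc (-b) b → Dc Ψ →
        tsupport Ψ ⊆ Metric.closedBall 0 R → (L : ℂ) * c.t0 (tri Ψ κ ρ L) =
          inner ℂ (Usc c.Q L 1 (c.Tv (hk va va (pr κp ρ)))) (wTT c.wp (sch Ψ)) +
          inner ℂ (wTT c.wm (sch fun z => star (Ψ z)))
            (Usc c.Q L 1 (c.Tv (hk va va (pr κm ρ)))) := by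
  obtain ⟨κp, κm, A, a1, a2, a3, a4, a5, a6, a7⟩ := split h1 h0 R b
  refine ⟨κp, κm, A, a1, a2, a3, a4, a5, a6, fun L hL ρ Ψ h2 h3 h4 h5 => ?_⟩
  have hL0 := a6.trans_le hL
  obtain ⟨b1, b2⟩ := a7 L hL ρ (legs Ψ) h3 fun y hy => norm_legs h5 hy
  rw [← triP hg a1 h2 h4 hL0 b1, ← triM hg a2 h2 h4 hL0 b2, ← mul_add, ← t0_add]
  congr 2
  ext z
  rw [SchwartzMap.add_apply, sch_apply (dc_tri h4 (dc_pr (tst_kL h1 hL0) h2)),
    sch_apply (dc_tri h4 (dc_pr (tst_kL a1 hL0) h2)),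
    sch_apply (dc_tri h4 (dc_pr (tst_kL a2 hL0) h2))]
  simp only [pr, kL, a5]
  push_cast
  ring

theorem far_thm [Fact c.tp] (hg : GRP c) (hb : BAS c) : FAR c where
  far κ ρ Ψ h1 h0 h2 h3 := by
    obtain ⟨R, hR⟩ := h3.2.isCompact.isBounded.subset_closedBall 0
    obtain ⟨b, hb'⟩ := h2.2.isCompact.isBounded.subset_closedBall 0
    obtain ⟨κp, κm, A, a1, a2, -, -, -, -, a7⟩ := far_fac hg h1 h0 R b
    have := (limP hg hb a1 h2 (wTT c.wp (sch Ψ))).add
      (limM hg hb a2 h2 (wTT c.wm (sch fun z => star (Ψ z))))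
    rw [add_zero] at this
    refine this.congr' ?_
    filter_upwards [eventually_ge_atTop A] with L hL
    refine (a7 L hL ρ Ψ h2 ?_ h3 hR).symm
    rwa [Real.closedBall_eq_Icc, zero_sub, zero_add] at hb'
  side u0 κ ρ Ψ h1 h2 h3 h4 h5 := by
    rcases h5 with h5 | h5
    · refine (limP hg hb h1 h2 (wTT c.wp (sch Ψ))).congr' ?_
      filter_upwards [eventually_gt_atTop (0 : ℝ)] with L hL
      refine (triP hg h1 h2 h3 hL (late_iff.2 fun x hx y hy _ a2 => ?_)).symm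
      have b1 := (h4 (tsupport_pr _ _ hx).2).1
      rcases hy with ⟨z, hz, rfl⟩ | ⟨z, hz, rfl⟩
      · linarith [(h5 hz).1]
      · linarith [(h5 hz).2]
    · refine (limM hg hb h1 h2 (wTT c.wm (sch fun z => star (Ψ z)))).congr' ?_
      filter_upwards [eventually_gt_atTop (0 : ℝ)] with L hL
      refine (triM hg h1 h2 h3 hL (late_iff.2 fun y hy x hx _ a2 => ?_)).symm
      have b1 := (h4 (tsupport_pr _ _ hx).2).2
      rcases hy with ⟨z, hz, rfl⟩ | ⟨z, hz, rfl⟩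
      · linarith [(h5 hz).1]
      · linarith [(h5 hz).2]

end Far

theorem far_row {D : Type*} [NormedAddCommGroup D] [InnerProductSpace ℂ D] (c : Ctx D) [Fact c.tp] :
    T3 c → FAR c := fun h => Far.far_thm h.grp h.bas

end

end Vale.Agent.P352X.ZZ
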