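import Vale.Agent.P352X.R.Br
import Vale.Agent.P352Z.Main0

/-!
# P352Z (port of P352X): the bridge between the context and the Borel calculus
-/

noncomputable section

open MeasureTheory Filter Topology Complex Set

namespace Vale.Agent.P352X.ZZ

open Vale.Agent.P352 Vale.Agent.P352.GF Vale.Agent.P352.BW
open Vale.Agent.P352.H496 Vale.Agent.P352.H755 Vale.Agent.P352.H15
open SN (BC Calc Bd IsPair URep)
open UniformSpace (Completion)

open Vale.Agent.P352X.Br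

namespace Ctx

variable {D : Type*} [NormedAddCommGroup D] [InnerProductSpace ℂ D] (c : Ctx D)

lemma bR : Rep c.Q c.A := c.hN.toRep

lemma bV : Kin.UVac c.Q := c.hU

/-- the calculus of the translations -/
def ct : Kin.TC c.Q :=
  ⟨c.bt.toCalc, fun y v => (c.bt.Phi_ch y v).trans (Ut_apply c.Q y v)⟩

lemma ct_calc : c.ct.toCalc = c.bt.toCalc := rfl

lemma ut_Phi (y : V) (t : ℝ) (z : Completion D) :
    Ut c.Q (t • y) z = c.bt.Phi (fun p => cexp (I * (t * GF.mdot y p : ℝ))) z := by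
  simpa only [md_comm _ y] using c.bt.U_smul SN.isPair_mdot t y z

lemma cgn_ut (y : V) {ψ k : Completion D} : Gn (fun t => Ut c.Q (t • y)) ψ k ↔
    c.bt.Dom (fun p => (GF.mdot y p : ℂ)) ψ ∧ c.bt.Psi (fun p => (GF.mdot y p : ℂ)) ψ = k :=
  gn_iff c.bt.toCalc (Kin.meas_md y) fun t => c.ut_Phi y t ψ

lemma cgn_Pa {ψ k : Completion D} : Gn (Pa c.Q) ψ k ↔
    c.bt.Dom (fun p => (be p : ℂ)) ψ ∧ c.bt.Psi (fun p => (be p : ℂ)) ψ = k := c.cgn_ut va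

lemma cgn_Pb {ψ k : Completion D} : Gn (Pb c.Q) ψ k ↔
    c.bt.Dom (fun p => (al p : ℂ)) ψ ∧ c.bt.Psi (fun p => (al p : ℂ)) ψ = k := c.cgn_ut vb

/-- a joint calculus of `K`, `M`, `P` -/
def kc : Kin.KC c.Q c.S va ex := (Kin.exists_KC c.bR c.hS fr).some

lemma kpos (z w : Completion D) (h : HasDerivAt (fun t : ℝ => c.S va t z) (I • w) 0) :
    0 ≤ (inner ℂ z w).re := c.pos va z w fr.ha h

/-- the functions of `P` and `M` in the two calculi -/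
theorem common_a3 :
    (∀ f : P3 → ℂ, Bd f → ∀ v, c.kc.Phi (fun q => f (q.2.2, q.2.1)) v = c.a3.Phi f v) ∧
    (∀ v, (c.kc.nu v).map (fun q => ((q.2.2, q.2.1) : P3)) = c.a3.nu v) ∧
    ∀ f : P3 → ℂ, Measurable f → ∀ v,
      (c.kc.Dom (fun q => f (q.2.2, q.2.1)) v ↔ c.a3.Dom f v) ∧
      c.kc.Psi (fun q => f (q.2.2, q.2.1)) v = c.a3.Psi f v := by
  have h := SN.common isPair_pr3 c.kc.toCalc c.a3.toCalc (k₁ := fun q => ((q.2.2, q.2.1) : P3))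
    (k₂ := id) (by fun_prop) measurable_id fun y v => by
      have h1 := c.kc.Phi_ch (0, y.2, y.1) v
      have h2 := c.a3.Phi_ch y v
      simp only [Kin.Wk, c.hS.zero va fr.ha, one_apply_eq_self, Kin.G_a c.bR fr] at h1
      rw [← Ut_apply, ← Ga_apply, ← h2] at h1
      refine Eq.trans ?_ h1
      congr 2
      funext q
      simp [SN.ch, Kin.pk, pr3, d2_dot, add_comm]
  simpa only [Measure.map_id, id] using h

lemma S0_Phi (t : ℝ) (z : Completion D) :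
    c.S0 t z = c.kc.Phi (fun q => cexp (I * (t * Kin.k0 q : ℝ))) z := by
  rw [S0, ← c.common_a3.1 _ (Bd.expI (by unfold d2; fun_prop))]
  simp only [Kin.k0, d2_dot]

lemma SK_Phi (t : ℝ) (z : Completion D) :
    c.SK t z = c.kc.Phi (fun q => cexp (I * (t * q.1 : ℝ))) z := (Kin.Phi_S c.kc t z).symm

lemma Sk_Phi (t : ℝ) (z : Completion D) :
    c.Sk t z = c.kc.Phi (fun q => cexp (I * (t * Kin.kt q : ℝ))) z := by
  have h1 : Bd fun q : Kin.KX => cexp (I * (t * q.1 : ℝ)) :=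
    Bd.expI (measurable_const.mul measurable_fst)
  have h2 : Bd fun q : Kin.KX => cexp (I * (-t * Kin.k0 q : ℝ)) :=
    Bd.expI (measurable_const.mul Kin.k0_meas)
  rw [Sk, mul_apply_eq_comp, S0_Phi, ← Kin.Phi_S c.kc, ← c.kc.mul_apply h1 h2]
  congr 2
  funext q
  rw [← Complex.exp_add, Kin.kt]
  push_cast
  ring_nf

lemma Ga_Phi (w : R2) (z : Completion D) :
    Ga c.Q w z = c.kc.Phi (fun q => cexp (I * (d2 w q.2.1 : ℝ))) z := by
  rw [Ga_apply, ← Kin.Phi_G c.kc c.hS.toGrp0 fr.ha]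
  simp only [d2_dot]

lemma Mi_Phi (i : Fin 2) (t : ℝ) (z : Completion D) :
    Mi c.Q i t z = c.kc.Phi (fun q => cexp (I * (t * q.2.1 i : ℝ))) z := by
  rw [Mi, Ga_Phi]
  fin_cases i <;> simp [d2, e2]

lemma Pa_Phi (t : ℝ) (z : Completion D) :
    Pa c.Q t z = c.kc.Phi (fun q => cexp (I * (t * q.2.2 : ℝ))) z := by
  rw [Pa, Ut_apply, ← Kin.Phi_a c.kc c.hS.toGrp0 fr.ha]

variable {ψ k : Completion D}

lemma cgn_SK : Gn c.SK ψ k ↔
    c.kc.Dom (fun q => (q.1 : ℂ)) ψ ∧ c.kc.Psi (fun q => (q.1 : ℂ)) ψ = k :=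
  gn_iff c.kc.toCalc measurable_fst fun t => c.SK_Phi t ψ

lemma cgn_Sk : Gn c.Sk ψ k ↔
    c.kc.Dom (fun q => (Kin.kt q : ℂ)) ψ ∧ c.kc.Psi (fun q => (Kin.kt q : ℂ)) ψ = k :=
  gn_iff c.kc.toCalc Kin.kt_meas fun t => c.Sk_Phi t ψ

lemma cgn_S0 : Gn c.S0 ψ k ↔
    c.kc.Dom (fun q => (Kin.k0 q : ℂ)) ψ ∧ c.kc.Psi (fun q => (Kin.k0 q : ℂ)) ψ = k :=
  gn_iff c.kc.toCalc Kin.k0_meas fun t => c.S0_Phi t ψ

lemma cgn_Mi (i : Fin 2) : Gn (Mi c.Q i) ψ k ↔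
    c.kc.Dom (fun q => (q.2.1 i : ℂ)) ψ ∧ c.kc.Psi (fun q => (q.2.1 i : ℂ)) ψ = k :=
  gn_iff c.kc.toCalc (r := fun q => q.2.1 i) (by fun_prop) fun t => c.Mi_Phi i t ψ

lemma cgn_Pa' : Gn (Pa c.Q) ψ k ↔
    c.kc.Dom (fun q => (q.2.2 : ℂ)) ψ ∧ c.kc.Psi (fun q => (q.2.2 : ℂ)) ψ = k :=
  gn_iff c.kc.toCalc (r := fun q => q.2.2) (by fun_prop) fun t => c.Pa_Phi t ψ

end Ctx

end Vale.Agent.P352X.ZZ

end
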