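import Vale.Agent.P352Z.Spec
import Mathlib.RingTheory.MvPolynomial.EulerIdentity
import Mathlib.Algebra.MvPolynomial.Division
import Mathlib.Algebra.MvPolynomial.NoZeroDivisors

/-!
# P352Z: row NULL, without symmetry and without conservation (helper40)
-/

set_option linter.all false

namespace Vale.Agent.P352X.ZZ

open Vale.Agent.P352 Vale.Agent.P352.GF MvPolynomial

/-- row NULL without the superfluous hypotheses -/
def NULL2 : Prop := ∀ (Λ : MvPolynomial Ix ℂ →ₗ[ℂ] MvPolynomial Ix ℂ →ₗ[ℂ] ℂ) (d : ℕ)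
  (π w : Ix → Ix → MvPolynomial Ix ℂ), Fisch Λ → (∀ r s, (π r s).IsHomogeneous d) →
  (∀ r s k, mup ∣ π r s * MvPolynomial.X k - π k s * MvPolynomial.X r) →
  (∀ r s k, mup ∣ π r s * MvPolynomial.X k - π r k * MvPolynomial.X s) →
  (∀ r s, ∑ i, MvPolynomial.C (eta i : ℂ) * MvPolynomial.pderiv i (MvPolynomial.pderiv i (w r s)) = 0) →
  (∑ r, ∑ s, MvPolynomial.C (eta r * eta s : ℂ) *
    MvPolynomial.pderiv r (MvPolynomial.pderiv s (w r s)) = 0) →
  ∑ r, ∑ s, Λ (π r s) (w r s) = 0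

namespace Nul

theorem eta_ne (m : Ix) : (eta m : ℂ) ≠ 0 := by
  unfold eta; split_ifs <;> norm_num

theorem eta_sq (m : Ix) : (eta m : ℂ) * eta m = 1 := by
  unfold eta; split_ifs <;> norm_num

theorem not_dvd : ¬ (X 0 : MvPolynomial Ix ℂ) ∣ mup := by
  rintro ⟨g, h⟩
  have := congrArg (eval (Pi.single 1 1 : Ix → ℂ)) h
  simp [mup, Fin.sum_univ_four] at this
  exact eta_ne 1 (by simp [this])

theorem mup_ne : mup ≠ 0 := fun h => not_dvd (h ▸ dvd_zero _)

theorem pderiv_mup (s : Ix) : pderiv s mup = 2 * (C (eta s : ℂ) * X s) := by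
  simp only [mup, map_sum, pderiv_C_mul, pderiv_pow, pderiv_X, Pi.single_apply]
  rw [Finset.sum_eq_single s (fun b _ h => by simp [h]) (by simp)]
  simp
  ring

theorem dvd_of (f : MvPolynomial Ix ℂ) (h : mup ∣ f * X 0) : mup ∣ f := by
  obtain ⟨g, h⟩ := h
  obtain ⟨c, rfl⟩ := ((X_prime (i := (0 : Ix))).dvd_or_dvd (h ▸ dvd_mul_left (X 0) f)).resolve_left
    not_dvd
  exact ⟨c, mul_right_cancel₀ (X_ne_zero 0) (by rw [h]; ring)⟩

theorem hom_mup : mup.IsHomogeneous 2 :=
  IsHomogeneous.sum _ _ _ fun m _ => by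
    simpa using (isHomogeneous_C Ix (eta m : ℂ)).mul ((isHomogeneous_X ℂ m).pow 2)

theorem hom_of_mul {ν : MvPolynomial Ix ℂ} {e : ℕ} (h : (mup * ν).IsHomogeneous (2 + e)) :
    ν.IsHomogeneous e := by
  have key : mup * ν = mup * homogeneousComponent e ν := by
    rw [← homogeneousComponent_eq_self h]
    conv_lhs => rw [← sum_homogeneousComponent ν, Finset.mul_sum, map_sum]
    rw [Finset.sum_eq_single e (fun b _ hb => ?_) fun he => ?_]
    · exact homogeneousComponent_eq_self (hom_mup.mul (homogeneousComponent_isHomogeneous _ _))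
    · rw [homogeneousComponent_of_mem (hom_mup.mul (homogeneousComponent_isHomogeneous _ _)),
        if_neg (by omega)]
    · rw [homogeneousComponent_eq_zero e ν (by simpa using he), mul_zero, map_zero]
  rw [mul_left_cancel₀ mup_ne key]
  exact homogeneousComponent_isHomogeneous _ _

theorem ex_nu {U : Ix → MvPolynomial Ix ℂ} (hS : ∀ s k, mup ∣ U s * X k - U k * X s) :
    ∃ ν, ∑ s, C (eta s : ℂ) * X s * U s = mup * ν := dvd_of _ (by
  have := Finset.dvd_sum fun s (_ : s ∈ Finset.univ) => (hS s 0).mul_left (C (eta s : ℂ) * X s)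
  have e : ∑ s, C (eta s : ℂ) * X s * (U s * X 0 - U 0 * X s) =
      (∑ s, C (eta s : ℂ) * X s * U s) * X 0 - mup * U 0 := by
    rw [mup, Finset.sum_mul, Finset.sum_mul, ← Finset.sum_sub_distrib]
    exact Finset.sum_congr rfl fun s _ => by ring
  rw [e] at this
  simpa using this.add (dvd_mul_right mup (U 0)))

theorem trick {U : Ix → MvPolynomial Ix ℂ} {e : ℕ} {ν : MvPolynomial Ix ℂ}
    (hU : ∀ k, (U k).IsHomogeneous e) (hd : ∑ s, C (eta s : ℂ) * X s * U s = mup * ν)
    (hS : ∀ s k, mup ∣ U s * X k - U k * X s) (k : Ix) :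
    mup ∣ (∑ s, pderiv s (U s) - 2 * ν) * X k - C ((e : ℂ) + 1) * U k := by
  choose S hS using hS
  have h1 : ∑ s, C (eta s : ℂ) * X s * S s k = ν * X k - U k := by
    refine mul_left_cancel₀ mup_ne ?_
    rw [Finset.mul_sum, mul_sub, ← mul_assoc, ← hd, Finset.sum_mul]
    conv_rhs => rw [mup, Finset.sum_mul, ← Finset.sum_sub_distrib]
    exact Finset.sum_congr rfl fun s _ => by linear_combination (-(C (eta s : ℂ) * X s)) * hS s k
  have h2 : ∀ s, pderiv s (U s) * X k + U s * pderiv s (X k) - (X s * pderiv s (U k) + U k) =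
      2 * (C (eta s : ℂ) * X s * S s k) + mup * pderiv s (S s k) := fun s => by
    have := congrArg (pderiv s) (hS s k)
    rw [map_sub, pderiv_mul, pderiv_mul, pderiv_mul, pderiv_X_self, pderiv_mup] at this
    linear_combination this
  have h3 := Finset.sum_congr rfl fun s (_ : s ∈ Finset.univ) => h2 s
  have h4 : ∑ s, U s * pderiv s (X k) = U k := by
    rw [Finset.sum_eq_single k (fun b _ h => by rw [pderiv_X_of_ne h.symm, mul_zero]) (by simp),
      pderiv_X_self, mul_one]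
  simp only [Finset.sum_sub_distrib, Finset.sum_add_distrib, ← Finset.sum_mul, ← Finset.mul_sum,
    h1, h4, (hU k).sum_X_mul_pderiv, Finset.sum_const, Finset.card_univ, Fintype.card_fin,
    nsmul_eq_mul] at h3
  refine ⟨∑ s, pderiv s (S s k), ?_⟩
  rw [map_add, map_natCast, map_one]
  push_cast at h3
  linear_combination h3

/-- vector polynomials that are longitudinal on the cone -/
theorem step {U : Ix → MvPolynomial Ix ℂ} {e : ℕ} (hU : ∀ k, (U k).IsHomogeneous e)
    (hS : ∀ s k, mup ∣ U s * X k - U k * X s) :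
    ∃ σ : MvPolynomial Ix ℂ, σ.IsHomogeneous (e - 1) ∧ ∀ k, mup ∣ U k - X k * σ := by
  obtain ⟨ν, hν⟩ := ex_nu hS
  have e1 : C ((e : ℂ) + 1)⁻¹ * C ((e : ℂ) + 1) = (1 : MvPolynomial Ix ℂ) := by
    rw [← map_mul, inv_mul_cancel₀ (Nat.cast_add_one_ne_zero e), map_one]
  have hh : (mup * ν).IsHomogeneous (1 + e) := hν ▸ IsHomogeneous.sum _ _ _ fun s _ => by
    simpa using ((isHomogeneous_C Ix (eta s : ℂ)).mul (isHomogeneous_X ℂ s)).mul (hU s)
  have hn : ν.IsHomogeneous (e - 1) := by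
    rcases e with _ | e
    · by_contra hz
      have h0 : ν ≠ 0 := fun h => hz (h ▸ isHomogeneous_zero _ _ _)
      have := totalDegree_mul_of_isDomain mup_ne h0
      rw [hh.totalDegree (mul_ne_zero mup_ne h0), hom_mup.totalDegree mup_ne] at this
      omega
    · exact hom_of_mul (by rwa [show 1 + (e + 1) = 2 + e by ring] at hh)
  refine ⟨C ((e : ℂ) + 1)⁻¹ * (∑ s, pderiv s (U s) - 2 * ν), ?_, fun k => ?_⟩
  · have h2 : (2 * ν).IsHomogeneous (e - 1) := by
      rw [two_mul]
      exact hn.add hn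
    simpa using (isHomogeneous_C Ix ((e : ℂ) + 1)⁻¹).mul
      ((IsHomogeneous.sum _ _ _ fun r _ => (hU r).pderiv).sub h2)
  · convert (trick hU hν hS k).mul_left (-C ((e : ℂ) + 1)⁻¹) using 1
    linear_combination (-U k) * e1

theorem exists_sigma {d : ℕ} {π : Ix → Ix → MvPolynomial Ix ℂ}
    (h1 : ∀ r s, (π r s).IsHomogeneous d) (h2 : ∀ r s k, mup ∣ π r s * X k - π k s * X r)
    (h3 : ∀ r s k, mup ∣ π r s * X k - π r k * X s) :
    ∃ σ : MvPolynomial Ix ℂ, ∀ r s, mup ∣ π r s - X r * (X s * σ) := by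
  choose V v1 v2 using fun s => step (fun r => h1 r s) fun r k => h2 r s k
  obtain ⟨σ, -, hσ⟩ := step v1 fun s k => dvd_of _ (by
    convert ((h3 0 s k).sub ((v2 s 0).mul_right (X k))).add ((v2 k 0).mul_right (X s)) using 1
    ring)
  exact ⟨σ, fun r s => by
    convert (v2 s r).add ((hσ s).mul_left (X r)) using 1
    ring⟩

end Nul

theorem null_row2 : NULL2 := by
  intro Λ d π w F h1 h2 h3 h7 h8
  obtain ⟨σ, hσ⟩ := Nul.exists_sigma h1 h2 h3
  choose g hg using hσ
  have k1 : ∀ r s, Λ (mup * g r s) (w r s) = 0 := fun r s => by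
    have := congrArg (Λ (g r s)) (h7 r s)
    rw [map_sum, map_zero] at this
    rw [mup, Finset.sum_mul, map_sum, LinearMap.sum_apply, ← this]
    refine Finset.sum_congr rfl fun i _ => ?_
    rw [mul_assoc, C_mul', C_mul', map_smul, map_smul, LinearMap.smul_apply, pow_two, mul_assoc,
      F.adj1, F.adj1, ← mul_assoc, Nul.eta_sq, one_mul]
  have := congrArg (Λ σ) h8
  rw [map_zero, Finset.sum_comm, map_sum] at this
  rw [← this, Finset.sum_comm]
  refine Finset.sum_congr rfl fun s _ => ?_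
  rw [map_sum]
  refine Finset.sum_congr rfl fun r _ => ?_
  rw [eq_add_of_sub_eq (hg r s), map_add, LinearMap.add_apply, k1, zero_add, mul_left_comm, F.adj1,
    F.adj1, C_mul', map_smul, smul_eq_mul]
  ring

theorem null_row : NULL := fun Λ d π w F h1 _ _ h2 h3 _ h7 h8 =>
  null_row2 Λ d π w F h1 h2 h3 h7 h8

end Vale.Agent.P352X.ZZ
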