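import Vale.Agent.P352X.R.DD
import Vale.Agent.P352Z.R.D1.ThA
import Vale.Agent.P352Z.R.G1.B
import Vale.Agent.P352Z.SG.Rows

/-!
# P352Z, row DD: the potentials are local in forward cut cones
-/

set_option linter.all false

noncomputable section

open MeasureTheory Filter Topology Set
open scoped ContDiff ComplexConjugate

namespace Vale.Agent.P352X.ZZ

open Vale.Agent.P352 Vale.Agent.P352.GF Vale.Agent.P352.BW Vale.Agent.P352.H496
open Vale.Agent.P352.H246 (In box)
open Vale.Agent.P352.H755 Vale.Agent.P352X.Ap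
open UniformSpace (Completion)
open G1 (Tc P0)

variable {D : Type*} [NormedAddCommGroup D] [InnerProductSpace ℂ D] {c : Ctx D} {f : Fn}

namespace Dd

export Vale.Agent.P352X.Dd (core box_bar)

lemma dv_bar' (hf : IsTest f) (h : V) : dv h (bar f) = bar (dv h f) := funext fun x =>
  dv_bar ((sw_smooth hf).differentiable (by simp) x) h

section ell

variable {ell : (V → ℂ) → Completion D} {c0 : ℝ} (E : Ell c ell c0)
include E

lemma ell_perp {ψ : V → ℂ} (hψ : MemLp ψ 2 Th.mF) : inner ℂ c.Om (ell ψ) = 0 := by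
  have m : MeasurableSet {p : V | be p = 0} := measurableSet_eq_fun meas_be measurable_const
  have h := Kin.P_vac c.bR c.ct m (by simp) (fun v hv =>
    (Kin.ae_md_pos c.bR c.ct c.bV P352X.Br.fr.ha hv).mono fun p hp => hp.ne') (ell ψ)
  rw [show c.ct.P _ (ell ψ) = _ from E.phi _ ψ (SN.Bd.ind m) hψ, ← Th.ell_congr' E
    (ψ := fun _ => 0) MemLp.zero (fun p hp => by
      simp [indicator_of_notMem (show p ∉ {p : V | be p = 0} from ((mem_Fc p).1 hp).1.ne')]),
    Th.ell_zero E, eq_comm, smul_eq_zero] at h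
  exact h.resolve_right fun k => by simpa [k] using c.norm_Om

lemma tc_lam : Tc c fun f => ell (ft f) :=
  G1.tc_of (fun f g a hf hg => by
      rw [← E.lin _ _ a (memLp_ft hf _) (memLp_ft hg _)]
      exact congrArg ell (funext fun p => by rw [ft_add hf (test_mul (.const a) hg), ft_mul]))
    ((Th.ellL E ∘L LpToLpRestrictCLM V ℂ ℂ volume 2 Fc ∘L
      SchwartzMap.toLpCLM ℂ ℂ 2 volume).continuous.comp ftS.continuous |>.congr fun g =>
        Th.ell_congr E (Lp.memLp _) ((LpToLpRestrictCLM_coeFn ℂ Fc _).trans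
          (ae_restrict_of_ae (((ftS g).coeFn_toLp 2 volume).mono fun p hp =>
            hp.trans (ftS_apply g p)))))
    (fun a f hf => by
      rw [← c.bt.Phi_ch, E.phi _ _ (SN.isPair_mdot.bd a) (memLp_ft (test_tsl hf a) _)]
      exact congrArg ell (funext fun p => by
        rw [ft_tsl, SN.ch, ← mul_assoc, ← Complex.exp_add, add_neg_cancel, Complex.exp_zero,
          one_mul]))
    fun f hf => ell_perp E (memLp_ft hf _)

lemma ex_l (v : Completion D) :
    ∃ b : Fn, MemLp b 2 ∧ ∀ f, IsTest f → inner ℂ v (ell (ft f)) = ∫ z, b z * f z := by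
  obtain ⟨b, m, hb⟩ := Th.riesz E v
  obtain ⟨b', m', -, hb'⟩ := ft_l2_dual (b := Fc.indicator fun p => conj (b p))
    ((memLp_indicator_iff_restrict meas_Fc).2 m.star)
  refine ⟨b', m', fun f hf => ?_⟩
  rw [← hb' f hf, ← inner_conj_symm, hb _ (memLp_ft hf _), ← integral_conj,
    ← integral_indicator meas_Fc]
  refine integral_congr_ae (.of_forall fun p => ?_)
  by_cases k : p ∈ Fc <;> simp [k, mul_comm]

/-- the defect is a square integrable function -/
lemma ex_b (Z : Completion D →L[ℂ] Completion D) : ∃ b : Fn, MemLp b 2 ∧ ∀ f, IsTest f →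
    inner ℂ (star Z c.Om) (ell (ft f)) - inner ℂ (ell (ft (bar f))) (Z c.Om) = ∫ z, b z * f z := by
  obtain ⟨b1, m1, h1⟩ := ex_l E (star Z c.Om)
  obtain ⟨b2, m2, h2⟩ := ex_l E (Z c.Om)
  refine ⟨fun z => b1 z - conj (b2 z), m1.sub m2.star, fun f hf => ?_⟩
  rw [h1 f hf, ← inner_conj_symm, h2 _ (test_bar hf), ← integral_conj]
  simp only [sub_mul, bar, map_mul, RCLike.star_def, Complex.conj_conj]
  exact (integral_sub (m1.integrable_mul (test_memLp hf 2))
    (m2.star.integrable_mul (test_memLp hf 2))).symm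

end ell

lemma pr_box (G : GRP c) (C : CUR c) {O : Set V} (hf : In O f) :
    Pr (c.N O) c.Om (c.l (box f)) (c.l (bar (box f))) := by
  have e : ∀ f, IsTest f → c.l (box f) = ((3⁻¹ : ℝ) : ℂ) • c.Th f := fun f hf => by
    rw [← C.trace f hf, smul_smul]
    simp
  rw [← box_bar (in_dc hf).1, e _ hf.1, e _ (test_bar hf.1)]
  exact (G.pr_Th hf).csmul _

variable [Fact c.can]

/-- the law of the components -/
lemma sg_cov (j : ℕ) {s : ℝ} {L : Ix → V} (a : V) (hs : 0 < s) (hL : IsLor L) (hf : IsTest f) :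
    Ug c.Q s L a (ex0 c.k (Real.log s) fun i => c.sg (j + i) fun x => f (sim s L a x)) =
      ((s : ℂ) ^ 2)⁻¹ • c.sg j f := by
  obtain ⟨g, e⟩ := Grp.test_sim hs hL a hf
  obtain ⟨f, rfl⟩ := hf
  have := c.hC.pot.lmu.cov j default s L a f g hs hL (congrFun e)
  simp only [Pot.lv_apply, Finset.univ_unique, Finset.sum_singleton, Finset.univ_eq_empty,
    Finset.prod_empty, mul_one, show (4 : ℝ) - 2 = 2 by norm_num, Real.rpow_two, e,
    Complex.ofReal_pow] at this
  rw [this, inv_smul_smul₀ (pow_ne_zero 2 (Complex.ofReal_ne_zero.2 hs.ne'))]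

lemma sg_one (j : ℕ) {L : Ix → V} (a : V) (hL : IsLor L) (hf : IsTest f) :
    Ug c.Q 1 L a (c.sg j fun x => f (sim 1 L a x)) = c.sg j f := by
  simpa [Two.ex0_zero] using sg_cov (c := c) j a one_pos hL hf

lemma p0_sg (g : GRP c) (j : ℕ) : P0 c (c.sg j) where
  toTc := G1.tc_of (c.hC.pot.lin j) (c.hC.pot.cont j)
    (fun a f hf => by simpa [HM.sim_tr, Ut] using sg_one (c := c) j a H496.isLor_one hf) (c.hC.pot.perp j)
  rot w f hf := by simpa only [(g.lga w).2, Ga] using sg_one (c := c) j 0 (g.lga w).1 hf.1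
  bo t f hf := by
    have k := g.lsc _ _ (Real.exp_pos t) (Real.exp_pos (-t))
    rw [sqrt_exp_neg] at k
    simpa only [k.2, Bo, Usc, sqrt_exp_neg] using sg_one (c := c) j 0 k.1 hf.1

lemma pr_vj (j : ℕ) (h : V) {O : Set V} (hf : In O f) :
    Pr (c.N O) c.Om (c.vj j h f) (c.vj j h (bar f)) :=
  Pr.sum _ fun m _ => ((c.hC.fam.p1 j).pr m hf).csmul _

theorem std_l (T : T3 c) (d1 : D1 c) {r : ℝ} (hr : 0 < r) (hf : In (Rc r 0) f) :
    Pr (c.N (Rc r 0)) c.Om (c.l f) (c.l (bar f)) := fun Z hZ => by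
  obtain ⟨Φ, C, h1, h2, h3⟩ := d1
  obtain ⟨ell, c0, E⟩ := T.toT2.ell
  obtain ⟨b, hb, e⟩ := ex_b E Z
  have e' : ∀ f, IsTest f → c.bb Z f = ∫ z, b z * dv va f z := fun f hf => by
    rw [← e _ (test_dv _ hf), ← dv_bar' hf, E.pot f hf, E.pot _ (test_bar hf), Ctx.bb]
  refine sub_eq_zero.1 ((e' f hf.1).trans (core T.uq hb hr (fun u hu => ?_) h1 h2
    (fun g hg hs => ?_) (in_dv va hf)))
  · refine (e _ (test_box hu.1)).symm.trans (sub_eq_zero.2 ((tc_lam E).ta T.grp (tc_lam E) null_va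
      (G1.rc_inv r) (G1.all (in_box hu)) ?_ Z hZ))
    rw [E.pot _ (test_box hu.1), E.pot _ (test_bar (test_box hu.1))]
    exact pr_box T.grp T.toT2.cur hu
  · exact (h3 r hr.le Z hZ g hg hs).congr fun n => e' _ (test_pf hg (dc_cx (h1 n).1))

theorem std (T : T3 c) (d1 : D1 c) (j : ℕ) {r : ℝ} (hr : 0 < r) (hf : In (Rc r 0) f) :
    Pr (c.N (Rc r 0)) c.Om (c.sg j f) (c.sg j (bar f)) := by
  refine (p0_sg T.grp j).toTc.ta T.grp (p0_sg T.grp j).toTc null_va (G1.rc_inv r) (G1.all hf) ?_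
  rcases j.eq_zero_or_pos with rfl | hj
  · have e : ∀ f, c.sg 0 (dv va f) = ((-9 : ℝ) : ℂ) • c.l f - c.vj 0 va f := fun f => by
      rw [Ctx.l, Ctx.jv_eq]
      push_cast
      module
    rw [e, e]
    exact ((std_l T d1 hr hf).csmul _).sub (pr_vj 0 va hf)
  · simpa only [c.vj_grad hj va hf.1, c.vj_grad hj va (test_bar hf.1), neg_neg] using
      (pr_vj (c := c) j va hf).neg

end Dd

/-- **Row DD.** -/
theorem dd_row (c : Ctx D) [Fact c.can] : T3 c → D1 c → DD c :=
  fun T d1 j a b r y f ha hb hab hr hf => by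
  obtain ⟨L, s, t, hL, hs, ht, h1, h2⟩ := P352X.JCa.rl ha hb (hab ▸ one_pos)
  have h3 : s * t = 1 := by
    have := md_LL hL va vb
    rwa [h1, h2, md_smul, md_smul_l, hab, md_ab, mul_one, mul_comm] at this
  have h4 := HM.Rg_img (b := vb) (c := r / s) one_pos hs hL h1
  rw [h2, smul_smul, h3, one_smul, div_one, mul_div_cancel₀ _ hs.ne'] at h4
  have h5 : ∀ x, x ∈ Rc (r / s) 0 ↔ sim 1 L y x - y ∈ HM.Rg a b r := fun x => by
    rw [HM.sim_at 1 L y, add_sub_cancel_right, ← h4, Rc, mem_setOf_eq, sub_zero]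
    exact (Function.Injective.mem_set_image fun u v k => by
      rw [← linv_sim u hL, k, linv_sim v hL]).symm
  have h6 := T.grp.pr_ug (O' := {z | z - y ∈ HM.Rg a b r}) (Dd.std T d1 j (div_pos hr hs)
    (in_mono (in_sim one_pos hL y hf) fun x hx => (h5 x).2 hx)) y one_pos hL fun x hx => (h5 x).1 hx
  exact h6.cast (Dd.sg_one j y hL hf.1).symm (Dd.sg_one j y hL (test_bar hf.1)).symm

end Vale.Agent.P352X.ZZ

end
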