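import Vale.Agent.P352X.R.GEN
import Vale.Agent.P352Z.R.GEN.A

/-!
# P352Z: the row GEN
-/

namespace Vale.Agent.P352X.ZZ.Br
export Vale.Agent.P352X.Br (al_pt' be_pt' pt_eq pt_self tvL_apply tv_smul' tx_pt')
end Vale.Agent.P352X.ZZ.Br
namespace Vale.Agent.P352X.ZZ.Gen
export Vale.Agent.P352X.Gen (al0 be0 d2_e2 der_pt prod1 prod3 sq1 tx0 vf_bo vf_gb vf_mi vf_two vf_ut)
end Vale.Agent.P352X.ZZ.Gen

set_option linter.all false

noncomputable section

open Filter Topology
open scoped SchwartzMap ContDiff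

namespace Vale.Agent.P352X.ZZ

open Vale.Agent.P352 Vale.Agent.P352.GF Vale.Agent.P352.BW Vale.Agent.P352.H246
open Vale.Agent.P352.H496 Vale.Agent.P352.H755 Vale.Agent.P352.H15
open H746 (Crv vf)
open H148 (snS)
open UniformSpace (Completion)
open Complex (I)
open Br

namespace Gen

variable {D : Type*} [NormedAddCommGroup D] [InnerProductSpace ℂ D] {c : Ctx D}

theorem fl_ut (c : Ctx D) (y : V) : Fl c (fun t => Ut c.Q (t • y)) fun _ => y :=
  ⟨fun _ => GF.one, fun t => t • y, 0, y, ⟨rfl, rfl, zero_smul _ _, fun _ => one_pos,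
    fun _ => H496.isLor_one, hasDerivAt_const _ _, fun _ _ => hasDerivAt_const _ _, fun n => by
      simpa using (hasDerivAt_id (0 : ℝ)).mul_const (y n)⟩, fun _ => rfl, fun z n => by simp⟩

theorem fl_bo (g : GRP c) : Fl c (Bo c.Q) fun z => al z • va - be z • vb := by
  refine fl_lin (σ := fun t => scp (Real.exp t) (Real.exp (-t)))
    (fun t => by rw [Bo, Usc, sq1]) (fun t => ?_) (fun z => by simp [scp, pt_self]) fun z => ?_
  · have := g.lsc _ _ (Real.exp_pos t) (Real.exp_pos (-t))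
    rwa [sq1] at this
  · simp only [scp, sq1]
    convert der_pt ((Real.hasDerivAt_exp 0).mul_const _) ((hasDerivAt_neg (0 : ℝ)).exp.mul_const _)
      (hasDerivAt_const _ _) using 1
    simp [← tvL_apply, sub_eq_add_neg]

theorem fl_ga (g : GRP c) (w : R2) :
    Fl c (fun t => Ga c.Q (t • w)) fun z => d2 w (tx z) • va + be z • tv w := by
  refine fl_lin (σ := fun t => gap (t • w)) (fun t => rfl) (fun t => g.lga _)
    (fun z => by simp [gap, d2, pt_self]) fun z => ?_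
  have h := hasDerivAt_id' (0 : ℝ)
  have k := fun j => h.mul_const (w j)
  simp only [gap, d2, Pi.smul_apply, smul_eq_mul]
  convert der_pt (((((k 0).mul_const _).fun_add ((k 1).mul_const _)).const_add _).fun_add
    (((((k 0).fun_mul (k 0)).fun_add ((k 1).fun_mul (k 1))).mul_const _).div_const 2))
    (hasDerivAt_const _ _) (((h.smul_const w).fun_const_smul (be z)).const_add _) using 1
  simp [tv_smul']

theorem fl_mi (g : GRP c) (i : Fin 2) : Fl c (Mi c.Q i) fun z => tx z i • va + be z • ex i := by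
  have := fl_ga g (e2 i)
  simp only [d2_e2] at this
  exact this

theorem fl_gb (g : GRP c) : Fl c (Gb c.Q) fun z => tx z 0 • vb + al z • ex 0 := by
  refine fl_lin (σ := gbp) (fun t => rfl) g.lgb (fun z => by simp [gbp, pt_self]) fun z => ?_
  have h := hasDerivAt_id' (0 : ℝ)
  simp only [gbp]
  convert der_pt (hasDerivAt_const _ _) (((h.mul_const _).const_add _).fun_add
    (((h.fun_pow 2).mul_const _).div_const 2)) (((h.mul_const _).smul_const _).const_add _) using 1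
  simp [tv_smul', ex]

/-- the group law of the group generated by `B`, `P_b`, `M^b` -/
theorem gq_mul (g : GRP c) (q r : ℝ × ℝ × ℝ) : c.gq q * c.gq r =
    c.gq (q.1 + r.1, Real.exp r.1 * q.2.1 + r.2.1, Real.exp r.1 * q.2.2 + r.2.2) := by
  obtain ⟨t, u, s⟩ := q
  obtain ⟨τ, υ, σ⟩ := r
  have p := Real.exp_pos τ
  have p' := Real.exp_pos (-τ)
  have x : ∀ y, Real.exp (-τ) * (Real.exp τ * y) = y := fun y => by
    rw [← mul_assoc, ← Real.exp_add, neg_add_cancel, Real.exp_zero, one_mul]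
  have b : ∀ y : ℝ, y • vb = pt 0 y 0 := fun y => by simp [pt_eq, ← tvL_apply]
  have e1 : Pb c.Q u * Bo c.Q τ = Bo c.Q τ * Pb c.Q (Real.exp τ * u) := by
    rw [Bo, Pb, Pb, g.sc_ut _ _ _ p p', b, b, scp, al_pt', be_pt', tx_pt', x, mul_zero, smul_zero]
  have e2 : Gb c.Q s * Bo c.Q τ = Bo c.Q τ * Gb c.Q (Real.exp τ * s) := by
    rw [Bo, g.sc_gb _ _ _ p p', ← Real.exp_sub, show -τ - τ = -τ + -τ by ring, Real.exp_add,
      Real.sqrt_mul_self p'.le, x]
  have e3 : ∀ y, Gb c.Q y * Pb c.Q υ = Pb c.Q υ * Gb c.Q y := fun y => by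
    rw [Pb, g.gb_ut, b, gbp, al_pt', be_pt', tx_pt']
    simp
  have e4 : Bo c.Q (t + τ) = Bo c.Q t * Bo c.Q τ := by
    rw [Bo, Bo, Bo, ← g.sc _ _ _ _ (Real.exp_pos _) (Real.exp_pos _) p p', neg_add, Real.exp_add,
      Real.exp_add]
  simp only [Ctx.gq, e4, g.gb, Pb, add_smul, g.ut]
  simp only [Pb] at e1 e3
  calc _ = Bo c.Q t * (Ut c.Q (u • vb) * (Gb c.Q s * Bo c.Q τ)) * (Ut c.Q (υ • vb) * Gb c.Q σ) := by
        simp only [mul_assoc]
    _ = Bo c.Q t * Bo c.Q τ * Ut c.Q ((Real.exp τ * u) • vb) *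
        (Gb c.Q (Real.exp τ * s) * Ut c.Q (υ • vb)) * Gb c.Q σ := by
        rw [e2, ← mul_assoc (Ut c.Q _), e1]
        simp only [mul_assoc]
    _ = _ := by
        rw [e3]
        simp only [mul_assoc]

theorem gq_der (g : GRP c) (v : D) : ∃ (w : Fin 3 → D) (A : ℝ × ℝ × ℝ →L[ℝ] Completion D),
    HasFDerivAt (fun q => c.gq q v) A 0 ∧
      ∀ y, A y = y.1 • (w 0 : Completion D) + y.2.1 • (w 1 : Completion D) + y.2.2 • (w 2 : D) :=
  have B := fl_bo g
  have P := fl_ut c vb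
  have G := fl_gb g
  ⟨![_, _, _], prod3 (B.norm g) (P.norm g) (B.cont g) (P.cont g) (B.zero g) (P.zero g) (G.zero g)
    (B.dom g v) (P.dom g v) (G.dom g v)⟩

theorem sm (g : GRP c) (v : D) : ContDiff ℝ ∞ fun q => c.gq q (v : Completion D) := by
  set ψ := fun q r : ℝ × ℝ × ℝ => (r.1 - q.1, r.2.1 - Real.exp (r.1 - q.1) * q.2.1,
    r.2.2 - Real.exp (r.1 - q.1) * q.2.2)
  have s : ContDiff ℝ ∞ ψ.uncurry := by
    unfold Function.uncurry ψ
    fun_prop
  have s' : ∀ y, ContDiff ℝ ∞ fun q => fderiv ℝ (ψ q) q y := fun y =>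
    (s.fderiv contDiff_id le_rfl).clm_apply contDiff_const
  have key : ∀ v : D, ∃ w : Fin 3 → D, ∀ q, ∃ A, HasFDerivAt (fun q => c.gq q v) A q ∧ ∀ y,
      A y = (fderiv ℝ (ψ q) q y).1 • c.gq q (w 0) + (fderiv ℝ (ψ q) q y).2.1 • c.gq q (w 1) +
        (fderiv ℝ (ψ q) q y).2.2 • c.gq q (w 2) := fun v => by
    obtain ⟨w, A, h, e⟩ := gq_der g v
    refine ⟨w, fun q => ⟨_, ((((c.gq q).restrictScalars ℝ).hasFDerivAt.comp q
      (HasFDerivAt.comp q (g := fun q => c.gq q v) (f := ψ q) ((show ψ q q = 0 by simp [ψ]) ▸ h)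
        (((s.comp (contDiff_const.prodMk contDiff_id)).differentiable (by simp))
          q).hasFDerivAt)).congr_of_eventuallyEq (.of_forall fun r => ?_)), fun y => ?_⟩⟩
    · have := congrArg (· (v : Completion D)) (gq_mul g q (ψ q r))
      simpa [ψ] using this.symm
    · simp [e, Function.comp_def]
  rw [contDiff_infty]
  intro n
  induction n generalizing v with
  | zero =>
    obtain ⟨w, h⟩ := key v
    exact contDiff_zero.2 (continuous_iff_continuousAt.2 fun q => (h q).choose_spec.1.continuousAt)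
  | succ n ih =>
    obtain ⟨w, h⟩ := key v
    choose A h e using h
    rw [Nat.cast_succ, contDiff_succ_iff_fderiv_apply]
    refine ⟨fun q => (h q).differentiableAt, by simp, fun y => ?_⟩
    have t : ContDiff ℝ n fun q => fderiv ℝ (ψ q) q y := (s' y).of_le (by exact_mod_cast le_top)
    simp only [fun q => (h q).fderiv, e]
    exact ((t.fst.smul (ih _)).add (t.snd.fst.smul (ih _))).add (t.snd.snd.smul (ih _))

theorem bd (c : Ctx D) (v : D) : ∃ (m : ℕ) (C : ℝ), 0 ≤ C ∧ ∀ h k (f : Sch),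
    ‖c.Tf (hk h k (ev f)) v‖ ≤ C * ‖h‖ * ‖k‖ * sn m f := by
  set L := ContinuousLinearMap.pi fun i : I2 => (tl c v i.1 i.2).comp ofSch
  obtain ⟨m, C, C0, hC⟩ := Lie.clm ((normSeminorm ℂ _).comp L.toLinearMap) L.continuous.norm
  refine ⟨m, 16 * C, by positivity, fun h k f => ?_⟩
  have e : ∀ i, |eta i| = 1 := fun i => by unfold eta; split_ifs <;> simp
  rw [← Completion.norm_coe, show ev f = fl (ofSch f) from rfl, ← th_apply, th]
  simp only [ContinuousLinearMap.sum_apply, ContinuousLinearMap.smul_apply]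
  refine (norm_sum_le_of_le _ fun i _ => norm_sum_le_of_le (n := fun _ =>
    ‖h‖ * ‖k‖ * (C * sn m f)) _ fun j _ => ?_).trans_eq (by simp; ring)
  rw [norm_smul, Complex.norm_real, Real.norm_eq_abs, abs_mul, abs_mul, abs_mul, e, e, one_mul,
    one_mul]
  gcongr
  exacts [norm_le_pi_norm h i, norm_le_pi_norm k j, (norm_le_pi_norm (L f) (i, j)).trans (hC f)]

theorem bd2 (c : Ctx D) (v : D) : ∃ (m : ℕ) (C : ℝ), ∀ i j k l (f g : Sch),
    ‖c.T i j (ev f) (c.T k l (ev g) v)‖ ≤ C * sn m f * sn m g := by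
  choose K n K0 h using fun i : I2 × I2 => (od c i.1.1 i.1.2).joint (od c i.2.1 i.2.2) v
  obtain ⟨m, C, C0, hC⟩ := Lie.clm ((snS (Finset.univ.sup n)).comp ofSch.toLinearMap)
    ((H148.cont_snS _).comp ofSch.continuous)
  refine ⟨m, (∑ i, K i) * C * C, fun i j k l f g => (h ((i, j), k, l) (ofSch f) (ofSch g)).trans ?_⟩
  have e := fun f => (H148.snS_mono (Finset.le_sup (f := n) (Finset.mem_univ ((i, j), k, l)))
    (ofSch f)).trans (hC f)
  have := Finset.single_le_sum (fun i _ => K0 i) (Finset.mem_univ ((i, j), k, l))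
  have := Finset.sum_nonneg fun i (_ : i ∈ Finset.univ) => K0 i
  have := Lie.sn_nonneg m f
  calc _ ≤ (∑ i, K i) * (C * sn m f) * (C * sn m g) := by
        gcongr
        exacts [e f, e g]
    _ = _ := by ring

theorem ky (g : GRP c) (y : R2) {ψ} (h : Dm c.SK ψ) (hm : ∀ i, Dm (Mi c.Q i) ψ)
    (hp : Dm (Pa c.Q) ψ) : Gn (c.Ky (tv y)) ψ (gen c.SK ψ -
      ∑ i, ((2 * y i : ℝ) : ℂ) • gen (Mi c.Q i) ψ + (d2 y y : ℝ) • gen (Pa c.Q) ψ) := by
  have p : ∀ {W X φ φ' k} (r : ℝ), Fl c W X → HasDerivAt φ φ' 0 → φ 0 = ψ → Gn W ψ k →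
      HasDerivAt (fun t => W (t * r) (φ t)) (r • I • k + φ') 0 ∧ W (0 * r) (φ 0) = ψ :=
    fun {W X φ φ' k} r K d e q => ⟨prod1 (W := fun t => W (t * r)) (fun t => K.norm g _)
      (fun z => (K.cont g z).comp_of_eq (by fun_prop) (zero_mul r))
      (by rw [zero_mul, K.zero g]) d
      (e ▸ HasDerivAt.scomp_of_eq (0 : ℝ) q (hasDerivAt_mul_const r) (zero_mul r).symm),
      by rw [zero_mul, K.zero g, e]; rfl⟩
  have a := p (-(2 * y 1)) (fl_mi g 1) h.gn' (by rw [Ctx.SK, c.hS.zero _ g.na]; rfl) (hm 1).gn'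
  have b := p (-(2 * y 0)) (fl_mi g 0) a.1 a.2 (hm 0).gn'
  have d := (p (d2 y y) (fl_ut c va) b.1 b.2 hp.gn').1
  refine (d.congr_of_eventuallyEq (.of_forall fun t => ?_)).congr_deriv ?_
  · have e := g.S_ut t (-y)
    rw [← tvL_apply, map_neg, tvL_apply] at e
    simp only [Ctx.Ky]
    rw [mul_assoc, e, ← mul_assoc, ← mul_assoc, ← g.ut, add_neg_cancel_left,
      show (2 * t) • -y = (t * -(2 * y 0)) • e2 0 + (t * -(2 * y 1)) • e2 1 by
        funext i
        fin_cases i <;> simp [e2] <;> ring, g.ga, show d2 (-y) (-y) = d2 y y by simp [d2]]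
    rfl
  · simp only [Fin.sum_univ_two, ← Complex.coe_smul]
    module

end Gen

open Gen

theorem gen_row {D : Type*} [NormedAddCommGroup D] [InnerProductSpace ℂ D] (c : Ctx D)
    (t : T0 c) : GEN c where
  ut y h k f hf := by
    have z : ∀ h k, h = 0 ∨ k = 0 → c.Tv (hk h k f) = 0 := fun h k e => by
      obtain ⟨F, rfl⟩ := exists_fl hf
      rcases e with rfl | rfl <;> simp [Ctx.Tv, ← th_apply, th]
    simpa only [vf_ut, sub_self, z _ _ (.inl rfl), z _ _ (.inr rfl), sub_zero] using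
      (fl_ut c y).tv t.grp h k hf
  bo h k f hf := by
    simpa only [vf_bo, al0, be0, zero_smul, sub_zero] using (fl_bo t.grp).tv t.grp h k hf
  mi i h k f hf := by
    simpa only [vf_mi, tx0, be0, Pi.zero_apply, zero_smul, add_zero, sub_zero] using
      (fl_mi t.grp i).tv t.grp h k hf
  gb h k f hf := by
    simpa only [vf_gb, tx0, al0, Pi.zero_apply, zero_smul, add_zero, sub_zero] using
      (fl_gb t.grp).tv t.grp h k hf
  uth y f hf := (fl_ut c y).tr t.grp rfl hf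
  mith i f hf := vf_mi i f ▸ (fl_mi t.grp i).tr t.grp (by simp [tx0, be0, Grp.tx_va, Grp.be_va]) hf
  sm := sm t.grp
  bd := let ⟨m, C, _, h⟩ := bd c c.Q.vac
    ⟨m, C, fun a k f => (Completion.norm_coe _).trans_le (h a k f)⟩
  bd2 := bd2 c
  ky y _ := ky t.grp y

end Vale.Agent.P352X.ZZ
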