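import Vale.Agent.P352Z.R.BB.Core
import Vale.Agent.P352Z.R.BB.Cross
import Vale.Agent.P352Z.R.BB.Dec
import Vale.Agent.P352Z.R.BB.Dom
import Vale.Agent.P352Z.R.BB.Fin
import Vale.Agent.P352Z.R.BB.FluxL
import Vale.Agent.P352Z.R.BB.Half
import Vale.Agent.P352Z.R.BB.KS
import Vale.Agent.P352Z.R.BB.LIP
import Vale.Agent.P352Z.R.BB.Low
import Vale.Agent.P352Z.R.BB.MI
import Vale.Agent.P352Z.R.BB.Main
import Vale.Agent.P352Z.R.BB.Sig
import Vale.Agent.P352Z.R.BB.Tra

/-!
# P352Z, row BB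
-/

namespace Vale.Agent.P352X.ZZ

open _root_.Vale.Agent.P352X.ZZ.BX

/-- **Row BB.** -/
theorem bb_row {D : Type*} [NormedAddCommGroup D] [InnerProductSpace ℂ D] (c : Ctx D)
    [Fact c.can] (t : T3 c) : BB c :=
  have S := sig_row c t
  tra_row c t (BX.far_row c t) (core_row c t S (half_row c t S) (mi_row c t) (dom_row c t) (lip_row c t)
    (main_row c t S (ksl_row c t S (mtl_row c t (lowl_row c)) (ktl_row c t))) (gaps_row c t S)
    (cross_row c t (fluxl_row c t) (dec_row c t S)) (end_row c t))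

end Vale.Agent.P352X.ZZ
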