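import Vale.Agent.P352X.R.A2
import Vale.Agent.P352Z.R.A2.Abs
import Vale.Agent.P352Z.R.KD

/-!
# P352Z, row A2: `K φ` is in the form domain of `P_b`
-/

namespace Vale.Agent.P352X.ZZ.A2
export Vale.Agent.P352X.A2 (adm_px px sq sq_meas)
end Vale.Agent.P352X.ZZ.A2
namespace Vale.Agent.P352X.ZZ.KDa
export Vale.Agent.P352X.KDa (Adm.add Adm.addn Adm.comp Adm.nx Adm.sub UG.add UG.at UG.closed UG.gn barL ev_dS ext_rel
  gn_comm gn_zero norm_uni norm_va nx shift_mem tsupport_tsl)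
end Vale.Agent.P352X.ZZ.KDa

set_option linter.all false

noncomputable section

open MeasureTheory Filter Topology Metric
open Complex (I norm_I)
open scoped SchwartzMap
open UniformSpace (Completion)

namespace Vale.Agent.P352X.ZZ

open Vale.Agent.P352 Vale.Agent.P352.GF Vale.Agent.P352.BW Vale.Agent.P352.H496

variable {D : Type*} [NormedAddCommGroup D] [InnerProductSpace ℂ D] {c : Ctx D}

namespace A2

open KDa

lemma qb_eq (v : Completion D) : c.qb v = ∫⁻ p, ENNReal.ofReal (‖sq p‖ ^ 2) ∂c.bt.nu v := by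
  refine lintegral_congr fun p => ?_
  rw [sq, Complex.norm_real, Real.norm_eq_abs, sq_abs, Real.sq_sqrt', ENNReal.ofReal_max,
    ENNReal.ofReal_zero, max_zero]

/-- the graph of `(K, P_b ^ (1 / 2) K)` -/
def gq (c : Ctx D) : AddSubmonoid (Completion D × Completion D × Completion D) where
  carrier := {p | Gn c.SK p.1 p.2.1 ∧ c.bt.Dom sq p.2.1 ∧ c.bt.Psi sq p.2.1 = p.2.2}
  add_mem' h h' := ⟨h.1.add h'.1, h.2.1.add_vec h'.2.1,
    (SN.Calc.Psi_add_vec h.2.1 h'.2.1).trans (congrArg₂ _ h.2.2 h'.2.2)⟩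
  zero_mem' := ⟨gn_zero, .zero_vec sq_meas, SN.Calc.Psi_zero_vec sq_meas⟩

lemma gq_closed (g : GRP c) : IsClosed (gq c : Set (Completion D × Completion D × Completion D)) := by
  refine ((KDa.ugS g).closed.preimage (f := fun p : Completion D × Completion D × Completion D =>
    (p.1, p.2.1)) (by fun_prop)).inter (IsSeqClosed.isClosed fun u p hu hp => ?_)
  refine SN.Calc.dom_of_lim sq_meas (V := fun n => (u n).2.1) (.of_forall fun n => (hu n).1)
    (fun z => tendsto_const_nhds.inner ((continuous_snd.fst.tendsto p).comp hp)) fun z => ?_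
  simp only [fun n => (hu n).2]
  exact tendsto_const_nhds.inner ((continuous_snd.snd.tendsto p).comp hp)

lemma gn_px (G : GEN c) (h k : V) (f : Sch) :
    Gn (Pb c.Q) (tau c h k f) (px (fun h k f => tau c h k f) h k f) := by
  simp only [px, tau_apply, ev_dS]
  exact G.ut vb h k _ ⟨f, rfl⟩

/-- compact supports in a cut cone -/
theorem loc (g : GRP c) (G : GEN c) (j : JC c) {r : ℝ} (hr : 0 < r) : ∃ (m : ℕ) (C : ℝ), 0 ≤ C ∧
    ∀ h k (f : Sch), HasCompactSupport f → tsupport f ⊆ Rc r 0 →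
      ∃ y, (tau c h k f, y) ∈ gq c ∧ ‖y‖ ≤ C * ‖h‖ * ‖k‖ * ST.sn V ℂ m f := by
  obtain ⟨C, hC, hb⟩ := abs_bd g j hr
  obtain ⟨C1, hC1, hb1⟩ := kd_a g hr
  have a0 := adm_tau c
  obtain ⟨m, C', hC', hb'⟩ := (((((((a0.addn (a0.comp 1 1 barL)).addn (adm_px a0)).addn
    ((adm_px a0).comp 1 1 barL)).addn a0.nx).addn (a0.nx.comp 1 1 barL)).addn
    (adm_px a0).nx).addn a0.nx.nx)
  refine ⟨m, (C1 + √C) * C', by positivity, fun h k f h1 h2 => ?_⟩
  have b3 := (le_abs_self _).trans (hb' h k f)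
  simp only [ContinuousLinearMap.one_apply] at b3
  repeat rw [Real.norm_of_nonneg (by positivity)] at b3
  have b1 := hb _ _ _ _ _ _ _ _ _ (pr_tau g h k h1 h2) (gn_px G h k f) (gn_px G h k (barL f))
    (gn_tau G h k f) (gn_tau G h k (barL f))
    ((((gn_px G _ _ _).sub (gn_px G _ _ _)).sub (gn_px G _ _ _)).smul I)
    (gn_nx (gn_tau G) h k f) b3
  obtain ⟨d1, b2⟩ := hb1 _ _ _ (pr_tau g h k h1 h2) (gn_tau G h k f)
  generalize hN : C' * ‖h‖ * ‖k‖ * ST.sn V ℂ m f = N at b1 b3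
  have N0 : 0 ≤ N := le_trans (by positivity) b3
  rw [qb_eq, ← Real.sq_sqrt hC, ← mul_pow] at b1
  obtain ⟨d2, b4⟩ := SN.Calc.dom_of_lintegral sq_meas (by positivity) b1
  have b5 : ‖gen c.SK (tau c h k f)‖ ≤ C1 * N := b2.trans (mul_le_mul_of_nonneg_left (le_trans (by
    simp only [add_assoc, add_le_add_iff_left]
    exact le_add_of_nonneg_of_le (norm_nonneg _) (le_add_of_nonneg_of_le (norm_nonneg _)
      (le_add_of_nonneg_right (by positivity)))) b3) hC1)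
  refine ⟨(gen c.SK (tau c h k f), c.bt.Psi sq (gen c.SK (tau c h k f))), ⟨d1.gn, d2, rfl⟩, ?_⟩
  rw [mul_assoc, mul_assoc, mul_assoc, ← mul_assoc C', ← mul_assoc (C' * _), hN, add_mul,
    Prod.norm_def, max_le_iff]
  exact ⟨b5.trans (le_add_of_nonneg_right (by positivity)),
    b4.trans (le_add_of_nonneg_left (by positivity))⟩

/-- slabs below the plane -/
theorem slab_bd (g : GRP c) (G : GEN c) (j : JC c) (b1 : ℝ) {b2 : ℝ} (hb : b2 < 0) :
    ∃ (m : ℕ) (C : ℝ), 0 ≤ C ∧ ∀ h k (f : Sch), tsupport f ⊆ {z | b1 ≤ be z ∧ be z ≤ b2} →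
      ∃ y, (tau c h k f, y) ∈ gq c ∧ ‖y‖ ≤ C * ‖h‖ * ‖k‖ * ST.sn V ℂ m f := by
  obtain ⟨m, C, hC, h1⟩ := loc g G j (show 0 < 1 / (2 * (|b1| + 1)) by positivity)
  obtain ⟨C0, hC0, h2⟩ := ext_rel V m (2 * m)
  refine ⟨m + (2 * m + 2), C0 * (C * 8 ^ m), by positivity, fun h k f hf => ?_⟩
  refine (h2 (gq c) (tau c h k) _ (C * 8 ^ m * ‖h‖ * ‖k‖) (gq_closed g)
    (by positivity) (fun R u hR hu => ?_) f hf).imp fun y hy => ⟨hy.1, hy.2.trans_eq (by ring)⟩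
  set a := (3 * R ^ 2) • va with ha
  have hs : tsupport (ST.tsl a u) ⊆ (fun z => z + a) '' tsupport u := fun z hz =>
    ⟨z - a, tsupport_tsl a u hz, sub_add_cancel z a⟩
  have hc : IsCompact (tsupport u) :=
    (isCompact_closedBall 0 R).of_isClosed_subset (isClosed_tsupport _) fun z hz => (hu hz).2
  obtain ⟨y, hy, hb2⟩ := h1 h k (ST.tsl a u)
    ((hc.image (continuous_id.add continuous_const)).of_isClosed_subset (isClosed_tsupport _) hs)
    (hs.trans (by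
      rintro _ ⟨z, hz, rfl⟩
      exact shift_mem hb hR (hu hz).1.1 (hu hz).1.2 (mem_closedBall_zero_iff.1 (hu hz).2)))
  have e : Pa c.Q (-(3 * R ^ 2)) (tau c h k (ST.tsl a u)) = tau c h k u := by
    rw [Pa, ut_tau g, neg_smul, ← ha]
    congr 1
    ext z
    simp
  have hn : ∀ z, ‖Pa c.Q (-(3 * R ^ 2)) z‖ = ‖z‖ := norm_uni (g.uni _ _ _)
  refine ⟨(Pa c.Q (-(3 * R ^ 2)) y.1, Pa c.Q (-(3 * R ^ 2)) y.2),
    ⟨e ▸ gn_comm _ (g.pa_S _) hy.1, (c.bt.dom_U SN.isPair_mdot _).2 hy.2.1,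
      (c.bt.Psi_U SN.isPair_mdot _ hy.2.1).trans (congrArg _ hy.2.2)⟩, ?_⟩
  rw [Prod.norm_def, hn, hn]
  refine hb2.trans ((mul_le_mul_of_nonneg_left (ST.sn_tsl u a m) (by positivity)).trans ?_)
  have h3 : 1 + ‖a‖ ≤ 4 * R ^ 2 := by
    rw [ha, norm_smul, Real.norm_of_nonneg (by positivity)]
    nlinarith [norm_va, mul_le_mul_of_nonneg_left norm_va (show 0 ≤ 3 * R ^ 2 by positivity)]
  calc _ ≤ C * ‖h‖ * ‖k‖ * (2 ^ m * (4 * R ^ 2) ^ m * ST.sn V ℂ m u) := by gcongr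
    _ = _ := by
      rw [mul_pow, pow_mul, show (8 : ℝ) = 2 * 4 by norm_num, mul_pow]
      ring

end A2

/-- **row A2** -/
theorem a2_row (c : Ctx D) (t : T2 c) : A2 c where
  abs r hr :=
    let ⟨C, _, h⟩ := A2.abs_bd t.grp t.jc hr
    ⟨C, fun _ _ hp h1 h2 h3 h4 h5 h6 =>
      h _ _ _ _ _ _ _ _ _ hp h1.gn h2.gn h3.gn h4.gn h5.gn h6.gn le_rfl⟩
  slab b1 b2 hb := by
    obtain ⟨m, C, -, h⟩ := A2.slab_bd t.grp t.gen t.jc b1 hb
    refine ⟨m, C, fun h' k f hf => ?_⟩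
    obtain ⟨y, ⟨h1, h2, h3⟩, h4⟩ := h h' k f hf
    rw [← KDa.tau_apply, sn_eq, h1.gen_eq, A2.qb_eq, SN.Calc.lintegral_sq h2, h3]
    exact ENNReal.ofReal_le_ofReal (pow_le_pow_left₀ (norm_nonneg _) ((norm_snd_le y).trans h4) 2)

end Vale.Agent.P352X.ZZ
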