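import Vale.Agent.P352Z.R.BP.C

/-!
# P352Z, row BP for `a0 = 0`
-/

set_option linter.all false

open MeasureTheory Filter Topology Set
open scoped SchwartzMap ComplexConjugate ContDiff

namespace Vale.Agent.P352X.ZZ

open Vale.Agent.P352 Vale.Agent.P352.GF Vale.Agent.P352.BW Vale.Agent.P352.H246
open Vale.Agent.P352.H496 Vale.Agent.P352.H755 Vale.Agent.P352X.Ap
open Vale.Agent.P352X.BX (Stp xi x2 tst_xi tst_x2)
open Vale.Agent.P132 (jconj)
open UniformSpace (Completion)
open BPa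

variable {D : Type*} [NormedAddCommGroup D] [InnerProductSpace ℂ D]

theorem bp0_row (c : Ctx D) [Fact c.can] (t : T3 c) (bb : BB c) : CK.BP0 c := by
  intro u0 d0 y1 r1 X f1 κ ρ y hd hr hO hX hG hf hκ hρ sρ
  rcases le_or_gt u0 0 with hu | hu
  · have e : ρ = fun _ => 0 := funext fun s => image_eq_zero_of_notMem_tsupport fun k => by
      linarith [(sρ k).1, (sρ k).2]
    have e1 : ∀ g, pr g ρ = fun z => 0 * (0 : ℂ) := fun g => funext fun z => by simp [pr, e]
    have e2 : ∀ v, c.Tf (hk va va fun z => 0 * (0 : ℂ)) v = 0 := fun v => by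
      have := CK.Taa_eq (c := c) (sw_cmul 0 sw_zero) v
      simp only [Far.T_smul c _ _ 0 sw_zero, zero_smul, smul_zero, Finset.sum_const_zero] at this
      exact this
    simp only [e1, e2, Completion.coe_zero]
    simp [e]
  have s := CK.smv_row c t
  have G := t.grp
  have j := t.jc
  obtain ⟨χ, x1, x2, x3, -⟩ := ex_step (show -d0 / 2 < d0 / 2 by linarith)
  have hχ : Stp d0 χ := ⟨x1, x2, x3⟩
  set K := fun u : ℝ => gen (c.Ky (tv y + u • vb)) (X c.Om) with hK
  have i1 : Integrable fun u => (ρ u : ℂ) • K u := by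
    have k : tsupport (fun u => (ρ u : ℂ) • K u) ⊆ tsupport ρ :=
      tsupp_of_zero fun u h => by simp [h]
    exact (((dc_cx hρ).1.continuous.continuousOn.smul ((CK.kp_row c t s).shift y1 r1 u0 d0 X y hr
      hu hd hO hX hG).1).continuous_of_tsupport_subset isOpen_Ioo
      (k.trans sρ)).integrable_of_hasCompactSupport
      (hρ.2.isCompact.of_isClosed_subset (isClosed_tsupport _) k)
  have i2 : ∀ ψ, ∫ u, (ρ u : ℂ) * inner ℂ ψ (K u) = inner ℂ ψ (∫ u, (ρ u : ℂ) • K u) := fun ψ => by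
    simp only [← integral_inner i1, inner_smul_right]
  obtain ⟨C1, c1, l1⟩ := Lp.op G hG
  obtain ⟨C2, c2, l2⟩ := Lp.op G (s.adj X hG)
  have W : ∀ {O}, O ⊆ {z | be z < -u0 ∧ d0 < al z} → O ⊆ Wdg va vb 0 := fun h z hz =>
    ⟨by rw [sub_zero, md_va]; linarith [(h hz).1], by rw [sub_zero, md_vb]; linarith [(h hz).2]⟩
  have key : ∀ φ, In {z | be z < -u0 ∧ d0 < al z} φ → Tendsto (fun L =>
      Of c (X (c.J (c.Th φ))) (star X (c.J (c.Th (bar φ)))) ρ (fun q => χ q.1)
        fun q => wq y q * kL κ L q) atTop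
      (𝓝 (inner ℂ (c.J (c.Th (bar φ))) (∫ u, (ρ u : ℂ) • K u))) := fun φ hφ => by
    have z0 : c.Th (fun _ => 0) = 0 := Ev.Th_zero c
    refine Ap.in_ind (P := fun φ => Tendsto (fun L =>
      Of c (X (c.J (c.Th φ))) (star X (c.J (c.Th (bar φ)))) ρ (fun q => χ q.1)
        fun q => wq y q * kL κ L q) atTop
      (𝓝 (inner ℂ (c.J (c.Th (bar φ))) (∫ u, (ρ u : ℂ) • K u)))) ?_ (fun f f' a b d e => ?_)
      (fun z hz => ?_) hφ
    · rw [show bar (fun _ => 0) = fun _ => 0 from funext fun _ => star_zero _]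
      simp [z0, Of]
    · rw [show bar (fun x => f x + f' x) = fun x => bar f x + bar f' x from
        funext fun _ => star_add _ _, Ev.Th_add c a.1 b.1,
        Ev.Th_add c (Ap.test_bar a.1) (Ap.test_bar b.1)]
      simpa only [map_add, Of_vec, inner_add_left] using d.add e
    obtain ⟨r2, hr2, n2, hO2⟩ := ex_dc ((isOpen_lt cont_be continuous_const).inter
      (isOpen_lt continuous_const cont_al)) hz
    refine ⟨_, n2, fun f hf => ?_⟩
    set R := 2 * (‖y1‖ + 3 * |r1|) + 2 * (‖z‖ + 3 * |r2|) + u0 with hR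
    have p1 : 0 ≤ 2 * (‖y1‖ + 3 * |r1|) := by positivity
    have p2 : 0 ≤ 2 * (‖z‖ + 3 * |r2|) := by positivity
    have R0 : 0 < R := by linarith
    obtain ⟨C, A, c0, h⟩ := ub t R0 hχ hκ hρ
      (fun s k => ⟨by linarith [(sρ k).1], by linarith [(sρ k).2]⟩) y
    refine lim c0 h fun ε hε => ?_
    have p : 0 < C1 + C2 + 1 := by positivity
    obtain ⟨Y, y1', y2, y3, y4⟩ := apx t (Ap.in_mono hf inter_subset_left) (div_pos hε p)
    have q := div_pos hε p
    have q' : (C1 + C2 + 1) * (ε / (C1 + C2 + 1)) = ε := mul_div_cancel₀ _ p.ne'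
    have cm : jconj c.J Y (X c.Om) = X (c.J (Y c.Om)) := by
      rw [← comm_apply (c.N_mono (W hO) X hX) (c.E.J_mem Y (c.N_mono (W hO2) Y y1')),
        P132.jconj_apply, c.J_Om]
    refine ⟨jconj c.J Y (X c.Om), star X (star (jconj c.J Y) c.Om), star (jconj c.J Y) c.Om,
      ?_, ?_, ?_, ?_, ?_⟩
    · have := Loc.com G j R0 (((Loc.of y1' (dc_Bx (by linarith))).J j).mul
        (Loc.of hX (dc_Bx (by linarith))))
      rwa [star_mul] at this
    · rw [cm, ← map_sub, ← map_sub]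
      exact (l1 _ _ (y3.J G j)).mono (by nlinarith)
    · rw [star_Y, ← map_sub, ← map_sub]
      exact (l2 _ _ (y4.J G j)).mono (by nlinarith)
    · rw [star_Y, ← map_sub]
      exact (y4.J G j).1.trans (by nlinarith)
    · have := bb u0 d0 y1 r1 z r2 X Y χ κ ρ y hd hr hr2 hO hO2 hX hG y1' y2 x1 x2 x3 hκ hρ sρ
      simp only [om2_eq] at this
      exact i2 _ ▸ this
  have h1 := Ap.in_bar (in_conf0 conf_jr hf)
  have := key _ (Ap.in_mono h1 fun z a => ⟨by simpa [lt_neg] using a.1, by simpa using a.2⟩)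
  rw [J_Th j h1.1 (in_conf0 conf_jr h1).1,
    J_Th j (Ap.test_bar h1.1) (in_conf0 conf_jr (Ap.in_bar h1)).1] at this
  simp only [bar, jr_jr, star_star] at this
  rw [show bar (fun z => star (f1 z)) = f1 from Ap.bar_bar f1] at this
  replace this := this.neg
  simp only [map_neg, Of_neg, inner_neg_left, neg_neg] at this
  rw [i2]
  refine this.congr' ?_
  filter_upwards [eventually_gt_atTop (0 : ℝ)] with L hL
  exact (ident t.toT2.toT1 hu hd hO hX hf hχ (cs_mul_l (smooth_wq y) (tst_kL hκ.1 hL)) hρ sρ).symm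

end Vale.Agent.P352X.ZZ
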