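import Vale.Agent.P352X.R.CH
import Vale.Agent.P352Z.R.GRP.C

/-!
# P352Z, row CH: charges on general surfaces
-/

namespace Vale.Agent.P352X.ZZ.Chx
export Vale.Agent.P352X.Chx (TT dr_congr dr_const dr_mul dr_sub dr_time fld_vadd fld_vsum jc_bd sim_smooth sp sp_smooth
  test_uX tst_cut tst_dr tst_uX uX)
end Vale.Agent.P352X.ZZ.Chx
namespace Vale.Agent.P352X.ZZ.Grp
export Vale.Agent.P352X.Grp (Im.mul fld_smul)
end Vale.Agent.P352X.ZZ.Grp

set_option linter.all false

open MeasureTheory Filter Topology Set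
open scoped SchwartzMap ComplexConjugate ContDiff

namespace Vale.Agent.P352X.ZZ

open Vale.Agent.P352 Vale.Agent.P352.GF Vale.Agent.P352.H755 Vale.Agent.P352.H15

noncomputable section

namespace Chx

open Ap

variable {D : Type*} [NormedAddCommGroup D] [InnerProductSpace ℂ D] {Q : Theory D}
  {T : Ix → Ix → Fld D} {X : V → V}

lemma TT_add (hT : P2 Q T) (hX : IsSim 0 X) {u u' : Ix → V → ℝ} (hu : ∀ m, Tst (u m))
    (hu' : ∀ m, Tst (u' m)) (v : D) :
    TT T (uX (fun m x => u m x + u' m x) X) v = TT T (uX u X) v + TT T (uX u' X) v := by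
  simp only [TT, ← Finset.sum_add_distrib]
  refine Finset.sum_congr rfl fun m _ => Finset.sum_congr rfl fun n _ => ?_
  have h := Q.lin (T m n) _ _ 1 v (Grp.T_fld hT m n) (test_uX hX hu m n) (test_uX hX hu' m n)
  rw [one_smul] at h
  rw [← h]
  congr 1
  funext x
  simp only [uX]
  push_cast
  ring

lemma TT_loc (hT : P2 Q T) (hX : IsSim 0 X) {u : Ix → V → ℝ} (hu : ∀ m, Tst (u m))
    {K : Set V} (h : ∀ m, ∀ z ∈ Jc K, ∀ᶠ x in 𝓝 z, u m x = 0) {B : Fld D} (hB : Q.fld B) {f : Fn}
    (hf : GF.IsTest f) (hK : tsupport f ⊆ K) (v : D) :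
    TT T (uX u X) (B f v) = B f (TT T (uX u X) v) := by
  simp only [TT, fld_vsum hB hf]
  refine Finset.sum_congr rfl fun m _ => Finset.sum_congr rfl fun n _ =>
    Q.loc _ _ _ _ v (hT.bose m n) hB (test_uX hX hu m n) hf fun x hx y hy => ?_
  by_contra k
  refine (notMem_tsupport_iff_eventuallyEq.2 ?_) hx
  filter_upwards [h m x ⟨y, hK hy, not_lt.1 k⟩] with z hz
  simp [uX, hz]

lemma TT_kil (hT : P2 Q T) {A : (V → V) → D → D} (hC : Chs Q T A) (hX : IsSim 0 X) {ψ : V → ℝ} (hψ : Tst ψ) (v : D) :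
    TT T (uX (fun m => dr m ψ) X) v = 0 := by
  have hs := sim_smooth hX
  have tu := test_uX hX (tst_dr hψ)
  have tg := fun n => tst_uX hX hψ n
  obtain ⟨c, w, hw, h⟩ := hX
  have dX : ∀ m n x, dr m (fun x => eta n * X x n) x = eta n * w m n := fun m n x => by
    have : HasDerivAt (fun t => eta n * X (x + bas m t) n) (eta n * w m n) 0 := by
      have e : (fun t => eta n * X (x + bas m t) n) =
          fun t => eta n * X x n + t * (eta n * w m n) := by
        funext t
        simp [h, bas, add_mul, Finset.sum_add_distrib]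
        ring
      rw [e]
      simpa using ((hasDerivAt_id (0 : ℝ)).mul_const (eta n * w m n)).const_add (eta n * X x n)
    exact this.deriv
  have e : ∀ m n, T m n (pd m fun x => ((ψ x * (eta n * X x n) : ℝ) : ℂ)) v =
      T m n (uX (fun m => dr m ψ) X m n) v +
        ((eta n * w m n : ℝ) : ℂ) • T m n (fun x => (ψ x : ℂ)) v := fun m n => by
    rw [← Q.lin (T m n) _ _ _ v (Grp.T_fld hT m n) (tu m n) (tst_sw hψ)]
    congr 1
    funext x
    rw [pd_cx ((tg n).1.differentiable (by simp) x), dr_mul (hψ.1.differentiable (by simp))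
      ((contDiff_const.mul (hs n)).differentiable (by simp)), dX]
    simp only [uX]
    push_cast
    ring
  have z : ∑ m, ∑ n, ((eta n * w m n : ℝ) : ℂ) • T m n (fun x => (ψ x : ℂ)) v = 0 := by
    have : ∑ m, ∑ n, ((eta n * w m n : ℝ) : ℂ) • T m n (fun x => (ψ x : ℂ)) v =
        -∑ m, ∑ n, ((eta n * w m n : ℝ) : ℂ) • T m n (fun x => (ψ x : ℂ)) v := by
      conv_rhs => rw [Finset.sum_comm]
      simp only [← Finset.sum_neg_distrib, ← neg_smul]
      refine Finset.sum_congr rfl fun m _ => Finset.sum_congr rfl fun n _ => ?_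
      rw [hw m n, hC.symm n m _ v (tst_sw hψ), Complex.ofReal_neg]
    rw [eq_neg_iff_add_eq_zero, ← two_smul ℂ] at this
    exact (smul_eq_zero.1 this).resolve_left two_ne_zero
  have c0 : ∑ m, ∑ n, T m n (pd m fun x => ((ψ x * (eta n * X x n) : ℝ) : ℂ)) v = 0 := by
    rw [Finset.sum_comm]
    exact Finset.sum_eq_zero fun n _ => hC.conserved n _ v (tst_sw (tg n))
  simp only [e, Finset.sum_add_distrib, z, add_zero] at c0
  exact c0

lemma main (hT : P2 Q T) {A : (V → V) → D → D} (hC : Chs Q T A) {K : Set V}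
    {χ Ξ : V → ℝ} {B : Fld D} {f : Fn} (v w : D) (hK : IsCompact K) (hc : Chg K χ Ξ)
    (hX : IsSim 0 X) (hB : Q.fld B) (hf : GF.IsTest f) (hs : tsupport f ⊆ K) :
    inner ℂ w (TT T (dens χ Ξ X) (B f v) - B f (TT T (dens χ Ξ X) v)) =
      inner ℂ w (A X (B f v) - B f (A X v)) := by
  obtain ⟨hχ, hΞ, ⟨R0, hR0⟩, hloc⟩ := hc
  obtain ⟨s, ss, s0, s1, -, -⟩ := ex_step (a := -1) (b := 1) (by norm_num)
  have l0 : ∀ t < -1, ∀ᶠ u in 𝓝 t, s u = 0 := fun t ht =>
    (eventually_lt_nhds ht).mono fun u hu => s0 u hu.le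
  have l1 : ∀ t > 1, ∀ᶠ u in 𝓝 t, s u = 1 := fun t ht =>
    (eventually_gt_nhds ht).mono fun u hu => s1 u hu.le
  have sd : Differentiable ℝ s := ss.differentiable (by simp)
  have a0 : ∀ t ∉ Icc (-1 : ℝ) 1, deriv s t = 0 := fun t ht => by
    rcases lt_or_ge t (-1) with h | h
    · rw [Filter.EventuallyEq.deriv_eq (l0 t h), deriv_const]
    · rw [Filter.EventuallyEq.deriv_eq (l1 t (not_le.1 fun k => ht ⟨h, k⟩)), deriv_const]
  have ha : Tst (deriv s) := cs_of (ss.iterate_deriv 1) isCompact_Icc a0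
  have ia : ∫ t, deriv s t = 1 := by
    rw [← setIntegral_eq_integral_of_forall_compl_eq_zero a0, integral_Icc_eq_integral_Ioc,
      ← intervalIntegral.integral_of_le (by norm_num), intervalIntegral.integral_deriv_eq_sub
      (fun x _ => sd x) (ha.1.continuous.intervalIntegrable _ _), s0 _ le_rfl, s1 _ le_rfl,
      sub_zero]
  obtain ⟨c, hc, -, c1, -⟩ := ex_chi (isCompact_closedBall (0 : V) 1) isOpen_univ (subset_univ _)
  have cut : IsCutoff fun R x => ((deriv s (x o) * c (sp R x) : ℝ) : ℂ) :=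
    ⟨deriv s, c, ha.2, hc.2, ia, c1 0 (by simp), fun R hR =>
      ⟨tst_sw (tst_cut ha hc hR), fun x => Complex.ofReal_mul _ _⟩⟩
  obtain ⟨ρ, hρ⟩ := jc_bd hK (|R0| + 2)
  obtain ⟨κ, hκ, -, κ1, -⟩ := ex_chi (isCompact_closedBall (0 : V) ρ) isOpen_univ (subset_univ _)
  have S0 : ContDiff ℝ ∞ fun x : V => s (x o) := ss.comp (contDiff_apply ℝ ℝ o)
  have hψ : Tst fun x : V => (s (x o) - Ξ x) * κ x := cs_mul_l (S0.sub hΞ) hκ
  refine tendsto_nhds_unique (tendsto_const_nhds.congr' ?_) (hC.pch _ X B f v w cut hX hB hf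
    (hK.of_isClosed_subset (isClosed_tsupport f) hs))
  filter_upwards [eventually_ge_atTop (|ρ| + 1)] with R hR
  have Rp : 0 < R := by linarith [abs_nonneg ρ]
  set ψ : V → ℝ := fun x => (s (x o) - Ξ x) * κ x with hψd
  set u0 : Ix → V → ℝ := fun m x => if m = o then deriv s (x o) * c (sp R x) else 0 with hu0
  set u1 : Ix → V → ℝ := fun m x => χ x * dr m Ξ x with hu1
  set u2 : Ix → V → ℝ := fun m x => u0 m x - u1 m x - dr m ψ x with hu2
  have t0 : ∀ m, Tst (u0 m) := fun m => by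
    by_cases h : m = o <;> simp only [hu0, h, if_true, if_false]
    exacts [tst_cut ha hc Rp, cs_zero]
  have t1 : ∀ m, Tst (u1 m) := fun m => cs_mul_r hχ (smooth_dr hΞ m)
  have t2 : ∀ m, Tst (u2 m) := fun m => cs_sub (cs_sub (t0 m) (t1 m)) (tst_dr hψ m)
  have e1 : ∀ y, ND.cur T X (fun x => ((deriv s (x o) * c (sp R x) : ℝ) : ℂ)) y =
      TT T (uX u0 X) y := fun y => by
    rw [TT, Finset.sum_eq_single o (fun m _ h => Finset.sum_eq_zero fun n _ => ?_) (by simp)]
    · refine Finset.sum_congr rfl fun n _ => ?_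
      congr 1
      funext x
      simp only [uX, hu0, if_true]
      push_cast
      ring
    · have := Grp.fld_smul (Grp.T_fld hT m n) 0 hf y
      rw [zero_smul] at this
      rw [← this]
      congr 1
      funext x
      simp [uX, hu0, h]
  have e2 : ∀ y, TT T (uX u0 X) y = TT T (dens χ Ξ X) y + TT T (uX u2 X) y := fun y => by
    have k := TT_add hT hX (fun m => cs_add (t1 m) (t2 m)) (tst_dr hψ) y
    rw [TT_kil hT hC hX hψ, add_zero, TT_add hT hX t1 t2] at k
    rw [← show TT T (uX u1 X) y = TT T (dens χ Ξ X) y from rfl, ← k]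
    congr 2
    funext m x
    simp only [hu2]
    ring
  have e3 : ∀ m, ∀ z ∈ Jc K, ∀ᶠ x in 𝓝 z, u2 m x = 0 := fun m z hz => by
    have ct : Tendsto (fun x : V => x o) (𝓝 z) (𝓝 (z o)) := (continuous_apply o).tendsto z
    have far : ∀ r : ℝ, (∀ᶠ t in 𝓝 (z o), s t = r) → (∀ᶠ x in 𝓝 z, Ξ x = r) →
        ∀ᶠ x in 𝓝 z, u2 m x = 0 := fun r h1 h2 => by
      have h3 : ∀ᶠ x in 𝓝 z, ψ x = 0 := by
        filter_upwards [ct.eventually h1, h2] with x k1 k2
        simp [hψd, k1, k2]
      filter_upwards [dr_congr h2 m, dr_congr h3 m, ct.eventually h1.eventually_nhds] with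
        x k1 k2 k3
      simp [hu2, hu1, hu0, k1, k2, dr_const, Filter.EventuallyEq.deriv_eq k3]
    rcases le_or_gt (|z o|) (|R0| + 2) with h | h
    · have zb := hρ z hz h
      have h1 : ∀ᶠ x in 𝓝 z, ψ x = s (x o) - Ξ x :=
        (κ1 z (mem_closedBall_zero_iff.2 zb)).mono fun x hx => by simp [hψd, hx]
      have h2 : ∀ᶠ x in 𝓝 z, c (sp R x) = 1 := by
        refine ((sp_smooth R).continuous.tendsto z).eventually (c1 _ (mem_closedBall_zero_iff.2
          ((pi_norm_le_iff_of_nonneg zero_le_one).2 fun n => ?_)))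
        have := (norm_le_pi_norm z n).trans zb
        by_cases k : n = o
        · simp [sp, k]
        · simp only [sp, k, if_false, norm_div, Real.norm_of_nonneg Rp.le]
          rw [div_le_one Rp]
          linarith [le_abs_self ρ]
      have h3 : ∀ᶠ x in 𝓝 z, u1 m x = dr m Ξ x := by
        rcases hloc z hz with k | k
        · exact k.mono fun x hx => by simp [hu1, hx]
        · exact (dr_congr k m).mono fun x hx => by simp [hu1, hx, dr_const]
      filter_upwards [dr_congr h1 m, h2, h3] with x k1 k2 k3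
      rw [dr_sub (S0.differentiable (by simp)) (hΞ.differentiable (by simp)), dr_time] at k1
      simp only [hu2, hu0, k1, k2, k3]
      split_ifs <;> ring
    · rcases lt_abs.1 h with k | k
      · exact far 1 (l1 _ (by linarith [abs_nonneg R0])) ((hR0 z hz).1 (by
          linarith [le_abs_self R0]))
      · exact far 0 (l0 _ (by linarith [abs_nonneg R0])) ((hR0 z hz).2 (by
          linarith [le_abs_self R0]))
  simp only [e1, e2, fld_vadd hB hf, TT_loc hT hX t2 e3 hB hf hs]
  congr 1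
  abel

end Chx

variable {D : Type*} [NormedAddCommGroup D] [InnerProductSpace ℂ D]

theorem ch_row (c : Ctx D) : c.chg → CH c := fun e _ _ _ _ _ _ v w hK hc hX hB hf hs =>
  Chx.main c.hT (c.hP0 e) v w hK hc hX hB hf hs

end

end Vale.Agent.P352X.ZZ
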