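import Vale.Agent.P352X.R.CONK.VIT
import Vale.Agent.P352X.R.CONK.Prim
import Vale.Agent.P352X.R.CONK.Ann
import Vale.Agent.P352Z.R.SCH
import Vale.Agent.P352Z.R.BP
import Vale.Agent.P352Z.R.CONK.Norm
import Vale.Agent.P352Z.R.CONK.Tail
import Vale.Agent.P352Z.R.CONK.CV
import Vale.Agent.P352Z.R.CONK.Smv
import Vale.Agent.P352Z.R.CONK.LWF
import Vale.Agent.P352Z.R.CONK.Kp
import Vale.Agent.P352Z.R.CONK.Tri
import Vale.Agent.P352Z.R.CONK.Flow
import Vale.Agent.P352Z.R.CONK.Near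
import Vale.Agent.P352Z.R.CONK.DT
import Vale.Agent.P352Z.R.CONK.K0T
import Vale.Agent.P352Z.R.CONK.AB
import Vale.Agent.P352Z.R.CONK.A1
import Vale.Agent.P352Z.R.CONK.A3
import Vale.Agent.P352Z.R.CONK.AA
import Vale.Agent.P352Z.R.CONK.Ub
import Vale.Agent.P352Z.R.CONK.Uf
import Vale.Agent.P352Z.R.CONK.Rf
import Vale.Agent.P352Z.R.CONK.FIN
import Vale.Agent.P352Z.R.CONK.Sh

/-!
# P352Z, row CONK
-/

set_option linter.all false

namespace Vale.Agent.P352X.ZZ

variable {D : Type*} [NormedAddCommGroup D] [InnerProductSpace ℂ D]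

theorem CK.rows (c : Ctx D) [Fact c.can] : CK.Rows c where
  vit := CK.vit_row
  prim := CK.prim_row
  ann := CK.ann_row
  norm := CK.norm_row c
  tail := CK.tail_row c
  cv := CK.cv_row c
  smv := CK.smv_row c
  lwf := CK.lwf_row c
  kp := CK.kp_row c
  tri := CK.tri_row c
  flow := CK.flow_row c
  near := CK.near_row c
  dt := CK.dt_row c
  k0t := CK.k0t_row c
  sch := sch_row c
  ab := CK.ab_row c
  a1 := CK.a1_row c
  a3 := CK.a3_row c
  aa := CK.aa_row c
  ub := CK.ub_row c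
  uf := CK.uf_row c
  rf := CK.rf_row c
  fin := CK.fin_row c
  sh := CK.sh_row c

/-- row CONK, from the case `a0 = 0` of row BP -/
theorem conk_row0 (c : Ctx D) [Fact c.can] : T3 c → CK.BP0 c → CONK c := (CK.rows c).conk

/-- **row CONK** -/
theorem conk_row (c : Ctx D) [Fact c.can] : T3 c → BB c → CONK c :=
  fun t h => conk_row0 c t (bp0_row c t h)

end Vale.Agent.P352X.ZZ
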