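import Vale.Agent.P352Z.R.FAR

/-!
# P352Z: pull backs, mirror images, the legs as sums over pairs of indices (helper89)
-/

set_option linter.all false

open MeasureTheory Filter Topology
open scoped SchwartzMap ComplexConjugate ENNReal ContDiff

namespace Vale.Agent.P352X.ZZ.Ld

open Vale.Agent.P352 Vale.Agent.P352.GF Vale.Agent.P352.BW Vale.Agent.P352.H246
open Vale.Agent.P352.H496 Vale.Agent.P352.H755 Vale.Agent.P352.H15
open UniformSpace (Completion)
open Ev

noncomputable section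

section general

variable {E E' : Type*} [NormedAddCommGroup E] [NormedSpace ℝ E] [NormedAddCommGroup E']
  [NormedSpace ℝ E']

/-- the pull back by an invertible affine map -/
def pb (e : E ≃L[ℝ] E') (a : E') : 𝓢(E', ℂ) →L[ℂ] 𝓢(E, ℂ) :=
  SchwartzMap.compCLMOfContinuousLinearEquiv ℂ e ∘L SchwartzMap.compSubConstCLM ℂ (-a)

lemma pb_apply (e : E ≃L[ℝ] E') (a : E') (F : 𝓢(E', ℂ)) (x : E) : pb e a F x = F (e x + a) := by
  show F (e x - -a) = _
  rw [sub_neg_eq_add]

lemma ld_pb (e : E ≃L[ℝ] E') (a : E') (v : E) (F : 𝓢(E', ℂ)) :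
    ld v (pb e a F) = pb e a (ld (e v) F) :=
  SchwartzMap.ext fun x => (ld_comp (A := fun x => e x + a) (pb_apply e a F)
    (fun x t => by rw [e.map_add, e.map_smul, add_right_comm]) x).trans (pb_apply e a _ x).symm

lemma sum3 {ι M : Type*} [Fintype ι] [AddCommMonoid M] (f : ι → ι → ι → M) :
    ∑ I, ∑ J, ∑ K, f I J K = ∑ K, ∑ J, ∑ I, f I J K :=
  Finset.sum_comm.trans ((Finset.sum_congr rfl fun _ _ => Finset.sum_comm).trans Finset.sum_comm)

lemma lip1 {f : ℝ → E} (hf : ContDiff ℝ 1 f) :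
    ∃ K : ℝ, 0 ≤ K ∧ ∀ s : ℝ, |s| ≤ 1 → ‖f s - f 0‖ ≤ K * |s| := by
  obtain ⟨K, hK⟩ := hf.contDiffOn.exists_lipschitzOnWith (s := Set.Icc (-1) 1) one_ne_zero
    (convex_Icc _ _) isCompact_Icc
  refine ⟨K, K.2, fun s hs => ?_⟩
  have := hK.norm_sub_le (abs_le.1 hs) (show (0 : ℝ) ∈ Set.Icc (-1) 1 by simp)
  rwa [sub_zero, Real.norm_eq_abs] at this

end general

/-! ### partial derivatives -/

lemma pd_line (m : Ix) (f : Fn) (x : V) :
    pd m f x = deriv (fun t : ℝ => f (x + t • bas m 1)) 0 := by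
  rw [pd]
  congr 1
  funext t
  congr 1
  funext n
  simp [bas]

lemma jr_bas (m : Ix) : jr (bas m 1) = sj m • bas m 1 := funext fun n => by
  rw [jr_apply]
  by_cases h : n = m <;> simp [bas, h]

lemma jr_line (m : Ix) (x : V) (t : ℝ) : jr (x + t • bas m 1) = jr x + (sj m * t) • bas m 1 := by
  rw [← jrL_apply, jrL.map_add, jrL.map_smul, jrL_apply, jrL_apply, jr_bas, smul_smul, mul_comm]

lemma pd_jr (m : Ix) (f : Fn) (x : V) :
    pd m (fun z => f (jr z)) x = (sj m : ℝ) * pd m f (jr x) := by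
  have := deriv_comp_mul_left (sj m) (fun t : ℝ => f (jr x + t • bas m 1)) 0
  rw [mul_zero, Complex.real_smul] at this
  simp only [pd_line, jr_line, ← this]

lemma p22_line (n : Ix) (G : S2) (x y : V) :
    p22 n G (x, y) = deriv (fun t : ℝ => G (x, y + t • bas n 1)) 0 :=
  (ld_line _ G _).trans (by simp)

lemma p31_line (n : Ix) (F : S3) (x y z : V) :
    p31 n F (x, y, z) = deriv (fun t : ℝ => F (x + t • bas n 1, y, z)) 0 :=
  (ld_line _ F _).trans (by simp)

lemma p33_line (n : Ix) (F : S3) (x y z : V) :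
    p33 n F (x, y, z) = deriv (fun t : ℝ => F (x, y, z + t • bas n 1)) 0 :=
  (ld_line _ F _).trans (by simp)

lemma p31_p33 (n q : Ix) (F : S3) : p31 n (p33 q F) = p33 q (p31 n F) := ld_comm _ _ F

/-- the derivatives of `G(y, x) f(z)` -/
lemma p3_prod {f : Sch} {G : S2} {F : S3} (e : ∀ x y z, F (x, y, z) = G (y, x) * f z) (n q : Ix)
    (x y z : V) : p31 n (p33 q F) (x, y, z) = p22 n G (y, x) * ld (bas q 1) f z := by
  simp only [p31_line, p33_line, p22_line, e, deriv_const_mul_field, deriv_mul_const_field, ld_line]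

lemma p22_jr {F G : S2} (e : ∀ x y, G (x, y) = conj (F (jr x, jr y))) (q : Ix) (x y : V) :
    p22 q G (x, y) = conj ((((sj q : ℝ) : ℂ) • p22 q F) (jr x, jr y)) := by
  have := deriv_comp_mul_left (sj q) (fun t : ℝ => F (jr x, jr y + t • bas q 1)) 0
  rw [mul_zero, Complex.real_smul] at this
  rw [SchwartzMap.smul_apply, smul_eq_mul, p22_line, p22_line, ← this, ← Complex.star_def,
    ← deriv.star]
  simp only [e, jr_line, Complex.star_def]

lemma late_mono {A B A' B' : Set V} (h : Late A B) (a : A' ⊆ A) (b : B' ⊆ B) : Late A' B' :=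
  fun x hx y hy => h x (a hx) y (b hy)

lemma legs_p22 (q : Ix) (G : S2) : Far.legs (p22 q G) ⊆ Far.legs G :=
  have h := tsupport_ld ((0, bas q 1) : V × V) G
  Set.union_subset_union (Set.image_mono h) (Set.image_mono h)

/-! ### the legs as sums over pairs of indices -/

/-- `a_m` for the pair `(m, n)` -/
def a1 (I : I2) : ℂ := (eta I.1 * va I.1 : ℝ)
/-- `a_k a_l` -/
def a2 (J : I2) : ℂ := (eta J.1 * va J.1 * (eta J.2 * va J.2) : ℝ)

lemma conj_a1 (I : I2) : conj (a1 I) = a1 I := Complex.conj_ofReal _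
lemma conj_a2 (I : I2) : conj (a2 I) = a2 I := Complex.conj_ofReal _

variable {D : Type*} [NormedAddCommGroup D] [InnerProductSpace ℂ D] (c : Ctx D)

lemma t0_eq (F : S3) : c.t0 F =
    ∑ I, ∑ J, ∑ K, a1 I * a2 J * a1 K * c.t I J K (p31 I.2 (p33 K.2 F)) := by
  simp only [Ctx.t0, Fintype.sum_prod_type, a1, a2, ← Complex.ofReal_mul, mul_assoc]

lemma w0_eq (w : I2 → I2 → S2 →L[ℂ] Completion D) (F : S2) :
    w0 w F = ∑ J, ∑ K, (a2 J * a1 K) • w J K (p22 K.2 F) := by
  simp only [w0, Fintype.sum_prod_type, a1, a2, ← Complex.ofReal_mul]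

lemma Th_eq2 {f : Fn} (hf : IsTest f) : c.Th f =
    ∑ K, a1 K • ((c.T K.1 K.2 (pd K.2 f) c.Q.vac : D) : Completion D) := by
  rw [Th_eq c hf, Fintype.sum_prod_type]
  rfl

/-- `t0` as a continuous linear map -/
def t0L : S3 →L[ℂ] ℂ where
  toFun := c.t0
  map_add' := Far.t0_add c
  map_smul' a F := by
    simp only [Ctx.t0, map_smul, smul_eq_mul, RingHom.id_apply, Finset.mul_sum, mul_left_comm a]
  cont := by
    unfold Ctx.t0
    fun_prop

lemma t0L_apply (F : S3) : t0L c F = c.t0 F := rfl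

lemma t_sw [Fact c.tp] (I J K : I2) {F G : S3} (h : ∀ x y z, G (x, y, z) = F (z, y, x)) :
    c.t I J K F = c.t K J I G := by
  let F1 := SchwartzMap.compCLMOfContinuousLinearEquiv ℂ Far.sw1 F
  let F2 := SchwartzMap.compCLMOfContinuousLinearEquiv ℂ Far.sw2 F1
  exact (c.hTP.swap1 I J K F F1 fun _ _ _ => rfl).trans ((c.hTP.swap2 J I K F1 F2
    fun _ _ _ => rfl).trans (c.hTP.swap1 J K I F2 G fun x y z => h x y z))

/-- `t0` is symmetric in the two legs -/
theorem t0_sw [Fact c.tp] {F G : S3} (h : ∀ x y z, G (x, y, z) = F (z, y, x)) :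
    c.t0 G = c.t0 F := by
  rw [t0_eq, t0_eq, sum3]
  refine Finset.sum_congr rfl fun I _ => Finset.sum_congr rfl fun J _ =>
    Finset.sum_congr rfl fun K _ => ?_
  rw [t_sw c I J K (F := p31 I.2 (p33 K.2 F)) (G := p31 K.2 (p33 I.2 G)) fun x y z => by
    rw [p31_p33 I.2]
    simp only [p31_line, p33_line, h]]
  ring

end

end Vale.Agent.P352X.ZZ.Ld
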