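import Vale.Agent.P352X.R.CTX
import Vale.Agent.P352Z.Main0

/-!
# P352Z, row CTX: the context exists
-/


set_option linter.all false

noncomputable section

namespace Vale.Agent.P352X.ZZ

open Vale.Agent.P352 Vale.Agent.P352.GF Vale.Agent.P352.BW Vale.Agent.P352.H246
open Vale.Agent.P352.H496 Vale.Agent.P352.H755 Vale.Agent.P352.H15
open UniformSpace (Completion)

open Vale.Agent.P352X.CTXp

theorem ctx_row (D : Type*) [NormedAddCommGroup D] [InnerProductSpace ℂ D] : CTX D := by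
  intro Q T A N k Sj Vj sg wp wm t can tp hT hG hN hU hC hTP
  obtain ⟨S, hS⟩ := S0.grp0 (H268.s0 hG hN)
  obtain ⟨E⟩ := hN.modW fr.ha fr.hb fr.hab
  have e1 : (fun (y : V) (z : Completion D) => Ut Q y z) = fun y => Ue Q 1 GF.one y := by
    funext y z
    exact Ug_apply Q one_pos H496.isLor_one y z
  have e2 : (fun (y : P3) (z : Completion D) => Ut Q (y.1 • va) (Ga Q y.2 z)) =
      fun y z => Ue Q 1 GF.one (y.1 • va) (Ue Q 1 (Kin.Gm va ex y.2) 0 z) := by
    funext y z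
    rw [Ut, Ga, Ug_apply Q one_pos H496.isLor_one, gmw, Ug_apply Q one_pos (fr.lor _)]
  obtain ⟨bt⟩ : Nonempty (SN.BC (fun p y : V => mdot p y) fun y z => Ut Q y z) := by
    rw [e1]
    exact Kin.exists_TC hN.toRep
  obtain ⟨a3⟩ : Nonempty (SN.BC pr3 fun (y : P3) z => Ut Q (y.1 • va) (Ga Q y.2 z)) := by
    rw [e2]
    exact SN.exists_BC pair3 ((Kin.urep_a hN.toRep va).prod (Kin.urep_G hN.toRep fr)
      fun x y v => (Kin.G_a hN.toRep fr y x v).symm)
  refine ⟨⟨Q, T, A, N, S, E, wp, wm, t, bt, a3, k, Sj, Vj, sg, hT, hG, hN, hU, hS.grp1 hG hN,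
    fun a z w ha hz => (H268.gr0 hS).pos hG hN a z w ha hz, fun s z => ?_, False, False.elim,
    can, hC, tp, hTP⟩, rfl, rfl, rfl, rfl, rfl, rfl, rfl, rfl, rfl, rfl, rfl⟩
  have h1 : Real.sqrt (Real.exp (-(2 * Real.pi * s)) * Real.exp (-(-(2 * Real.pi * s)))) = 1 := by
    rw [← Real.exp_add, add_neg_cancel, Real.exp_zero, Real.sqrt_one]
  have h2 : ∀ u : ℝ, Real.sqrt (Real.exp u / Real.exp (-u)) = Real.exp u := fun u => by
    rw [← Real.exp_sub, sub_neg_eq_add, Real.exp_add, Real.sqrt_mul_self (Real.exp_pos u).le]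
  have h3 : Real.sqrt (Real.exp (-(-(2 * Real.pi * s))) / Real.exp (-(2 * Real.pi * s))) =
      Real.exp (2 * Real.pi * s) := by
    rw [neg_neg]
    exact h2 _
  have hL : IsLor (bst va vb (Real.exp (-(2 * Real.pi * s)) - 1) (Real.exp (2 * Real.pi * s) - 1)) :=
    isLor_bst fr.ha fr.hb fr.hab (by linarith [Real.exp_pos (-(2 * Real.pi * s))]) (by
      rw [add_sub_cancel, add_sub_cancel, ← Real.exp_add, neg_add_cancel, Real.exp_zero])
  rw [Bo, Usc, h1, h2, h3, Ug_apply Q one_pos hL]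
  exact hN.bw hG va vb s _ E z fr.ha fr.hb fr.hab hL fun x => sim_bst _ _ _ _ x

end Vale.Agent.P352X.ZZ
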