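import Vale.Agent.P352X.R.D1
import Vale.Agent.P352Z.R.D1.Sm

/-!
# P352Z, row D1: the trace of the defect of locality on the null plane vanishes
-/

set_option linter.all false

open MeasureTheory Filter Topology Set
open scoped SchwartzMap ComplexConjugate ContDiff

namespace Vale.Agent.P352X.ZZ

open Vale.Agent.P352 Vale.Agent.P352.GF Vale.Agent.P352.H755 Vale.Agent.P352.H246
  Vale.Agent.P352.H496
open Th Ap Ib
open UniformSpace (Completion)
open Complex (I)

noncomputable section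

namespace D1

export Vale.Agent.P352X.D1 (dc_da dc_pf supp_pf dv_pf sf dc_sf da_sf)

variable {g : P3 → ℂ} {φ : ℝ → ℝ}

lemma bar_pf0 (g : P3 → ℂ) (φ : ℝ → ℝ) : bar (pf g (cx φ)) = pf (fun y => conj (g y)) (cx φ) := by
  funext z
  simp [bar, pf, cx]

variable {D : Type*} [NormedAddCommGroup D] [InnerProductSpace ℂ D] {c : Ctx D}

lemma pr_l (h : CUR c) {a b y : V} (ha : IsNull a) (hb : IsNull b) (hab : 0 < mdot a b) {f : Fn}
    (hf : In (Wdg a b y) f) : Pr (c.N (Wdg a b y)) c.Om (c.l f) (c.l (bar f)) := by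
  have := (h.wl va a b y f ha hb hab hf).csmul (-(1 / 9))
  push_cast at this
  exact this

lemma pr_wdg (h : CUR c) {f : Fn} (hf : In (Wdg va vb 0) f) :
    Pr (c.N (Rc 0 0)) c.Om (c.l f) (c.l (bar f)) := by
  have e : Rc 0 0 = Wdg va vb 0 := by
    ext z
    simp [Rc, HM.Rg, Wdg]
  rw [e]
  exact pr_l h null_va null_vb (by rw [md_ab]; exact one_pos) hf

lemma key [Fact c.can] (t : T3 c) (hs : SCH c) (hy : YZ c) {r : ℝ} (hr : 0 ≤ r) (hg : Dc g) :
    Tendsto (fun n => c.l (pf g (cx (Ph n))) -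
      c.SK r (c.l (pf (fun y => g (sf r y)) (cx (Ph n))))) atTop (𝓝 0) := by
  obtain ⟨ell, c0, h⟩ := t.toT2.ell
  have := haar3
  obtain ⟨cc, dd, S⟩ := hs ell c0 h
  have m : ∀ {g : P3 → ℂ}, Dc g → MemLp (ft3 (da g)) 2 mP := fun hg =>
    (l2 (sw_ft3 (dc_sw (dc_da hg)))).restrict _
  have nr : ∀ {g : P3 → ℂ} (hg : Dc g), Tendsto (fun n => La h (m hg) (S1 (Ph n)) -
      c.l (pf g (cx (Ph n)))) atTop (𝓝 0) := fun hg => by
    obtain ⟨C, hC⟩ := near h (dc_sw hg) (m hg)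
    have := (Ph_sq.const_mul C).sqrt
    rw [mul_zero, Real.sqrt_zero] at this
    exact squeeze_zero_norm (fun n => Real.le_sqrt_of_sq_le
      (hC _ (Ph_tst n) (dc_sw (dc_pf hg (Ph_tst n))) (dv_pf hg (Ph_tst n)))) this
  have hγ : MemLp (ft3 g) 2 m3 := mem_m3.2 ⟨(sw_cont (sw_ft3 (dc_sw hg))).aestronglyMeasurable, by
    refine ((m hg).const_mul I).ae_eq (.of_forall fun k => ?_)
    simp only [ft3_da (dc_sw hg)]
    linear_combination (-(k.1 * ft3 g k)) * Complex.I_mul_I⟩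
  have h1 := small t.kt S hγ h (m hg) (ft3_da (dc_sw hg)) (hy ell c0 cc dd h S th th_bump) hr
  have h2 : ∀ n, c.S0 r (La h (m (dc_sf hg r)) (S1 (Ph n))) = La h (m hg) (S1 (Ph n)) := fun n => by
    have := h.s0 r (sch (da fun y => g (sf r y))) (sch (da g))
      (fun b u => ft1 (S1 (Ph n)) (u / (2 * b)))
      ((sw_cont (sw_ft1 (sw_coe _))).measurable.comp (by fun_prop))
      (fun y => by rw [sch_dc (dc_da hg), sch_dc (dc_da (dc_sf hg r)), da_sf hg]; simp [sf])
    rw [coe_sch (dc_sw (dc_da hg)), coe_sch (dc_sw (dc_da (dc_sf hg r)))] at this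
    rw [La_apply, La_apply]
    exact (this (mem_prod (m (dc_sf hg r)) ((l2 (sw_ft1 (sw_coe _))).restrict _))).2
  have := (((c.SK r).continuous.tendsto 0).comp (nr (dc_sf hg r))).sub (nr hg) |>.sub h1
  rw [map_zero, sub_zero, sub_zero] at this
  refine this.congr fun n => ?_
  rw [Function.comp, map_sub, (t.kt.comm 0 r).2, ContinuousLinearMap.mul_apply, h2]
  abel

end D1

open D1

variable {D : Type*} [NormedAddCommGroup D] [InnerProductSpace ℂ D]

/-- row D1 -/
theorem d1_row (c : Ctx D) [Fact c.can] : T3 c → SCH c → YZ c → D1 c := by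
  intro t hs hy
  refine ⟨Ph, ∫ t, |et t|, fun n => ⟨Ph_tst n, Ph_supp n, Ph_int n, Ph_abs n⟩, Ph_sq,
    fun r hr Z hZ g hg sg => ?_⟩
  have h1 := (tendsto_const_nhds (x := star Z c.Om)).inner (𝕜 := ℂ) (key t hs hy hr hg)
  have h2 := (key t hs hy hr (dc_conj hg)).inner (𝕜 := ℂ) (tendsto_const_nhds (x := Z c.Om))
  have h3 := h1.sub h2
  rw [inner_zero_right, inner_zero_left, sub_zero] at h3
  refine h3.congr fun n => ?_
  have d := dc_pf (dc_sf hg r) (Ph_tst n)
  have p := t.kd.b 0 r _ _ le_rfl hr (pr_wdg t.toT2.cur ⟨dc_sw d, d.2, fun z hz => by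
    obtain ⟨a, b⟩ := supp_pf _ _ hz
    have := sg (tsupport_comp_subset_preimage g (sf r).continuous a)
    exact ⟨by simpa [md_va] using (Ph_supp n b).2, by simpa [sf, md_vb] using this⟩⟩) Z hZ
  rw [sub_zero, bar_pf0] at p
  rw [Ctx.bb, bar_pf0, inner_sub_right, inner_sub_left, p]
  ring

end

end Vale.Agent.P352X.ZZ
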