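import Vale.Agent.P352Z.R.TWO.Mu
import Vale.Agent.P352Z.R.ELL.F

/-!
# P352Z, row ELL: the potential of the leg in momentum space (helper20)
-/

set_option linter.all false

noncomputable section

open MeasureTheory Filter Topology Complex Set
open scoped SchwartzMap ComplexConjugate ENNReal NNReal

namespace Vale.Agent.P352X.ZZ

namespace Elz

open Vale.Agent.P352.GF Vale.Agent.P352.BW Vale.Agent.P352.H496 Vale.Agent.P352.H755
open Vale.Agent.P352.H246 (linv isLor_linv box In)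
open UniformSpace (Completion)
open SN Vale.Agent.P352X.ZZ.Two
open Vale.Agent.P352X.Two (g0 gS g0_in g0_ne wt_g0 bd_ft dn)
open Vale.Agent.P352X.El (LF inner_F cmpL cmpL_coe sim_inv test_sim' s0_of ft3_int)

variable {D : Type*} [NormedAddCommGroup D] [InnerProductSpace ℂ D] {c : Ctx D}

/-- the component along `a` of a canonical vector of dimension three -/
structure Cj (c : Ctx D) (φ : Fn → Completion D) : Prop where
  lin : ∀ (f g : Fn) (a : ℂ), IsTest f → IsTest g → φ (fun x => f x + a * g x) = φ f + a • φ g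
  cont : Continuous fun g => φ (ev g)
  cov : ∀ s L a (κ : ℝ) f, 0 < s → IsLor L → sim 1 L 0 va = κ • va → IsTest f →
    Ug c.Q s L a (φ fun x => f (sim s L a x)) = ((s⁻¹ * κ : ℝ) : ℂ) • φ f
  perp : ∀ f, IsTest f → inner ℂ c.Om (φ f) = 0

variable {φ : Fn → Completion D}

lemma Cj.zero (h : Cj c φ) : φ (fun _ => 0) = 0 := by
  simpa using h.lin (fun _ => 0) (fun _ => 0) 1 ⟨0, rfl⟩ ⟨0, rfl⟩

/-- as a map on Schwartz space -/
def Cj.lc (h : Cj c φ) : Sch →L[ℂ] Completion D where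
  toFun g := φ (ev g)
  map_add' f g := by
    have := h.lin (ev f) (ev g) 1 ⟨f, rfl⟩ ⟨g, rfl⟩
    simp only [one_mul, one_smul] at this
    exact this
  map_smul' a f := by
    have := h.lin (fun _ => 0) (ev f) a ⟨0, rfl⟩ ⟨f, rfl⟩
    simp only [zero_add, h.zero] at this
    exact this
  cont := h.cont

lemma one_va : sim 1 P352.GF.one 0 va = (1 : ℝ) • va := by simp [P352.HM.sim_tr]

lemma gap_va (w : R2) : gap w va = (1 : ℝ) • va := null_ext (by simp) (by simp) (by simp)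

lemma Cj.rel (h : Cj c φ) (f : Sch) : c.bt.Phi (ft g0) (φ (ev f)) = c.bt.Phi (ft (ev f)) (φ g0) := by
  have tr : ∀ y (u : Sch), h.lc (ST.tsl y u) = Ut c.Q y (φ (ev u)) := fun y u => by
    have := h.cov 1 _ y 1 (ev (ST.tsl y u)) one_pos isLor_one one_va ⟨_, rfl⟩
    rw [Grp.tsl_sim, inv_one, one_mul, ofReal_one, one_smul] at this
    exact this.symm
  exact rel_clm h.lc (fun y _ => tr y f) fun y _ => tr y gS

lemma Cj.cv (h : Cj c φ) : Cv c φ 0 (-1) where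
  rel f hf := by
    obtain ⟨f, rfl⟩ := hf.1
    exact h.rel f
  rot w := by
    obtain ⟨l1, l2⟩ := Grp.lga w
    simpa only [l2, inv_one, one_mul, ofReal_one, one_smul, Ga] using
      h.cov 1 _ 0 1 g0 one_pos l1 (by rw [l2, gap_va]) g0_in.1
  sca r s hr hs := by
    obtain ⟨l1, l2⟩ := Grp.lsc hr hs
    have h0 := Br.sc_pos hr hs
    have := h.cov _ _ 0 ((Real.sqrt (r * s))⁻¹ * r) g0 h0 l1 (by
      rw [mul_smul, ← Br.scp_va r s, ← l2, sim_smul (s := Real.sqrt _), inv_smul_smul₀ h0.ne'])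
      g0_in.1
    simp only [l2] at this
    refine this.trans ?_
    rw [← mul_assoc, ← mul_inv, Real.mul_self_sqrt (mul_pos hr hs).le, Real.rpow_zero,
      Real.rpow_neg_one]
    congr 2
    field_simp
  perp := h.perp _ g0_in.1

lemma Cj.two (h : Cj c φ) : ∃ κ : ℂ, ∀ f f' : Sch, inner ℂ (φ (ev f)) (φ (ev f')) =
    κ * ∫ p in Fc, conj (fa (ev f) p) * fa (ev f') p := by
  have a := h.cv.vc
  obtain ⟨κ, -, -, e⟩ := overlap a a wt_g0 (a.high wt_g0 (by norm_num) h.cv.perp)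
  refine ⟨κ, fun f f' => ?_⟩
  have k : ∀ p, κ * (be p : ℂ) ^ 2 * (conj (ft (ev f) p) * ft (ev f') p) =
      κ * (conj (fa (ev f) p) * fa (ev f') p) := fun p => by
    simp only [fa, map_mul, map_neg, conj_I, conj_ofReal]
    linear_combination (κ * (be p : ℂ) ^ 2 * (conj (ft (ev f) p) * ft (ev f') p)) * I_sq
  have := transfer (H := fun p => κ * (be p : ℂ) ^ 2) wt_g0.bd g0_ne (bd_ft ⟨f, rfl⟩)
    (bd_ft ⟨f', rfl⟩) (h.rel f) (h.rel f') (fun G hG => (e G hG).trans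
      (integral_congr_ae (.of_forall fun p => by
        simp only [SN.conj_mul_self, dn]; norm_num; exact .inl (by ring))))
    (by
      simp only [k]
      exact (SN.integrable_conj_mul (mem_fa ⟨f, rfl⟩) (mem_fa ⟨f', rfl⟩)).const_mul κ) (.const 1)
  simpa only [c.bt.one, ContinuousLinearMap.one_apply, k, one_mul, integral_const_mul] using this

/-- the two point function -/
theorem Cj.iota (h : Cj c φ) : ∃ (ι : LF →L[ℂ] Completion D) (c0 : ℝ)
    (F : Sch →L[ℂ] LF), 0 ≤ c0 ∧ DenseRange F ∧ (∀ f, F f =ᵐ[volume.restrict Fc] fa (ev f)) ∧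
    (∀ f, ι (F f) = φ (ev f)) ∧ ∀ u v, inner ℂ (ι u) (ι v) = c0 * inner ℂ u v := by
  obtain ⟨F, hd, hF⟩ := exists_Fa
  obtain ⟨κ, hκ⟩ := h.two
  have h1 : ∀ f f', inner ℂ (h.lc f) (h.lc f') = κ * inner ℂ (F f) (F f') := fun f f' => by
    refine (hκ f f').trans ?_
    rw [L2.inner_def]
    congr 1
    refine integral_congr_ae ?_
    filter_upwards [hF f, hF f'] with p h1 h2
    rw [h1, h2, RCLike.inner_apply, mul_comm]
  obtain ⟨c0, h0, h2⟩ : ∃ c0 : ℝ, 0 ≤ c0 ∧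
      ∀ f f', inner ℂ (h.lc f) (h.lc f') = c0 * inner ℂ (F f) (F f') := by
    by_cases k : ∃ f, F f ≠ 0
    · obtain ⟨f, hf⟩ := k
      refine ⟨‖h.lc f‖ ^ 2 / ‖F f‖ ^ 2, by positivity, ?_⟩
      have := h1 f f
      rw [inner_self_eq_norm_sq_to_K, inner_self_eq_norm_sq_to_K] at this
      have e : κ = (‖h.lc f‖ ^ 2 / ‖F f‖ ^ 2 : ℝ) := by
        have : (‖F f‖ : ℂ) ≠ 0 := by simpa using hf
        push_cast
        rw [eq_div_iff (by positivity)]
        exact (by assumption : _ = κ * _).symm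
      exact e ▸ h1
    · push Not at k
      exact ⟨0, le_rfl, fun f f' => by simp [h1, k]⟩
  have h3 : ∃ C, ∀ f, ‖h.lc.toLinearMap f‖ ≤ C * ‖F.toLinearMap f‖ := by
    refine ⟨Real.sqrt c0, fun f => (pow_le_pow_iff_left₀ (norm_nonneg _) (by positivity)
      two_ne_zero).1 (le_of_eq ?_)⟩
    have := h2 f f
    rw [inner_self_eq_norm_sq_to_K, inner_self_eq_norm_sq_to_K] at this
    rw [mul_pow, Real.sq_sqrt h0]
    refine ofReal_injective ?_
    push_cast
    exact this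
  have h4 := LinearMap.extendOfNorm_eq (f := h.lc.toLinearMap) (e := F.toLinearMap) hd h3
  refine ⟨h.lc.toLinearMap.extendOfNorm F.toLinearMap, c0, F, h0, hd, hF, h4, fun u v => ?_⟩
  refine hd.induction_on₂ (isClosed_eq (by fun_prop) (by fun_prop)) (fun f f' => ?_) u v
  exact (congrArg₂ (inner ℂ) (h4 f) (h4 f')).trans (h2 f f')

lemma Cj.cov_iota (hφ : Cj c φ) {ι : LF →L[ℂ] Completion D} {F : Sch →L[ℂ] LF} (hd : DenseRange F)
    (hF : ∀ f, F f =ᵐ[volume.restrict Fc] fa (ev f)) (hl : ∀ f, ι (F f) = φ (ev f))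
    {s κ : ℝ} {L : Ix → V} (hs : 0 < s) (hL : IsLor L) (hκ : sim 1 L 0 va = κ • va) (a : V)
    (u v : LF) (h : v =ᵐ[volume.restrict Fc] fun q =>
      (s ^ 2 : ℝ) * cexp (I * mdot q a) * u (sim s (linv L) 0 q)) : Ug c.Q s L a (ι u) = ι v := by
  have hk := scF_sim hs (isLor_linv hL)
  have hm : Bd fun q : V => ((s ^ 2 : ℝ) : ℂ) * cexp (I * mdot q a) :=
    (Bd.expI (by fun_prop)).smul _
  have hT : ∀ u : LF, mulL hm (cmpL hk u) =ᵐ[volume.restrict Fc] fun q =>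
      (s ^ 2 : ℝ) * cexp (I * mdot q a) * u (sim s (linv L) 0 q) := fun u => by
    filter_upwards [mulL_coe hm (cmpL hk u), cmpL_coe hk u] with q h1 h2
    rw [h1, h2, smul_eq_mul]
  rw [Lp.ext (h.trans (hT u).symm)]
  refine hd.induction_on (p := fun u => Ug c.Q s L a (ι u) = ι (mulL hm (cmpL hk u))) u
    (isClosed_eq (by fun_prop) (by fun_prop)) fun f => ?_
  obtain ⟨f', hf⟩ := test_sim' (inv_pos.2 hs) (isLor_linv hL) (-sim s⁻¹ (linv L) 0 a) f
  have e : ev f = fun x => ev f' (sim s L a x) := by simp only [hf, sim_inv hs hL]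
  have h1 : mulL hm (cmpL hk (F f)) = ((s⁻¹ * κ : ℝ) : ℂ) • F f' := by
    refine Lp.ext ?_
    filter_upwards [hT (F f), hk.ae_eq (hF f), hF f', Lp.coeFn_smul ((s⁻¹ * κ : ℝ) : ℂ) (F f')]
      with q h1 h2 h3 h4
    rw [h1, h2, h4, Pi.smul_apply, h3, e, fa_sim hs hL hκ, smul_eq_mul]
  rw [h1, map_smul, hl, hl, e, hφ.cov s L a κ _ hs hL hκ ⟨f', rfl⟩]

/-- the potential in momentum space, without the trace -/
structure Ell0 (c : Ctx D) (φ : Fn → Completion D) (ell : (V → ℂ) → Completion D) (c0 : ℝ) :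
    Prop where
  nonneg : 0 ≤ c0
  lin : ∀ ψ ψ' (a : ℂ), MemLp ψ 2 (volume.restrict Fc) → MemLp ψ' 2 (volume.restrict Fc) →
    ell (fun p => ψ p + a * ψ' p) = ell ψ + a • ell ψ'
  inn : ∀ ψ ψ', MemLp ψ 2 (volume.restrict Fc) → MemLp ψ' 2 (volume.restrict Fc) →
    inner ℂ (ell ψ) (ell ψ') = c0 * ∫ p in Fc, conj (ψ p) * ψ' p
  pot : ∀ f, IsTest f → ell (fa f) = φ f
  phi : ∀ g ψ, SN.Bd g → MemLp ψ 2 (volume.restrict Fc) →
    c.bt.Phi g (ell ψ) = ell fun p => g p * ψ p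
  cov : ∀ s L a (κ : ℝ) ψ ψ', 0 < s → IsLor L → sim 1 L 0 va = κ • va →
    MemLp ψ 2 (volume.restrict Fc) →
    (∀ p, ψ' (sim 1 L 0 p) =
      (s ^ 2 : ℝ) * Complex.exp (I * mdot (sim 1 L 0 p) a) * ψ (s • p)) →
    Ug c.Q s L a (ell ψ) = ell ψ'
  s0 : ∀ (t : ℝ) (g g' : 𝓢(P3, ℂ)) (φ : ℝ → ℝ → ℂ), Measurable (Function.uncurry φ) →
    (∀ y : P3, g' y = g (y.1 - t * d2 y.2 y.2, y.2)) →
    MemLp (fun p => ft3 g (pm p) * φ (be p) (mu p)) 2 (volume.restrict Fc) →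
    MemLp (fun p => ft3 g' (pm p) * φ (be p) (mu p)) 2 (volume.restrict Fc) ∧
    c.S0 t (ell fun p => ft3 g (pm p) * φ (be p) (mu p)) =
      ell fun p => ft3 g' (pm p) * φ (be p) (mu p)

theorem Cj.ell (hφ : Cj c φ) : ∃ ell c0, Ell0 c φ ell c0 := by
  classical
  obtain ⟨ι, c0, F, h0, hd, hF, hl, hi⟩ := hφ.iota
  set ell : (V → ℂ) → Completion D := fun ψ =>
    if h : MemLp ψ 2 (volume.restrict Fc) then ι (h.toLp ψ) else 0
  have e1 : ∀ {ψ} (h : MemLp ψ 2 (volume.restrict Fc)), ell ψ = ι (h.toLp ψ) := fun h => dif_pos h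
  have e2 : ∀ (u : LF) {ψ}, u =ᵐ[volume.restrict Fc] ψ → ell ψ = ι u := fun u ψ h => by
    have m := (Lp.memLp u).ae_eq h
    rw [e1 m, Lp.ext (m.coeFn_toLp.trans h.symm)]
  have lin : ∀ ψ ψ' (a : ℂ), MemLp ψ 2 (volume.restrict Fc) → MemLp ψ' 2 (volume.restrict Fc) →
      ell (fun p => ψ p + a * ψ' p) = ell ψ + a • ell ψ' := fun ψ ψ' a h h' => by
    rw [e1 h, e1 h', ← map_smul, ← map_add, ← MemLp.toLp_const_smul, ← MemLp.toLp_add]
    exact e1 _
  have inn : ∀ ψ ψ', MemLp ψ 2 (volume.restrict Fc) → MemLp ψ' 2 (volume.restrict Fc) →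
      inner ℂ (ell ψ) (ell ψ') = c0 * ∫ p in Fc, conj (ψ p) * ψ' p := fun ψ ψ' h h' => by
    rw [e1 h, e1 h', hi, L2.inner_def]
    congr 1
    refine integral_congr_ae ?_
    filter_upwards [h.coeFn_toLp, h'.coeFn_toLp] with p h1 h2
    rw [h1, h2, RCLike.inner_apply, mul_comm]
  have pot : ∀ f, IsTest f → ell (fa f) = φ f := by
    rintro _ ⟨f, rfl⟩
    rw [e2 _ (hF f), hl]
  have cov : ∀ s L a (κ : ℝ) ψ ψ', 0 < s → IsLor L → sim 1 L 0 va = κ • va →
      MemLp ψ 2 (volume.restrict Fc) →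
      (∀ p, ψ' (sim 1 L 0 p) = (s ^ 2 : ℝ) * cexp (I * mdot (sim 1 L 0 p) a) * ψ (s • p)) →
      Ug c.Q s L a (ell ψ) = ell ψ' := fun s L a κ ψ ψ' hs hL hκ h h' => by
    have hk := scF_sim hs (isLor_linv hL)
    have e : ψ' = fun q => (s ^ 2 : ℝ) * cexp (I * mdot q a) * ψ (sim s (linv L) 0 q) := by
      funext q
      rw [sim_smul (s := s), ← sim_linv hL q, h', linv_sim _ hL]
    have m : MemLp ψ' 2 (volume.restrict Fc) :=
      e ▸ ((Bd.expI (r := fun q => mdot q a) (by fun_prop)).smul _).memLp_smul (hk.memLp.2 h)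
    rw [e1 h, e1 m]
    refine hφ.cov_iota hd hF hl hs hL hκ a _ _ ?_
    filter_upwards [m.coeFn_toLp, hk.ae_eq h.coeFn_toLp] with q h1 h2
    rw [h1, h2, e]
  have tra : ∀ a ψ, MemLp ψ 2 (volume.restrict Fc) →
      Ut c.Q a (ell ψ) = ell fun p => cexp (I * mdot p a) * ψ p := fun a ψ h =>
    cov 1 _ a 1 ψ _ one_pos isLor_one one_va h fun p => by simp [P352.HM.sim_tr]
  refine ⟨ell, c0, h0, lin, inn, pot, fun f ψ hf h => ?_, cov, ?_⟩
  · rw [e1 h, ← c.bt.iota isPair_mdot measurable_id ι (fun y => ?_) hf]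
    · exact (congrArg ι (mulOp_toLp hf h)).trans (e1 _).symm
    · rw [← e1 h, tra y ψ h]
      exact (congrArg ι (mulOp_toLp (isPair_mdot.bd y) h)).trans (e1 _).symm
  · refine s0_of c.a3 Br.isPair_pr3 inn (fun y ψ h => ?_) ft3_int
    obtain ⟨l1, l2⟩ := Grp.lga y.2
    have h1 := cov 1 _ 0 1 ψ (fun p => ψ (gap (-y.2) p)) one_pos l1 (by rw [l2, gap_va]) h
      fun p => by
        rw [l2]
        simp [gap_gap]
    rw [show Ga c.Q y.2 (ell ψ) = _ from h1, tra _ _ ((scF_gap _).memLp.2 h)]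
    simp only [md_smul, md_va', mul_comm y.1]

lemma fa_dv {f : Fn} (hf : IsTest f) : ft (dv va f) = fa f := funext fun p => by
  rw [ft_dv hf, md_va', fa]

lemma cj_l (h : CUR c) : Cj c c.l where
  lin f g a hf hg := by
    simp only [Ctx.l, h.lin va f g a hf hg, smul_add]
    rw [smul_comm]
  cont := (h.cont va).const_smul (-(1 / 9) : ℂ)
  cov s L a κ f hs hL hκ hf := by
    have e := h.hlin (κ - 1) va va f hf
    rw [show va + (κ - 1) • va = κ • va by module] at e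
    simp only [Ctx.l, map_smul, h.cov s L a va f hs hL hf, hκ, e, ← Complex.coe_smul]
    push_cast
    module
  perp f hf := by rw [Ctx.l, inner_smul_right, h.perp va f hf, mul_zero]

end Elz

open Elz Vale.Agent.P352.GF MeasureTheory in
/-- **row ELL** -/
theorem ell_thm {D : Type*} [NormedAddCommGroup D] [InnerProductSpace ℂ D] (c : Ctx D)
    (h : CUR c) : ELL c := by
  obtain ⟨ell, c0, e⟩ := (cj_l h).ell
  refine ⟨ell, c0, e.nonneg, e.lin, e.inn, fun f hf => fa_dv hf ▸ e.pot f hf, ?_, e.phi, e.cov,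
    e.s0⟩
  rintro _ ⟨f, rfl⟩
  have t : IsTest (P352.H246.box (ev f)) := ⟨_, (El.box_ev f).symm⟩
  have h2 := e.lin (fun _ => 0) _ (-1) MemLp.zero' (mem_fa t)
  have h0 := e.lin (fun _ => 0) (fun _ => 0) 1 MemLp.zero' MemLp.zero'
  simp only [mul_zero, add_zero, one_smul, left_eq_add] at h0
  rw [e.pot _ t, h0] at h2
  rw [← h.trace _ ⟨f, rfl⟩, fa_dv ⟨f, rfl⟩, show (fun p => ((mu p : ℝ) : ℂ) * fa (ev f) p) =
    fun p => 0 + -1 * fa (P352.H246.box (ev f)) p from funext fun p => by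
      rw [fa, fa, El.ft_box]
      ring, h2, zero_add, smul_smul]
  norm_num

theorem ell_row {D : Type*} [NormedAddCommGroup D] [InnerProductSpace ℂ D] (c : Ctx D)
    (h : c.can → CUR c) : c.can → ELL c := fun k => ell_thm c (h k)

end Vale.Agent.P352X.ZZ

end
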