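import Vale.Agent.P352X.R.F2
import Vale.Agent.P352Z.R.F2.B
import Vale.Agent.P352Z.TPD.PL

/-!
# P352Z, row F2: the Ward identity for bounded operators
-/

namespace Vale.Agent.P352X.ZZ.Fp
export Vale.Agent.P352X.Fp (coe_sum Std.chg Sy Sy.sub al_comm al_cpt ex_std fld_sub gn_sym isSim norm_cdc smooth_sim test_dens
  wdg_opp)
end Vale.Agent.P352X.ZZ.Fp
namespace Vale.Agent.P352X.ZZ.Grp
export Vale.Agent.P352X.Grp (affa coe ug_inner ut0 vac)
end Vale.Agent.P352X.ZZ.Grp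
namespace Vale.Agent.P352X.ZZ.Pr
export Vale.Agent.P352X.Pr (sub symm unique)
end Vale.Agent.P352X.ZZ.Pr

set_option linter.all false

noncomputable section

open Filter Topology Set
open scoped ContDiff

namespace Vale.Agent.P352X.ZZ

open Vale.Agent.P352 Vale.Agent.P352.GF Vale.Agent.P352.BW Vale.Agent.P352.H496
open Vale.Agent.P352.H755 Vale.Agent.P352.H15
open Vale.Agent.P352.H246 (In Al)
open UniformSpace (Completion)
open Complex (I)
open Ap Fp

variable {D : Type*} [NormedAddCommGroup D] [InnerProductSpace ℂ D]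

/-- the generator on the vectors of the domain -/
lemma Fp.gn_A {c : Ctx D} (g : GRP c) {L : ℝ → Ix → V} {x : ℝ → V} {ξ : V → V} (h0 : L 0 = GF.one)
    (x0 : x 0 = 0) (hL : ∀ e, IsLor (L e))
    (h : ∀ n z, HasDerivAt (fun e => sim 1 (L e) (x e) z n) (ξ z n) 0) (v : D) :
    Gn (fun e => Ug c.Q 1 (L e) (x e)) v (c.A ξ v : D) := by
  simp only [Gn, fun e => g.coe 1 (L e) (x e) v one_pos (hL e), ← Completion.coe_smul]
  exact ((Completion.toComplL (𝕜 := ℂ)).restrictScalars ℝ).hasFDerivAt.comp_hasDerivAt 0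
    (c.hN.der _ L x ξ v rfl h0 x0 (fun e => ⟨one_pos, hL e⟩) h)

/-- the defect of the Ward identity is a difference of two charges of the vacuum -/
lemma Fp.key {c : Ctx D} [Fact c.chg] (t : T1 c) {y r a b y1 χ Ξ} {L : ℝ → Ix → V} {x : ℝ → V}
    {ξ : V → V} {X k} (hr : 0 < r) (ha : IsNull a) (hb : IsNull b) (hab : 0 < GF.mdot a b)
    (hX : X ∈ c.N (dc y r)) (hC : Chg (closure (dc y r)) χ Ξ) (hW : dc y r ⊆ Wdg a b y1)
    (hχ : tsupport χ ⊆ Wdg a b y1) (h0 : L 0 = GF.one) (x0 : x 0 = 0) (hL : ∀ e, IsLor (L e))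
    (hd : ∀ n z, HasDerivAt (fun e => sim 1 (L e) (x e) z n) (ξ z n) 0)
    (hk : Gn (fun e => Ug c.Q 1 (L e) (x e)) (X c.Om) k) {Y Y' K} (hY : Al c.Q (Wdg b a y1) Y Y')
    (hK : IsCompact K) (kW : K ⊆ Wdg b a y1) (hYK : Al c.Q K Y Y') (χ' Ξ') (c1 : Chg K χ' Ξ')
    (c2 : Chg (closure (dc y r)) χ' Ξ') :
    inner ℂ ((Y' c.Q.vac : D) : Completion D) (k + X (c.Tv (dens χ Ξ ξ))) -
        inner ℂ (star X (c.Tv (dens χ Ξ ξ))) ((Y c.Q.vac : D) : Completion D) =
      inner ℂ (star X ((Y' c.Q.vac : D) : Completion D)) (c.Tv (dens χ' Ξ' ξ)) -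
        inner ℂ (c.Tv (dens χ' Ξ' ξ)) (X (Y c.Q.vac : D)) := by
  have g := t.grp
  have hξ := isSim h0 hL hd
  have hA := gn_A g h0 x0 hL hd
  have u0 : Ug c.Q 1 (L 0) (x 0) = 1 := by rw [h0, x0]; exact g.ut0
  have sy := @gn_sym _ _ _ _ (fun e => Ug c.Q 1 (L e) (x e)) (fun e => g.ug_inner _ _ _) u0
  have sA : Sy (c.A ξ) := fun v w => by
    simpa only [Completion.inner_coe] using (sy (hA v) (hA w)).symm
  have A0 : c.A ξ c.Q.vac = 0 := by
    have h := hA c.Q.vac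
    simp only [Gn, show ∀ e, Ug c.Q 1 (L e) (x e) (c.Q.vac : D) = c.Om from fun e => g.vac _ _ _]
      at h
    have := (smul_eq_zero_iff_right Complex.I_ne_zero).1 (h.unique (hasDerivAt_const _ _))
    rwa [← norm_eq_zero, Completion.norm_coe, norm_eq_zero] at this
  have tG := test_dens hC.1 hC.2.1 hξ
  have aY := (g.affa _ _ _ hY).2 X (t.jc.loc hb ha (by rwa [md_comm]) Subset.rfl hW X hX)
  obtain ⟨G, i, e, hG⟩ := Tf_cmp (c := c) (norm_cdc y r) hC c2 hξ
  refine (fun p => ?_) (al_comm ((Tf_sy (c := c) (fun m n => (i m n).1) e).sub sA)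
    (fun B f v hB hf => ?_) hYK.star c.Q.vac)
  · simp only [A0, sub_zero] at p
    rw [inner_add_right, sy (hA _) hk, show c.A ξ (Y' c.Q.vac) = _ from
      (sub_sub_cancel _ _).symm.trans (congrArg _ p), Completion.coe_sub, inner_sub_left,
      show c.Om = (c.Q.vac : D) from rfl, far_comm t.jc hr hX i e, aY _ (c.Tf G _), star_inner,
      star_inner, Ctx.Tv, Ctx.Tv, hG, Completion.coe_add, map_add, inner_add_left, inner_add_right]
    ring
  · have q := ext_inner_left ℂ fun w => t.ch K χ' Ξ' ξ B f v w hK c1 hξ hB hf.1 hf.2.2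
    rw [hG, hG, Tf_loc tG hB hf.1 fun m n z hz z' hz' => wdg_opp ha hb
      (hχ ((in_dens hC.1 Subset.rfl hC.2.1 (smooth_sim hξ) m n).2.2 hz)) (kW (hf.2.2 hz'))] at q
    have s := fld_sub hB hf.1 (c.Tf (dens χ Ξ ξ) v + c.Tf G v) (c.Tf (dens χ Ξ ξ) v)
    rw [add_sub_cancel_left] at s
    rw [fld_sub hB hf.1]
    linear_combination (norm := abel) q - s

lemma Fp.pl_Sv (c : Ctx D) (F : Ix → Ix → Fn) : PL c.k fun l => c.Sv l F := by
  refine (PL.of_ex0 fun j => ((∑ m, ∑ n, c.Sj j m n (F m n) c.Q.vac : D) : Completion D)).congr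
    fun l => ?_
  simp only [Ctx.Sv, Ctx.Sf, Ctx.Sl, fam2, ex0, ← Completion.coe_toComplL (𝕜 := ℂ), map_sum,
    map_smul, Finset.smul_sum]
  exact Finset.sum_comm.trans (Finset.sum_congr rfl fun m _ => by rw [Finset.sum_comm])

theorem f2l_row (c : Ctx D) [Fact c.can] (t : T1 c) (ts : ∀ l, T1 (c.toS l)) : F2L c := by
  intro l y r a b y1 χ Ξ L x ξ X k hr ha hb hab hX hC hW hχ h0 x0 hL hd hk
  have g := t.grp
  have hξ := isSim h0 hL hd
  refine t.jc.core a b y1 _ _ ha hb hab fun Y Y' hY => ?_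
  obtain ⟨K, hK, kW, hYK⟩ := al_cpt hY
  obtain ⟨ρ, hρ⟩ := hK.isBounded.exists_norm_le
  obtain ⟨χ0, Ξ0, hs⟩ := ex_std
  have l1 := std_null g t.bas hs hξ (star X ((Y' c.Q.vac : D) : Completion D))
  have l2 := ((Complex.continuous_conj.tendsto 0).comp l1).sub
    (std_null g t.bas hs hξ (X (Y c.Q.vac : D)))
  simp only [map_zero, sub_zero, Function.comp_def, inner_conj_symm] at l2
  have pl : PL c.k fun l => inner ℂ ((Y' c.Q.vac : D) : Completion D)
      (k + X (c.Sv l (dens χ Ξ ξ))) -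
      inner ℂ (star X (c.Sv l (dens χ Ξ ξ))) ((Y c.Q.vac : D) : Completion D) := by
    have p := pl_Sv c (dens χ Ξ ξ)
    have p1 := ((PL.const k).add (p.map (X.restrictScalars ℝ).toLinearMap)).map
      ((innerSL ℂ ((Y' c.Q.vac : D) : Completion D)).restrictScalars ℝ).toLinearMap
    have p2 := ((p.map ((star X).restrictScalars ℝ).toLinearMap).map
      ((innerSL ℂ ((Y c.Q.vac : D) : Completion D)).restrictScalars ℝ).toLinearMap).map
        Complex.conjCLE.toLinearMap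
    refine (p1.sub p2).congr fun l => ?_
    simp [inner_add_right]
  refine sub_eq_zero.1 (PL.kill (P := fun q => Tendsto q atBot (𝓝 0)) (fun q s h => ?_)
    (fun a h => tendsto_nhds_unique tendsto_const_nhds h) pl (l2.congr' ?_) l)
  · simpa using (h.comp (tendsto_atBot_add_const_right _ s tendsto_id)).sub h
  filter_upwards [(Real.tendsto_exp_atTop.comp tendsto_neg_atBot_atTop).eventually_ge_atTop
    (max ρ (‖y‖ + 3 * |r|))] with n hn
  have p := Real.exp_pos (-n)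
  exact (key (ts n) hr ha hb hab hX hC hW hχ h0 x0 hL hd hk hY hK kW hYK _ _
    (hs.chg hρ p ((le_max_left _ _).trans hn))
    (hs.chg (norm_cdc y r) p ((le_max_right _ _).trans hn))).symm

end Vale.Agent.P352X.ZZ
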