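import Vale.Agent.P352X.R.GOOD
import Vale.Agent.P352Z.R.GEN

/-!
# P352Z: the row GOOD
-/

namespace Vale.Agent.P352X.ZZ.Gd
export Vale.Agent.P352X.Gd (Q3 Rp Rp.ad Rp.conv Rp.ct Rp.der Rp.good Rp.mul Rp.one Rp.st Rp.star_eq Rp.uni Sm Sm.mem
  Sm.star St.L St.app St.comp St.ct St.ex St.le St.mul approx bump ct_fs ct_iv fam fs fs_apply
  iv iv_iv iv_zero mem_dc ml ml_iv near open_dc sg sg_iv sg_zero sint sm_iv sm_ml sm_of sm_sg
  trunc)
end Vale.Agent.P352X.ZZ.Gd
namespace Vale.Agent.P352X.ZZ.Gen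
export Vale.Agent.P352X.Gen (sq1)
end Vale.Agent.P352X.ZZ.Gen

set_option linter.all false

noncomputable section

open Filter Topology Metric Set MeasureTheory
open scoped SchwartzMap ContDiff

namespace Vale.Agent.P352X.ZZ

open Vale.Agent.P352 Vale.Agent.P352.GF Vale.Agent.P352.BW Vale.Agent.P352.H246
open Vale.Agent.P352.H496 Vale.Agent.P352.H755 Vale.Agent.P352.H15
open UniformSpace (Completion)

namespace Gd

variable {D : Type*} [NormedAddCommGroup D] [InnerProductSpace ℂ D] {c : Ctx D}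

/-- `U` implements the Poincare transformation `τ` -/
def I1 (c : Ctx D) (U : Completion D →L[ℂ] Completion D) (τ : V → V) : Prop :=
  ∃ L a, IsLor L ∧ U = Ug c.Q 1 L a ∧ ∀ z, sim 1 L a z = τ z

theorem I1.mul (g : GRP c) {U U' τ τ'} (h : I1 c U τ) (h' : I1 c U' τ') :
    I1 c (U * U') fun x => τ (τ' x) := by
  obtain ⟨L, a, hL, rfl, e⟩ := h
  obtain ⟨L', a', hL', rfl, e'⟩ := h'
  refine ⟨_, _, ue_lor hL hL', by rw [g.mul _ _ _ _ _ _ one_pos one_pos hL hL', one_mul], fun z => ?_⟩
  beta_reduce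
  rw [← e', ← e, ← Grp.sim_mul, one_mul]

/-- the Lorentz matrix of a group element -/
def Lq (p : Q3) : Ix → V := fun m => sg p (GF.one m) - sg p 0

theorem ct_Lq (k m : Ix) : Continuous fun p => Lq p k m :=
  (continuous_apply m).comp ((sm_sg.continuous.comp (continuous_id.prodMk continuous_const)).sub
    (sm_sg.continuous.comp (continuous_id.prodMk continuous_const)))

theorem Lq_zero : Lq 0 = GF.one := funext fun m => by rw [Lq, sg_zero, sg_zero, sub_zero]

theorem i1 (g : GRP c) (p : Q3) : IsLor (Lq p) ∧ c.gq p = Ug c.Q 1 (Lq p) (sg p 0) ∧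
    sim 1 (Lq p) (sg p 0) = sg p := by
  have a := g.lsc _ _ (Real.exp_pos p.1) (Real.exp_pos (-p.1))
  rw [Gen.sq1] at a
  have b : I1 c (c.gq p) (sg p) := by
    have b := I1.mul g (I1.mul g ⟨_, _, a.1, rfl, a.2⟩ ⟨_, p.2.1 • vb, H496.isLor_one, rfl,
      fun z => (sim_one _ z).trans (add_comm _ z)⟩) ⟨_, _, (g.lgb p.2.2).1, rfl, (g.lgb p.2.2).2⟩
    convert b using 1
    · rw [Ctx.gq, Bo, Usc, Gen.sq1]
      rfl
    · exact funext fun z => null_ext (by simp [sg]) (by simp [sg]) (by simp [sg, Gen.sq1])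
  obtain ⟨L, a, hL, e, k⟩ := b
  obtain rfl : a = sg p 0 := by rw [← k, Grp.sim_zero]
  obtain rfl : L = Lq p := funext fun m => by
    rw [Lq, ← k (GF.one m), Grp.sim_eq, Gen.sim_bas, one_smul, add_sub_cancel_left]
  exact ⟨hL, e, funext k⟩

/-- `U` implements the point map `τ` -/
structure Cv (c : Ctx D) (U : Completion D →L[ℂ] Completion D) (τ : V → V) : Prop where
  uni : U ∈ unitary (Completion D →L[ℂ] Completion D)
  vac : U c.Om = c.Om
  alg : ∀ O, ∀ X ∈ c.N O, U * X * star U ∈ c.N (τ '' O)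

theorem cv (g : GRP c) (p : Q3) : Cv c (c.gq p) (sg p) := by
  obtain ⟨h, e, k⟩ := i1 g p
  have := fun O X hX => (g.alg 1 _ (sg p 0) O one_pos h X).1 hX
  rw [k] at this
  rw [e]
  exact ⟨g.uni _ _ _, g.vac _ _ _, this⟩

theorem rp (g : GRP c) : Rp c.gq := by
  refine ⟨Gen.gq_mul g, ?_, fun q => (cv g q).uni, fun z => ?_⟩
  · simp [Ctx.gq, Bo, Pb, g.sc1, g.ut0, g.gb0]
  · exact (continuous_prod_of_dense_continuous_lipschitzWith
      (fun y : Completion D × Q3 => c.gq y.2 y.1) 1 Completion.denseRange_coe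
      (by rintro _ ⟨v, rfl⟩; exact (Gen.sm g v).continuous) fun q =>
        LipschitzWith.of_dist_le_mul fun x y => by
          simp [dist_eq_norm, ← map_sub, ContinuousLinearMap.norm_map_of_mem_unitary (cv g q).uni]).comp
      (continuous_const.prodMk continuous_id)

theorem good (g : GRP c) {X} (h : ContDiff ℝ ∞ fun q => c.gq q * X * star (c.gq q)) :
    c.Good X := by
  have r := rp g
  unfold Ctx.Good
  convert h using 2 with q
  have e : c.gq (0, 0, -q.2.2) * c.gq (0, -q.2.1, 0) * c.gq (-q.1, 0, 0) = c.gq (iv q) := by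
    rw [r.mul, r.mul]
    simp [ml, iv]
    rfl
  rw [r.star_eq, ← e]
  simp [Ctx.gq, Bo, Pb, g.sc1, g.ut0, g.gb0, mul_assoc]

/-- the action on `D` -/
def ud (c : Ctx D) (p : Q3) : D → D := c.Q.U 1 (Lq p) (sg p 0)

theorem ud_coe (g : GRP c) (p : Q3) (v : D) : c.gq p v = ud c p v := by
  rw [(i1 g p).2.1, g.coe _ _ _ _ one_pos (i1 g p).1, ud]

/-- the field as a continuous linear map -/
def tf (c : Ctx D) (v : D) (k l : Ix) : Sch →L[ℂ] Completion D := (Gen.tl c v k l).comp ofSch

theorem tf_apply (v : D) (k l : Ix) (f : Sch) : tf c v k l f = (c.T k l (ev f) v : D) := rfl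

theorem tf_sum (v : D) (F : Ix → Ix → Sch) :
    ((c.Tf (fun i j => ev (F i j)) v : D) : Completion D) = ∑ k, ∑ l, tf c v k l (F k l) := by
  rw [Ctx.Tf, ← Completion.coe_toComplL (𝕜 := ℂ)]
  simp only [map_sum]
  rfl

/-- the orbit of a tensor test function -/
def fs2 (F : Ix → Ix → Sch) (k l : Ix) (p : Q3) : Sch :=
  ∑ m, ∑ n, ((Lq p k m : ℂ) * Lq p l n) • fs (F m n) p

theorem fs2_apply {F : Ix → Ix → Sch} (cf : ∀ i j, HasCompactSupport (F i j)) (k l p z) :
    fs2 F k l p z = ∑ m, ∑ n, ((Lq p k m : ℂ) * Lq p l n) * F m n (sg p z) := by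
  simp [fs2, SchwartzMap.sum_apply, fs_apply (cf _ _)]

theorem ct_fs2 {F : Ix → Ix → Sch} (cf : ∀ i j, HasCompactSupport (F i j)) (k l : Ix) :
    Continuous (fs2 F k l) :=
  continuous_finset_sum _ fun m _ => continuous_finset_sum _ fun n _ =>
    ((Complex.continuous_ofReal.comp (ct_Lq k m)).mul
      (Complex.continuous_ofReal.comp (ct_Lq l n))).smul (ct_fs (cf m n))

theorem sint2 {Φ : Q3 → Sch} (hΦ : Continuous Φ) {h : Q3 → ℝ} (sh : Continuous h)
    (ch : HasCompactSupport h) : ST.SInt (fun p => h p • Φ p) volume :=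
  have k := sh.fun_smul hΦ
  .of_continuous k fun a b => ⟨_, (((schwartz_withSeminorms ℝ V ℂ).continuous_seminorm
    (a, b)).comp k).integrable_of_hasCompactSupport
      (ch.smul_right.comp_left (g := SchwartzMap.seminorm ℝ a b) (map_zero _)), fun _ => le_rfl⟩

theorem orb (g : GRP c) {F : Ix → Ix → Sch} (cf : ∀ i j, HasCompactSupport (F i j)) (v : D)
    (p : Q3) : ((c.Tf (fun i j => ev (F i j)) (ud c p v) : D) : Completion D) =
      c.gq p (∑ k, ∑ l, tf c v k l (fs2 F k l p)) := by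
  obtain ⟨h, e, k⟩ := i1 g p
  have b : ∀ m n, (fun x => ev (F m n) (sim 1 (Lq p) (sg p 0) x)) = ev (fs (F m n) p) :=
    fun m n => funext fun x => by rw [k]; exact (fs_apply (cf m n) p x).symm
  rw [Ctx.Tf, ← Completion.coe_toComplL (𝕜 := ℂ), ud]
  simp only [fun m n => c.hT.cov m n _ (sg p 0) _ v h ⟨F m n, rfl⟩, b, fs2, map_sum, map_smul,
    tf_apply, ud_coe g, ud, Completion.coe_toComplL]
  exact Grp.sum4 _

section half

variable (g : GRP c) {F : Ix → Ix → Sch} (cf : ∀ i j, HasCompactSupport (F i j))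
  {Z A X : ℕ → Completion D →L[ℂ] Completion D}
  (hZ : (∀ n (v : D), Z n v = A n (c.Tf (fun i j => ev (F i j)) v : D)) ∧ (∀ n, ‖A n‖ ≤ 1) ∧
    ∀ x, Tendsto (fun n => A n x) atTop (𝓝 x))
include g cf hZ

theorem sm_orb (v : D) :
    ContDiff ℝ ∞ fun p => ((c.Tf (fun i j => ev (F i j)) (ud c p v) : D) : Completion D) := by
  let π : Fin 3 → Q3 →L[ℝ] ℝ := ![.fst ℝ _ _, (ContinuousLinearMap.fst ℝ ℝ ℝ).comp (.snd ℝ _ _),
    (ContinuousLinearMap.snd ℝ ℝ ℝ).comp (.snd ℝ _ _)]
  refine sm_of (e := fun (v : D) p => c.gq p v)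
    (W := fun v p => (c.Tf (fun i j => ev (F i j)) (ud c p v) : D))
    (c := fun j r => (π j).comp (fderiv ℝ (ml (iv r)) r)) (Z := fun n => (Z n).restrictScalars ℝ)
    (A := fun n => (A n).restrictScalars ℝ) (fun j => contDiff_const.clm_comp
      (ContDiff.fderiv (m := ∞) (sm_ml (sm_iv contDiff_fst) contDiff_snd) contDiff_id le_rfl))
    (fun v => ?_) (fun v => ?_) (fun n v r => ?_) hZ.2.1 hZ.2.2 v
  · simp only [orb g cf]
    exact (rp g).st.app (continuous_finset_sum _ fun k _ => continuous_finset_sum _ fun l _ =>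
      (tf c v k l).continuous.comp (ct_fs2 cf k l))
  · obtain ⟨w, B, d, e⟩ := Gen.gq_der g v
    refine ⟨w, fun r => ((rp g).der d r).congr_fderiv (ContinuousLinearMap.ext fun y => ?_)⟩
    simp [e, π, Fin.sum_univ_three]
  · rw [ud_coe g]
    exact hZ.1 n _

theorem half {h : Q3 → ℝ} (sh : ContDiff ℝ ∞ h) (ch : HasCompactSupport h) {F' : Ix → Ix → Sch}
    (e : ∀ k l z, F' k l z = ∫ p, h p • fs2 F k l (iv p) z)
    (m : ∀ n, Sm h (fun p => c.gq p * Z n * star (c.gq p)) (X n)) (v : D) (k : ℕ) :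
    TendstoLocallyUniformly (fun n => iteratedFDeriv ℝ k fun q => c.gq q (X n v))
      (iteratedFDeriv ℝ k fun q => c.gq q (c.Tf (fun i j => ev (F' i j)) v : D)) atTop := by
  have r := rp g
  have a : ∀ n, X n v =
      ∫ p, (h p : ℂ) • c.gq p (A n (c.Tf (fun i j => ev (F i j)) (ud c (iv p) v) : D)) :=
    fun n => by simp only [m n v, r.star_eq, ContinuousLinearMap.mul_apply, ud_coe g, hZ.1]
  have b : ((c.Tf (fun i j => ev (F' i j)) v : D) : Completion D) =
      ∫ p, (h p : ℂ) • c.gq p (c.Tf (fun i j => ev (F i j)) (ud c (iv p) v) : D) := by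
    have s := fun k l => (sint2 ((ct_fs2 cf k l).comp ct_iv) sh.continuous ch).clm (g := F' k l)
      (by simp [e]) (tf c v k l)
    simp only [orb g cf]
    simp only [tf_sum, fun k l => (s k l).2]
    simp only [← integral_finset_sum _ fun l _ => (s _ l).1]
    rw [← integral_finset_sum _ fun k _ => integrable_finset_sum _ fun l _ => (s k l).1]
    simp only [← ContinuousLinearMap.mul_apply, r.mul, ml_iv, r.one,
      ContinuousLinearMap.one_apply, Complex.coe_smul, ContinuousLinearMap.map_smul_of_tower,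
      Finset.smul_sum, Function.comp_apply]
  simp only [a, b]
  exact r.conv sh ch hZ.2.1 hZ.2.2 ((sm_orb g cf hZ v).comp (sm_iv contDiff_id)) k

end half

theorem smear (g : GRP c) {h : Q3 → ℝ} (sh : ContDiff ℝ ∞ h) (ch : HasCompactSupport h)
    {K O : Set V} (k : ∀ p ∈ tsupport h, ∀ z ∈ K, sg p z ∈ O) {Z} (hZ : Z ∈ c.N K) :
    ∃ X, Sm h (fun p => c.gq p * Z * star (c.gq p)) X ∧ X ∈ c.N O ∧ c.Good X :=
  have s := (rp g).ad Z
  (s.ex sh.continuous ch).imp fun X m => ⟨m, m.mem sh.continuous ch s fun p hp =>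
    c.hN.mono _ _ (image_subset_iff.2 (k p hp)) _ ((cv g p).alg K Z hZ),
    good g ((rp g).good sh ch m)⟩

end Gd

open Gd

theorem good_row {D : Type*} [NormedAddCommGroup D] [InnerProductSpace ℂ D] (c : Ctx D)
    (t : T1 c) : GOOD c := by
  have g := t.grp
  have R := rp g
  refine ⟨fun y r r0 => ?_, fun y r f m η hf η0 => ?_⟩
  · obtain ⟨ρ, ρ0, hρ⟩ := nhds_basis_closedBall.mem_iff.1 ((open_dc y r).mem_nhds (mem_dc y r0))
    refine ((g.rs _ isOpen_ball ⟨y, mem_ball_self ρ0⟩).mono ?_).of_closure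
    rintro _ ⟨Z, hZ, rfl⟩
    refine Metric.mem_closure_iff.2 fun ε ε0 => ?_
    obtain ⟨h, sh, ch, th, h0, h1⟩ := bump ((near (isCompact_closedBall y ρ) (open_dc y r) hρ).and
      ((R.ct (Z c.Om)).continuousAt.eventually (closedBall_mem_nhds _ (half_pos ε0))))
    obtain ⟨X, m, k⟩ := smear g sh ch (fun p hp => (th hp).1)
      (c.hN.mono _ _ ball_subset_closedBall _ hZ)
    refine ⟨_, ⟨X, k.1, k.2, rfl⟩, ?_⟩
    rw [dist_comm, dist_eq_norm, m]
    simp only [ContinuousLinearMap.mul_apply, R.star_eq, (cv g _).vac, Complex.coe_smul]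
    exact (approx sh.continuous ch h0 h1 (R.ct _) fun p hp => by
      simpa [R.one, dist_eq_norm] using (th hp).2).trans_lt (half_lt_self ε0)
  · have cf : ∀ i j, HasCompactSupport (f i j) := fun i j => (hf i j).2.1
    set K : Set V := ⋃ i, ⋃ j, tsupport (f i j)
    have cK : IsCompact K := isCompact_iUnion fun i => isCompact_iUnion fun j => cf i j
    have sK : ∀ i j, tsupport (f i j) ⊆ K := fun i j =>
      (subset_iUnion (fun j => tsupport (f i j)) j).trans
        (subset_iUnion (fun i => ⋃ j, tsupport (f i j)) i)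
    have ct := fun k l => (ct_fs2 cf k l).comp ct_iv
    have a : ∀ k l, Continuous fun p => sn m (fs2 f k l (iv p) - f k l) := fun k l => by
      simp only [Api4.sn_eq]
      exact (ST.continuous_sn m).comp ((ct k l).sub continuous_const)
    have a0 : ∀ k l, fs2 f k l 0 = f k l := fun k l => SchwartzMap.ext fun z => by
      simp [fs2_apply cf, sg_zero, Lq_zero, GF.one, bas, apply_ite Complex.ofReal]
    obtain ⟨h, sh, ch, th, h0, h1⟩ := bump ((near cK (open_dc y r)
      (iUnion₂_subset fun i j => (hf i j).2.2)).and (eventually_all.2 fun k => eventually_all.2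
        fun l => (a k l).continuousAt.eventually_lt continuousAt_const (g := fun _ => η / 2) (by
        rw [iv_zero, a0, sub_self, sn, map_zero]
        exact half_pos η0)))
    have s := fun k l => sint2 (ct k l) sh.continuous ch
    have e : ∀ k l z, (s k l).int z = ∫ p, h p • fs2 f k l (iv p) z := fun k l z => by
      simp [(s k l).int_apply]
    have hK := (ch.prod cK).image sm_sg.continuous
    have z0 : ∀ k l, ∀ z ∉ (fun q : Q3 × V => sg q.1 q.2) '' tsupport h ×ˢ K,
        (s k l).int z = 0 := fun k l z hz => by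
      rw [e]
      refine integral_eq_zero_of_ae (.of_forall fun p => smul_eq_zero.2 (by_contra fun q => hz
        ⟨(p, sg (iv p) z), ⟨subset_closure (not_or.1 q).1, by_contra fun u => (not_or.1 q).2 ?_⟩,
          ?_⟩))
      · simp [fs2_apply cf, fun i j => image_eq_zero_of_notMem_tsupport fun w => u (sK i j w)]
      · simpa only [iv_iv] using sg_iv (iv p) z
    obtain ⟨Z, A, B, hZ, hA, hB⟩ := trunc (g.afft K _ fun i j => ⟨(hf i j).1, cf i j, sK i j⟩)
    choose X hX k using fun n => smear g sh ch (fun p hp => (th hp).1) (hZ n)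
    choose F hF using fun i j => isTest_bar (hf i j).1
    choose F' hF' using fun i j => isTest_bar ⟨(s i j).int, rfl⟩
    refine ⟨fun i j => (s i j).int, X, fun a b => ⟨⟨⟨_, rfl⟩, .intro hK (z0 a b),
      (closure_minimal (Function.support_subset_iff'.2 (z0 a b)) hK.isClosed).trans ?_⟩,
      (Lie.sn_le (half_pos η0).le fun i hi j hj x =>
      (SchwartzMap.le_seminorm ℝ i j _ x).trans ?_).trans_lt (half_lt_self η0)⟩, k,
      fun v j => ⟨half g cf hA sh ch e hX v j, ?_⟩⟩
    · rintro _ ⟨q, hq, rfl⟩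
      exact (th hq.1).1 _ hq.2
    · rw [← ST.norm_wd, map_sub, ((s a b).clm_real (s a b).int_apply (ST.wd i j)).2]
      simp only [map_smul]
      refine approx sh.continuous ch h0 h1 ((ST.wd i j).continuous.comp (ct a b))
        fun p hp => ?_
      rw [Function.comp_apply, ← map_sub, ST.norm_wd, ← ST.seminorm_eq (𝕜 := ℂ)]
      exact (Lie.le_sn hi hj _).trans ((th hp).2 a b).le
    · simp only [← hF] at hB
      simp only [← hF']
      have b : ∀ i j z, F i j z = star (f i j z) := fun i j => congrFun (hF i j)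
      have cF : ∀ i j, HasCompactSupport (F i j) := fun i j =>
        show IsCompact (tsupport (ev (F i j))) by rw [hF, tsupport_bar]; exact cf i j
      refine half g cF hB sh ch (fun k l z => ?_) (fun n => ?_) v j
      · rw [show F' k l z = starRingEnd ℂ ((s k l).int z) from congrFun (hF' k l) z, e,
          ← integral_conj]
        simp [b, fs2_apply cf, fs2_apply cF]
      · have s := R.ad (Z n)
        have s' := R.ad (star (Z n))
        rw [norm_star] at s'
        simpa only [star_mul, star_star, mul_assoc] using (hX n).star sh.continuous ch s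
          (by simpa only [star_mul, star_star, mul_assoc] using s')

end Vale.Agent.P352X.ZZ
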