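import Vale.Agent.P352Z.R.IB.Est

/-!
# P352Z (port of P352X): the row IB
-/

set_option linter.all false

open MeasureTheory Filter Topology Set
open scoped SchwartzMap ComplexConjugate ContDiff Real

namespace Vale.Agent.P352X.ZZ

open Vale.Agent.P352 Vale.Agent.P352.GF Vale.Agent.P352.BW Vale.Agent.P352.H246
open Vale.Agent.P352.H496 Vale.Agent.P352.H755
open UniformSpace (Completion)
open Complex (I exp)

noncomputable section

namespace Ib

open Vale.Agent.P352X.Ib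

variable {g g' ρ κ : P3 → ℝ}

lemma Dx2_ap (j : ℕ) (hg : Tst g) (y : P3) : Dx (1, 0) (Dx (1, 0) (ap j g)) y =
    j * ((j - 1 : ℕ) * y.1 ^ (j - 1 - 1) * g y + y.1 ^ (j - 1) * Dx (1, 0) g y) +
      (j * y.1 ^ (j - 1) * Dx (1, 0) g y + y.1 ^ j * Dx (1, 0) (Dx (1, 0) g) y) := by
  have e : Dx (1, 0) (ap j g) = fun y => j * ap (j - 1) g y + ap j (Dx (1, 0) g) y :=
    funext fun y => by rw [Dx_ap j hg, ap, ap, mul_assoc]
  rw [← Dx_ap (j - 1) hg, ← Dx_ap j (tst_Dx _ hg)]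
  refine Dx_eq ((tst_Dx _ (tst_ap j hg)).1.differentiable (by simp)) ?_
  rw [e]
  exact ((der_Dx ((tst_ap (j - 1) hg).1.differentiable (by simp)) y).const_mul _).add
    (der_Dx ((tst_ap j (tst_Dx _ hg)).1.differentiable (by simp)) y)

lemma Dx_zero (hρ : Tst ρ) (hκ : Tst κ) {a : ℝ} (h : ∀ y ∈ tsupport ρ, κ y = a) :
    ∀ y ∈ tsupport ρ, Dx (1, 0) κ y = 0 := fun y k =>
  closure_minimal (t := {y | Dx (1, 0) κ y = 0}) (fun z hz => by
    have e : κ =ᶠ[𝓝 z] fun _ => a := (hρ.1.continuous.isOpen_support.eventually_mem hz).mono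
      fun x hx => h x (subset_tsupport _ hx)
    simp [Dx, e.fderiv_eq]) (isClosed_eq (tst_Dx _ hκ).1.continuous continuous_const) k

lemma key_pt (hρ : Tst ρ) (hκ : Tst κ) (h : ∀ y ∈ tsupport ρ, κ y = 1) (y : P3) :
    ∑ j : Fin 5, (![1, -4, 6, -4, 1] j : ℝ) * (Dx (1, 0) (Dx (1, 0) (ap (4 - j) ρ)) y *
      Dx (1, 0) (Dx (1, 0) (ap j κ)) y) = 24 * ρ y := by
  simp only [Dx2_ap _ hρ, Dx2_ap _ hκ]
  by_cases k : y ∈ tsupport ρ
  · have h1 := Dx_zero hρ hκ h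
    have h2 := Dx_zero hρ (tst_Dx _ hκ) h1
    simp [h1 y k, h2 y k, h y k, Fin.sum_univ_five]
    ring
  · have s1 : tsupport (Dx (1, 0) ρ) ⊆ tsupport ρ := Ap.tsupport_fd ρ fun _ => (1, 0)
    have s2 : tsupport (Dx (1, 0) (Dx (1, 0) ρ)) ⊆ tsupport ρ :=
      (Ap.tsupport_fd _ fun _ => (1, 0)).trans s1
    simp [image_eq_zero_of_notMem_tsupport k, image_eq_zero_of_notMem_tsupport (mt (@s1 y) k),
      image_eq_zero_of_notMem_tsupport (mt (@s2 y) k)]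

lemma G_eq (hρ : Tst ρ) (hκ : Tst κ) (h : ∀ y ∈ tsupport ρ, κ y = 1) :
    ∑ j : Fin 5, (![1, -4, 6, -4, 1] j : ℂ) * (II (Dx (1, 0) (ap (4 - j) ρ)) (Dx (1, 0) (ap j κ)) +
      II (Dx (1, 0) (ap j κ)) (Dx (1, 0) (ap (4 - j) ρ))) =
      ((2 * π) ^ 3 * (24 * ∫ y, ρ y) : ℝ) := by
  have i : ∀ m n, Integrable fun y => Dx (1, 0) (Dx (1, 0) (ap m ρ)) y *
      Dx (1, 0) (Dx (1, 0) (ap n κ)) y := fun m n => Ap.cs_int
    (Ap.cs_mul_r (tst_Dx _ (tst_Dx _ (tst_ap m hρ))) (tst_Dx _ (tst_Dx _ (tst_ap n hκ))).1)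
  rw [← integral_const_mul, ← funext (key_pt hρ hκ h),
    integral_finset_sum _ fun j _ => (i _ _).const_mul _]
  simp only [integral_const_mul, II_add (tst_Dx _ (tst_ap _ hρ)) (tst_Dx _ (tst_ap _ hκ))]
  simp [Fin.sum_univ_five]
  ring

variable {D : Type*} [NormedAddCommGroup D] [InnerProductSpace ℂ D] {c : Ctx D}

theorem ib_thm [Fact c.can] (t : T2 c) : IB c := by
  intro ell c0 cc dd h S ρ k θ k' hρ _ hk _ hm hk' hθ h1 h0
  have hκ := tst_k3 hk hk'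
  have G := G_eq hρ hκ fun y hy => by rw [k3, (h1 y hy).1, (h1 y hy).2, mul_one]
  refine ⟨_, G ▸ Complex.ofReal_ne_zero.2 (mul_ne_zero (by positivity)
    (mul_ne_zero (by norm_num) h0)), fun η hη => ?_⟩
  have p := sd_ch (.inl rfl) hθ
  have m := sd_ch (.inr rfl) hθ
  have A := fun j => tst_ap j hρ
  have B := fun j => tst_ap j hκ
  have K := fun j : Fin 5 => prim3 hk hk' (hm j (Nat.le_of_lt_succ j.2))
  have l1 := tendsto_finset_sum Finset.univ fun (j : Fin 5) _ =>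
    ((((faceR h t S (.inr rfl) hθ p (B j) (A (4 - j)) ((K j).imp fun _ a => ⟨a.1, .inl a.2⟩)).add
      (faceL h t S (.inl rfl) hθ m (B j) (A (4 - j)) ((K j).imp fun _ a => ⟨a.1, .inl a.2⟩))).add
      (faceL h t S (.inl rfl) hθ m (A (4 - j)) (B j) ((K j).imp fun _ a => ⟨a.1, .inr a.2⟩))).add
      (faceR h t S (.inr rfl) hθ p (A (4 - j)) (B j)
        ((K j).imp fun _ a => ⟨a.1, .inr a.2⟩))).const_mul (![1, -4, 6, -4, 1] j : ℂ)
  have l2 := (((lim_int (S.int _ _ p.d0 m.d0)).comp ratio).sub_const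
    (YY cc (ch 1 θ) (ch (-1) θ))).const_mul (∑ j : Fin 5, (![1, -4, 6, -4, 1] j : ℂ) *
      (II (Dx (1, 0) (ap (4 - j) ρ)) (Dx (1, 0) (ap j (k3 k k'))) +
        II (Dx (1, 0) (ap j (k3 k k'))) (Dx (1, 0) (ap (4 - j) ρ))))
  have l3 := l1.add l2
  simp only [add_zero, mul_zero, Finset.sum_const_zero, YY, sub_self] at l3
  refine (eventually_curry_iff (p := fun q : ℝ × ℝ => ‖c.Faces _ _ _ q.1 q.2 - _‖ ≤ η)).1 (((l3.norm.eventually_le_const (by simpa using hη)).and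
    (ev_LL 0)).mono fun q a => (le_of_eq ?_).trans a.1)
  rw [Function.comp, ← two_int (S.cont _ _ p.d0 m.d0) a.2.1 a.2.2.1]
  simp only [Ctx.Faces, chp_eq, chm_eq, abv_eq, blw_eq, YY, Finset.sum_mul, mul_sub,
    ← Finset.sum_add_distrib, ← Finset.sum_sub_distrib]
  congr 1
  exact Finset.sum_congr rfl fun j _ => by ring

end Ib

theorem ib_row {D : Type*} [NormedAddCommGroup D] [InnerProductSpace ℂ D] (c : Ctx D)
    [Fact c.can] : T3 c → IB c := fun t => Ib.ib_thm t.toT2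

end

end Vale.Agent.P352X.ZZ
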