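import Vale.Agent.P352X.R.IX
import Vale.Agent.P352Z.R.IX.C

/-!
# P352Z (port of P352X), row IX: the transverse boundary of the third leg (helper89)
-/

set_option linter.all false

open MeasureTheory Filter Topology
open scoped SchwartzMap ComplexConjugate ENNReal ContDiff LineDeriv

namespace Vale.Agent.P352X.ZZ.IXH

open Vale.Agent.P352 Vale.Agent.P352.GF Vale.Agent.P352.BW Vale.Agent.P352.H246
open Vale.Agent.P352.H496 Vale.Agent.P352.H755 Vale.Agent.P352.H15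
open UniformSpace (Completion)
open Vale.Agent.P352X.IXH
open Complex (I)
open CK.Near (Nb ex_Nb)

noncomputable section

variable {D : Type*} [NormedAddCommGroup D] [InnerProductSpace ℂ D] {c : Ctx D}

/-- the terms -/
def Tm (c : Ctx D) (G : E5 → ℂ) (K : ℝ → ℝ) (j : ℕ) (g : P3 → ℝ) (ρ : ℝ → ℝ) (ε δ L : ℝ) : ℂ :=
  X c (Ps G K ε) (pr (gS j g L) (dlt δ ρ))

/-- the bound for functions with `n` vanishing moments -/
def PN (c : Ctx D) (w : ℝ → ℝ) (n : ℕ) : Prop := ∀ G K j g ρ, Cl G → Mom n K → KC j g → Tst ρ →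
  tsupport ρ ⊆ Set.Icc (-1) 1 → Ev w (Tm c G K j g ρ)

theorem pn_zero [Fact c.tp] (t : T3 c) : ∃ m : ℕ, PN c (fun ε => ε⁻¹ ^ m) 0 := by
  obtain ⟨m, h⟩ := bnd t
  refine ⟨m, fun G K j g ρ hG hK hg hρ hs => ?_⟩
  obtain ⟨r, hr⟩ := supp_Ps hG.1 hK.1
  obtain ⟨C1, hC1, h1⟩ := sn_Ps hG.1 hK.1 m
  obtain ⟨C, A, hC, -, h⟩ := h j g r hg
  have h0 : 0 ≤ ∫ t, |ρ t| := integral_nonneg fun _ => abs_nonneg _
  refine ⟨C * C1 * ∫ t, |ρ t|, by positivity, fun ε hε δ hδ => ?_⟩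
  filter_upwards [eventually_ge_atTop A] with L hL
  refine (h L _ _ (∫ t, |ρ t|) hL (dc_Ps hG.1 hK.1 hε) (hr ε hε) (Ap.tst_dlt hρ hδ.1.ne')
    ((Ap.tsupport_dlt_Icc hs hδ.1).trans (Set.Icc_subset_Icc (by linarith [hδ.2, hε.2])
      (by linarith [hδ.2, hε.2]))) ⟨fun l hl => absurd hl (Nat.not_lt_zero l), le_of_eq ?_⟩).trans
    ((mul_le_mul_of_nonneg_right (mul_le_mul_of_nonneg_left (h1 ε hε) hC) h0).trans_eq (by ring))
  simp only [Ap.abs_dlt hδ.1, Ap.integral_dlt hδ.1]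

theorem ev_far (hf : FAR c) {w : ℝ → ℝ} (hw : ∀ ε, 0 < ε → 0 < w ε) {G : E5 → ℂ} {K ρ : ℝ → ℝ}
    (j : ℕ) {g : P3 → ℝ} (hG : Dc G) (hK : Tst K) (hg : Tst g) (h0 : (0 : P3) ∉ tsupport g)
    (hρ : Tst ρ) : Ev w (Tm c G K j g ρ) :=
  ⟨1, zero_le_one, fun ε hε δ hδ => X_far hf j hg h0 (Ap.tst_dlt hρ hδ.1.ne') (dc_Ps hG hK hε)
    (by rw [one_mul]; exact hw ε hε.1)⟩

theorem pn_one [Fact c.tp] (hc : GRP c) (hf : FAR c) {w : ℝ → ℝ} (hw : ∀ ε, 0 < ε → 0 < w ε) {n : ℕ}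
    (h : PN c w n) {G : E5 → ℂ} {K ρ : ℝ → ℝ} {j : ℕ} {g : P3 → ℝ} (hG : Cl G) (hK : Mom n K)
    (hg : KC j g) (hρ : Tst ρ) (hs : tsupport ρ ⊆ Set.Icc (-1) 1) (i : Fin 2) :
    Ev (fun ε => ε * w ε) (Tm c (mu5 (fun u => u.1.2 i - u.1.1.2 i) G) (deriv K) j g ρ) := by
  have hw' : ∀ ε, 0 < ε → 0 < ε * w ε := fun ε a => mul_pos a (hw ε a)
  have tρ : Tst fun t => t * ρ t := Ap.cs_mul_l contDiff_fun_id hρ
  have a1 := ev_far hf hw' (j + 2) (dc_mu5 (φ := fun u => u.1.1.2 i) (by fun_prop) hG.1) hK.1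
    (tst_da hg.tst) hg.da0 hρ
  have a2 := ev_far hf hw' (j + 1) hG.1 hK.1 (tst_xi i (tst_da hg.tst)) (hg.xda0 i) hρ
  have a3 := (h G K _ _ _ hG hK (hg.di i) tρ (tsupport_mul_subset_right.trans hs)).gain
    (s := fun _ δ => δ) fun ε _ δ hδ => (abs_of_pos hδ.1).trans_le hδ.2
  have a4 := (h _ K _ _ _ (hG.der i) hK hg hρ hs).gain (s := fun ε _ => ε)
    fun ε hε _ _ => (abs_of_pos hε.1).le
  refine (((a1.sub a2).sub a3).sub a4).congr fun ε hε δ hδ L hL => ?_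
  have e : pr (gS (j + 1) (di i g) L) (fun t => t * dlt δ ρ t) =
      fun z => (δ : ℂ) * pr (gS (j + 1) (di i g) L) (dlt δ fun t => t * ρ t) z := funext fun z => by
    have := Ap.pow_dlt hδ.1.ne' 1 ρ (be z)
    simp only [pow_one] at this
    simp only [pr, this]
    push_cast
    ring
  rw [Tm, ward hc hG.1 hK.1 (tst_gS j hg.tst hL) (Ap.tst_dlt hρ hδ.1.ne') hε i, da_gS hg.tst hL,
    xi_gS i hL, di_gS i hg.tst hL, e, X_mul_r (dc_Ps hG.1 hK.1 hε)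
      (Far.dc_pr (tst_gS _ (tst_di i hg.tst) hL) (Ap.tst_dlt tρ hδ.1.ne'))]
  rfl

theorem pn_succ [Fact c.tp] (hc : GRP c) (hf : FAR c) {w : ℝ → ℝ} (hw : ∀ ε, 0 < ε → 0 < w ε) {n : ℕ}
    (h : PN c w n) : PN c (fun ε => ε * w ε) (n + 1) := by
  intro G k j g ρ hG hk hg hρ hs
  obtain ⟨K, hK, rfl⟩ := hk.prim
  refine ((pn_one hc hf hw h (hG.div 0) hK hg hρ hs 0).add
    (pn_one hc hf hw h (hG.div 1) hK hg hρ hs 1)).congr fun ε hε δ hδ L hL => ?_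
  simp only [Tm]
  rw [← X_add_l (dc_Ps ((hG.div 0).mul (by fun_prop)).1 hk.1 hε)
    (dc_Ps ((hG.div 1).mul (by fun_prop)).1 hk.1 hε)
    (Far.dc_pr (tst_gS j hg.tst hL) (Ap.tst_dlt hρ hδ.1.ne'))]
  congr 1
  funext z
  simp only [Ps, ten, ← add_mul, ← hG.split]

theorem pn [Fact c.tp] (t : T3 c) (hf : FAR c) : ∃ n, PN c (fun ε => ε) n := by
  obtain ⟨m, h⟩ := pn_zero t
  have key : ∀ n, PN c (fun ε => ε ^ n * ε⁻¹ ^ m) n := fun n => by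
    induction n with
    | zero => simpa only [pow_zero, one_mul] using h
    | succ n ih =>
      simpa only [pow_succ', mul_assoc] using pn_succ t.grp hf (fun ε a => by positivity) ih
  refine ⟨m + 1, fun G K j g ρ a1 a2 a3 a4 a5 => ?_⟩
  obtain ⟨C, hC, h⟩ := key (m + 1) G K j g ρ a1 a2 a3 a4 a5
  refine ⟨C, hC, fun ε hε δ hδ => (h ε hε δ hδ).mono fun L a => a.trans_eq ?_⟩
  have := hε.1.ne'
  beta_reduce
  rw [inv_pow]
  field_simp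
  ring

/-! ## the weight -/

/-- the test function of the two legs with the weight `(al1 - al3)^p` -/
def Psn (p : ℕ) (G : E5 → ℂ) (k : ℝ → ℝ) (ε : ℝ) : V × V → ℂ :=
  fun z => (((al z.1 - al z.2) ^ p : ℝ) : ℂ) * Ps G k ε z

theorem dc_Psn (p : ℕ) {G : E5 → ℂ} {k : ℝ → ℝ} {ε : ℝ} (hG : Dc G) (hk : Tst k)
    (h : ε ∈ Set.Ioc (0 : ℝ) 1) : Dc (Psn p G k ε) :=
  Api4.dc_mul_left (Ap.smooth_cx (by fun_prop)) (dc_Ps hG hk h)

theorem ev_two {w : ℝ → ℝ} {n : ℕ} (h : PN c w n) (p : ℕ) {G : E5 → ℂ} {k ρ : ℝ → ℝ} {j : ℕ}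
    {g : P3 → ℝ} (hG : Cl G) (hk : Mom (n + p) k) (hg : KC j g) (hρ : Tst ρ)
    (hs : tsupport ρ ⊆ Set.Icc (-1) 1) :
    Ev w fun ε δ L => X c (Psn p G k ε) (pr (gS j g L) (dlt δ ρ)) := by
  induction p generalizing G k with
  | zero =>
    refine (h G k j g ρ hG hk hg hρ hs).congr fun ε hε δ hδ L hL => ?_
    rw [Tm]
    congr 1
    funext z
    simp [Psn]
  | succ p ih =>
    have c1 := hG.mul (φ := fun u => u.1.1.1) (by fun_prop)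
    have c2 := hG.mul (φ := fun u => -1) (by fun_prop)
    have k1 : Mom (n + p) k := Mom.mono hk
    have k2 : Mom (n + p) fun t => t * k t := Mom.mul hk
    refine ((ih c1 k1).add (ih c2 k2)).congr fun ε hε δ hδ L hL => ?_
    rw [← X_add_l (dc_Psn p c1.1 k1.1 hε) (dc_Psn p c2.1 k2.1 hε)
      (Far.dc_pr (tst_gS j hg.tst hL) (Ap.tst_dlt hρ hδ.1.ne'))]
    congr 1
    funext z
    simp only [Psn, Ps, ten, mu5, cx, BL_apply, pl_1]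
    push_cast
    ring

/-- the term `i` of the weight `(x2 - x1).(x2 - x3)` -/
def Fi (G : E5 → ℂ) (k : ℝ → ℝ) (κ : P3 → ℝ) (ρ : ℝ → ℝ) (ε δ L : ℝ) (i : Fin 2)
    (z : V × V × V) : ℂ :=
  (((tx z.2.1 i - tx z.1 i) * (tx z.2.1 i - tx z.2.2 i) : ℝ) : ℂ) *
    (Psn 4 G k ε (z.1, z.2.2) * pr (kL κ L) (dlt δ ρ) z.2.1)

theorem ev_three {w : ℝ → ℝ} {n : ℕ} (h : PN c w n) {G : E5 → ℂ} {k ρ : ℝ → ℝ} {κ : P3 → ℝ}
    (hG : Cl G) (hk : Mom (n + 4) k) (hκ : Cut κ) (hρ : Tst ρ) (hs : tsupport ρ ⊆ Set.Icc (-1) 1)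
    (i : Fin 2) : Ev w fun ε δ L => c.t0 (sch (Fi G k κ ρ ε δ L i)) := by
  have k2 := kc_cut hκ
  have k1 := k2.xi i
  have k0 := k1.xi i
  have c1 := hG.mul (φ := fun u => -(u.1.1.2 i + u.1.2 i)) (by fun_prop)
  have c2 := hG.mul (φ := fun u => u.1.1.2 i * u.1.2 i) (by fun_prop)
  refine (((ev_two h 4 hG hk k0 hρ hs).add (ev_two h 4 c1 hk k1 hρ hs)).add
    (ev_two h 4 c2 hk k2 hρ hs)).congr fun ε hε δ hδ L hL => ?_
  have tρ := Ap.tst_dlt hρ hδ.1.ne'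
  have d0 := Far.dc_tri (dc_Psn 4 hG.1 hk.1 hε) (Far.dc_pr (tst_gS 0 k0.tst hL) tρ)
  have d1 := Far.dc_tri (dc_Psn 4 c1.1 hk.1 hε) (Far.dc_pr (tst_gS 1 k1.tst hL) tρ)
  have d2 := Far.dc_tri (dc_Psn 4 c2.1 hk.1 hε) (Far.dc_pr (tst_gS 2 k2.tst hL) tρ)
  simp only [X]
  rw [← Far.t0_add, ← Far.t0_add, ← Api4.sch_add d0 d1, ← Api4.sch_add (Api4.dc_add d0 d1) d2]
  congr 2
  funext z
  rw [← xi_gS i hL, ← xi_gS i hL, gS_two hL]
  simp only [Fi, Psn, Ps, ten, mu5, cx, BL_apply, pl_2, pr, xi]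
  push_cast
  ring

theorem main [Fact c.tp] : T3 c → FAR c → IX c := by
  intro t hf
  obtain ⟨n, h⟩ := pn t hf
  refine ⟨n + 3, fun ρ1 κ k θ ρ k' h1 hκ hk hθ hρ hk' hm h2 hs η hη => ?_⟩
  have hG := cl_G0 h1 hθ hk' h2
  have hM : Mom (n + 4) k := ⟨hk, fun j hj => hm j (by omega)⟩
  obtain ⟨C, hC, h3⟩ := (ev_three h hG hM hκ hρ hs 0).add (ev_three h hG hM hκ hρ hs 1)
  have a1 : ∀ᶠ ε in 𝓝[>] (0 : ℝ), C * ε ≤ η := by
    have : Tendsto (fun ε : ℝ => C * ε) (𝓝 0) (𝓝 0) :=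
      Continuous.tendsto' (by fun_prop) _ _ (mul_zero C)
    exact (this.eventually_le_const hη).filter_mono nhdsWithin_le_nhds
  filter_upwards [a1, Ioc_mem_nhdsGT (zero_lt_one' ℝ)] with ε a2 hε δ hδ
  filter_upwards [h3 ε hε δ hδ, eventually_gt_atTop (0 : ℝ)] with L a3 hL
  have d : ∀ i, Dc (Fi (G0 ρ1 θ k') k κ ρ ε δ L i) := fun i =>
    Api4.dc_mul_left (Ap.smooth_cx (by fun_prop)) (Far.dc_tri (dc_Psn 4 hG.1 hk hε)
      (Far.dc_pr (Ap.tst_kL hκ.1 hL) (Ap.tst_dlt hρ hδ.1.ne')))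
  rw [← Far.t0_add, ← Api4.sch_add (d 0) (d 1)] at a3
  refine le_trans (le_of_eq ?_) (a3.trans a2)
  congr 3
  funext z
  simp only [Fi, Psn, Ps, ten, cx, BL_apply, pl_1, pl_2, pr, Vale.Agent.P352X.IXH.G0, Ph0, d2, dx_k3 hk hk', dil,
    div_eq_inv_mul, Pi.sub_apply]
  push_cast
  ring

end

end Vale.Agent.P352X.ZZ.IXH

theorem Vale.Agent.P352X.ZZ.ix_row {D : Type*} [NormedAddCommGroup D] [InnerProductSpace ℂ D]
    (c : Ctx D) [Fact c.tp] : T3 c → FAR c → IX c := IXH.main
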