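import Vale.Agent.P352X.R.KT
import Vale.Agent.P352Z.R.BAS

/-!
# P352Z: row KT
-/

namespace Vale.Agent.P352X.ZZ.Br
export Vale.Agent.P352X.Br (Ex Ex_add Ex_comm Ex_cont Ex_lip Ex_star Ex_uni Ex_zero Usc_apply Ut_apply dm_iff ex_bd fr
  k0_sc kt_sc pt_eq pt_self scL_lor scL_tv scL_va sc_pos sqrt_sc sqrt_sc' tv_kin)
end Vale.Agent.P352X.ZZ.Br

noncomputable section

open MeasureTheory Filter Topology Complex Set
open scoped ComplexConjugate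

namespace Vale.Agent.P352X.ZZ

open Vale.Agent.P352 Vale.Agent.P352.GF Vale.Agent.P352.BW
open Vale.Agent.P352.H496 Vale.Agent.P352.H755 Vale.Agent.P352.H15
open SN (BC Calc Bd IsPair URep)
open UniformSpace (Completion)
open Br

namespace Br

section grp

variable {X H : Type*} [MeasurableSpace X] [NormedAddCommGroup H] [InnerProductSpace ℂ H]
  [CompleteSpace H] (C : Calc X H) {r r' : X → ℝ}

end grp

variable {D : Type*} [NormedAddCommGroup D] [InnerProductSpace ℂ D] (c : Ctx D)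

lemma S0_Ex (t : ℝ) : c.S0 t = Ex c.kc.toCalc Kin.k0 t := ContinuousLinearMap.ext (c.S0_Phi t)

lemma Sk_Ex (t : ℝ) : c.Sk t = Ex c.kc.toCalc Kin.kt t := ContinuousLinearMap.ext (c.Sk_Phi t)

lemma ae_kt (v : Completion D) : ∀ᵐ q ∂c.kc.nu v, 0 ≤ Kin.kt q :=
  Kin.ae_kt_nonneg c.kc c.bR c.hS fr c.bV c.kpos v

lemma ae_k0 (v : Completion D) : ∀ᵐ q ∂c.kc.nu v, 0 ≤ Kin.k0 q :=
  Kin.ae_k0_nonneg c.kc c.bR c.hS fr c.bV v

/-- covariance of the joint calculus under the transverse translations -/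
lemma tv_kc (y : R2) {f : Kin.KX → ℂ} (hf : Bd f) (v : Completion D) :
    Ut c.Q (tv y) (c.kc.Phi f v) = c.kc.Phi (fun q => f (Kin.ky y q)) (Ut c.Q (tv y) v) := by
  rw [Ut_apply, Ut_apply, ← tv_kin]
  exact Kin.tv_Phi c.kc c.bR c.hS fr y hf v

/-- covariance of the joint calculus under the scalings -/
lemma sc_kc {r s : ℝ} (hr : 0 < r) (hs : 0 < s) {f : Kin.KX → ℂ} (hf : Bd f) (v : Completion D) :
    Usc c.Q r s (c.kc.Phi f v) =
      c.kc.Phi (fun q => f (s⁻¹ * q.1, Real.sqrt (r / s) • q.2.1, r * q.2.2)) (Usc c.Q r s v) := by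
  rw [Usc_apply _ hr hs, Usc_apply _ hr hs, Kin.sc_Phi c.kc c.bR c.hS fr (sc_pos hr hs)
    (Real.sqrt_pos.2 (div_pos hr hs)) (scL_lor hr hs) (scL_va r s)
    (fun w => by rw [tv_kin, scL_tv]) hf]
  simp only [Kin.ks, sqrt_sc hr hs, sqrt_sc' hr hs]

/-- translations in the null plane -/
lemma Ut_plane {y : V} (hy : be y = 0) (z : Completion D) :
    Ut c.Q y z = Pa c.Q (al y) (Ut c.Q (tv (tx y)) z) := by
  rw [Pa, Ut_apply, Ut_apply, Ut_apply, ← (Kin.urep_tr c.bR).add]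
  congr 1
  conv_lhs => rw [← pt_self y, pt_eq, hy, zero_smul, add_zero]

/-- functions of `Kt` commute with the translations in the null plane -/
lemma Ut_kt {y : V} (hy : be y = 0) {f : ℝ → ℂ} (hf : Bd f) (z : Completion D) :
    Ut c.Q y (c.kc.Phi (fun q => f (Kin.kt q)) z) =
      c.kc.Phi (fun q => f (Kin.kt q)) (Ut c.Q y z) := by
  rw [Ut_plane c hy, Ut_plane c hy, Ut_apply, Ut_apply, ← tv_kin,
    Kin.tv_kt c.kc c.bR c.hS fr c.bV _ hf, c.Pa_Phi, c.Pa_Phi]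
  exact c.kc.comm (ex_bd (r := fun q : Kin.KX => q.2.2) (by fun_prop) _) (hf.comp Kin.kt_meas) _

end Br

variable {D : Type*} [NormedAddCommGroup D] [InnerProductSpace ℂ D]

/-- row KT, without hypotheses -/
theorem kt_thm (c : Ctx D) : KT c where
  add0 s t := by simp only [S0_Ex, Ex_add _ Kin.k0_meas]
  add s t := by simp only [Sk_Ex, Ex_add _ Kin.kt_meas]
  zero := by simp only [S0_Ex, Sk_Ex, Ex_zero, and_self]
  uni t := by
    rw [S0_Ex, Sk_Ex]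
    exact ⟨Ex_uni _ Kin.k0_meas t, Ex_uni _ Kin.kt_meas t⟩
  cont z := by
    simp only [S0_Ex, Sk_Ex]
    exact ⟨Ex_cont _ Kin.k0_meas z, Ex_cont _ Kin.kt_meas z⟩
  comm s t := by
    refine ⟨by rw [S0_Ex, Sk_Ex, Ex_comm _ Kin.k0_meas Kin.kt_meas], ?_⟩
    rw [Ctx.Sk, mul_assoc, S0_Ex, S0_Ex, ← Ex_add _ Kin.k0_meas, neg_add_cancel, Ex_zero, mul_one]
  vac t := by
    rw [c.S0_Phi, c.Sk_Phi, Kin.kPhi_om c.kc c.bR c.hS fr (ex_bd Kin.k0_meas t),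
      Kin.kPhi_om c.kc c.bR c.hS fr (ex_bd Kin.kt_meas t)]
    simp [Kin.kt, Kin.k0]
  ut t y hy := by
    ext z
    rw [mul_apply_eq_comp, mul_apply_eq_comp, c.Sk_Phi, c.Sk_Phi]
    exact Ut_kt c hy (f := fun x => cexp (I * (t * x : ℝ))) (ex_bd measurable_id t) z
  ga t w := by
    ext z
    rw [mul_apply_eq_comp, mul_apply_eq_comp, c.Sk_Phi, c.Sk_Phi, c.Ga_Phi, c.Ga_Phi]
    exact c.kc.comm (Bd.expI (by unfold d2; fun_prop)) (ex_bd Kin.kt_meas t) z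
  sc r s t hr hs := by
    ext z
    rw [mul_apply_eq_comp, mul_apply_eq_comp, c.Sk_Phi, c.Sk_Phi,
      sc_kc c hr hs (ex_bd Kin.kt_meas t)]
    simp only [kt_sc hr hs]
    simp only [div_eq_mul_inv, mul_assoc]
  pos z w h := by
    obtain ⟨h1, rfl⟩ := c.cgn_Sk.1 h
    exact Calc.form_nonneg h1 (ae_kt c z)
  lip z w t ht h := by
    obtain ⟨h1, rfl⟩ := c.cgn_Sk.1 h
    rw [Sk_Ex]
    exact Ex_lip _ Kin.kt_meas h1 (ae_kt c z) ht
  dom z := by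
    rw [dm_iff _ measurable_fst fun t => c.SK_Phi t z, dm_iff _ Kin.kt_meas fun t => c.Sk_Phi t z,
      dm_iff _ Kin.k0_meas fun t => c.S0_Phi t z]
    exact Kin.dom_K c.kc c.bR c.hS fr c.bV c.kpos
  split z hz := by
    obtain ⟨h1, h2⟩ := c.cgn_SK.1 hz.gn'
    obtain ⟨h3, h4⟩ := (Kin.dom_K c.kc c.bR c.hS fr c.bV c.kpos).1 h1
    rw [(c.cgn_Sk.2 ⟨h3, rfl⟩).gen_eq', (c.cgn_S0.2 ⟨h4, rfl⟩).gen_eq', ← h2]
    refine ⟨Kin.K_eq c.kc h3 h4, ?_⟩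
    simpa only [pow_one] using (Kin.norm_kt_pow c.kc c.bR c.hS fr c.bV c.kpos 1
      (by simpa only [pow_one] using h1)).2
  two z hz hz' := by
    obtain ⟨h1, h2⟩ := c.cgn_SK.1 hz.gn'
    obtain ⟨h3, h4⟩ := c.cgn_SK.1 hz'.gn'
    rw [← h2] at h3
    obtain ⟨h5, h6⟩ := Calc.Psi_mul h1 h3
    obtain ⟨h7, h8⟩ := Kin.norm_kt_pow c.kc c.bR c.hS fr c.bV c.kpos 2
      (by simpa only [_root_.sq] using h5)
    simp only [_root_.sq] at h7 h8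
    have h9 := ((Kin.dom_K c.kc c.bR c.hS fr c.bV c.kpos).1 h1).1
    have hm : Measurable fun q => (Kin.kt q : ℂ) := measurable_ofReal.comp Kin.kt_meas
    have h10 := c.cgn_Sk.2 ⟨(Calc.dom_Psi h9 hm).2 h7, Calc.Psi_Psi h9 hm h7⟩
    rw [(c.cgn_Sk.2 ⟨h9, rfl⟩).gen_eq', h10.gen_eq', ← h4, ← h2, ← h6]
    exact ⟨h10.dm', h8⟩
  k0 ψ ψ' h h0 hP := by
    have a : ∀ i, c.kc.Dom (fun q => (q.2.1 i : ℂ) * q.2.1 i) ψ ∧
        c.kc.Psi (fun q => (q.2.1 i : ℂ) * q.2.1 i) ψ = gen (Mi c.Q i) (gen (Mi c.Q i) ψ) := by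
      intro i
      obtain ⟨h1, h2⟩ := (c.cgn_Mi i).1 (h i).1.gn'
      obtain ⟨h3, h4⟩ := (c.cgn_Mi i).1 (h i).2.gn'
      rw [← h4, ← h2]
      rw [← h2] at h3
      exact Calc.Psi_mul h1 h3
    obtain ⟨h1, h2⟩ := c.cgn_Pa'.1 hP
    have e : (fun q : Kin.KX => ((SN.dot q.2.1 q.2.1 : ℝ) : ℂ)) =
        fun q => (q.2.1 0 : ℂ) * q.2.1 0 + (q.2.1 1 : ℂ) * q.2.1 1 := by
      funext q
      rw [Kin.dot2]
      push_cast
      rfl
    refine c.cgn_S0.2 (Kin.k0_crit c.kc c.bR c.hS fr c.bV h0 ?_ h1 ?_)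
    · rw [e]
      exact (a 0).1.add (a 1).1
    · rw [e, Calc.Psi_add (a 0).1 (a 1).1, (a 0).2, (a 1).2, h2, Fin.sum_univ_two]

theorem kt_row (c : Ctx D) : T1 c → KT c := fun _ => kt_thm c

end Vale.Agent.P352X.ZZ

end
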