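import Vale.Agent.P352X.R.SYM
import Vale.Agent.P352X.Api2b

/-!
# P352Z, row SYML: the special conformal generator and the logarithmic weight (helper97)
-/

set_option linter.all false

open MeasureTheory Filter Topology Set
open scoped SchwartzMap ComplexConjugate ContDiff
open Complex (I)

namespace Vale.Agent.P352X.ZZ

open Vale.Agent.P352.GF Vale.Agent.P352.BW Vale.Agent.P352.H246
open Vale.Agent.P352.H496 Vale.Agent.P352.H755 Vale.Agent.P352.H15
open Vale.Agent.P352X Vale.Agent.P352X.Ap Vale.Agent.P352X.Sy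

noncomputable section

/-- row SYML -/
structure SYML : Prop where
  int : ∀ f, IsTest f → IntegrableOn (fun p => (Real.log (mu p) : ℂ) * f p) Fc
  log : ∀ f g, IsTest f → IsTest g →
    (∫ p in Fc, (Real.log (mu p) : ℂ) * (conj (ft f p) * ft (Kc 2 g) p)) +
      ∫ p in Fc, (Real.log (mu p) : ℂ) * (conj (ft (Kc 2 f) p) * ft g p) =
    -2 * ((∫ p in Fc, conj (ft f p) * ft (fun z => (be z : ℝ) * g z) p) +
      ∫ p in Fc, conj (ft (fun z => (be z : ℝ) * f z) p) * ft g p)
  ind : ∀ α β : ℂ, (∀ f g, In {z | be z < 0} f → In {z | be z < 0} g →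
    α * (∫ p in Fc, conj (ft f p) * ft (fun z => (be z : ℝ) * g z) p) +
      β * ∫ p in Fc, conj (ft (fun z => (be z : ℝ) * f z) p) * ft g p = 0) → α = 0 ∧ β = 0

namespace Syl

/-- the weight -/
def lw (t : ℝ) : ℝ := (1 + |Real.log t|) * ((1 + t) ^ 2)⁻¹

theorem lw_int : IntegrableOn lw (Ioi 0) := by
  have m : Measurable lw := by unfold lw; fun_prop
  rw [← Ioc_union_Ioi_eq_Ioi zero_le_one]
  refine IntegrableOn.union ?_ ?_
  · have i : IntegrableOn (fun t => 1 + |Real.log t|) (Ioc 0 1) :=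
      (integrableOn_const (by simp)).add
        (intervalIntegral.intervalIntegrable_log' (a := 0) (b := 1)).1.abs
    refine i.mono' m.aestronglyMeasurable ((ae_restrict_mem measurableSet_Ioc).mono fun t ht => ?_)
    have := ht.1
    rw [lw, Real.norm_of_nonneg (by positivity)]
    exact mul_le_of_le_one_right (by positivity) (inv_le_one_of_one_le₀ (by nlinarith))
  · refine ((integrableOn_Ioi_rpow_of_lt (a := -3 / 2) (by norm_num) one_pos).const_mul 3).mono'
      m.aestronglyMeasurable ((ae_restrict_mem measurableSet_Ioi).mono fun t ht => ?_)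
    have h1 : 1 < t := ht
    have h0 : 0 < t := by linarith
    have a := Real.log_le_rpow_div h0.le (show (0 : ℝ) < 1 / 2 by norm_num)
    have b := Real.one_le_rpow h1.le (show (0 : ℝ) ≤ 1 / 2 by norm_num)
    have c : t ^ (-3 / 2 : ℝ) = t ^ (1 / 2 : ℝ) * (t ^ 2)⁻¹ := by
      rw [← Real.rpow_two, ← Real.rpow_neg h0.le, ← Real.rpow_add h0]
      norm_num
    rw [lw, Real.norm_of_nonneg (by positivity), abs_of_nonneg (Real.log_nonneg h1.le), c,
      ← mul_assoc]
    gcongr <;> linarith

theorem q_int : Integrable fun q : R2 => ((1 + ‖q‖) ^ 3)⁻¹ := by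
  have := integrable_one_add_norm (E := R2) (μ := volume) (r := 3) (by simp; norm_num)
  refine this.congr (.of_forall fun q => ?_)
  beta_reduce
  rw [Real.rpow_neg (by positivity), ← Real.rpow_natCast]
  norm_num

theorem log_le {a t : ℝ} (ha : 0 < a) (ht : 0 < t) :
    |Real.log (2 * a * t)| ≤ (1 + |Real.log a|) * (1 + |Real.log t|) := by
  rw [Real.log_mul (by positivity) ht.ne', Real.log_mul two_ne_zero ha.ne']
  have h1 := Real.log_le_sub_one_of_pos two_pos
  have h2 := Real.log_nonneg one_le_two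
  have h3 := mul_nonneg (abs_nonneg (Real.log a)) (abs_nonneg (Real.log t))
  refine (abs_add_three _ _ _).trans ?_
  rw [abs_of_nonneg h2]
  nlinarith

theorem meas_log : Measurable fun p : V => (Real.log (mu p) : ℂ) :=
  Complex.measurable_ofReal.comp (Real.measurable_log.comp cont_mu.measurable)

/-- the logarithm is integrable against Schwartz functions on the cone -/
theorem log_int {S : Fn} (hS : Sw S) : IntegrableOn (fun p => (Real.log (mu p) : ℂ) * S p) Fc := by
  have m := (meas_log.mul (sw_cont hS).measurable).aestronglyMeasurable (μ := volume.restrict Fc)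
  obtain ⟨G, rfl⟩ := hS
  obtain ⟨C, hC⟩ : ∃ C, ∀ x, (1 + ‖x‖) ^ 7 * ‖G x‖ ≤ C := ⟨_, fun x => by
    simpa only [norm_iteratedFDeriv_zero] using
      G.one_add_le_sup_seminorm_apply (𝕜 := ℂ) (m := (7, 0)) (k := 7) (n := 0) le_rfl le_rfl x⟩
  have i : Integrable (fun k : P3 => lw k.1 * ((1 + ‖k.2‖) ^ 3)⁻¹) (volume.restrict Pp) := by
    rw [vol_Pp]
    exact lw_int.mul_prod q_int
  refine sc_pc.integrable.1 (((i.mul_prod lw_int).const_mul (4 * C)).mono' (sc_pc.aesm.2 m) ?_)
  filter_upwards [Measure.quasiMeasurePreserving_fst.ae (ae_restrict_mem meas_Pp),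
    Measure.quasiMeasurePreserving_snd.ae (ae_restrict_mem measurableSet_Ioi)] with y h1 h2
  obtain ⟨k, t⟩ := y
  have k0 : 0 < k.1 := h1
  have t0 : 0 < t := h2
  have a1 : 1 + k.1 ≤ 2 * (1 + ‖pc k t‖) := by
    have := (le_abs_self _).trans (abs_be_le (pc k t))
    rw [be_pc] at this
    linarith
  have a2 : 1 + ‖k.2‖ ≤ 1 + ‖pc k t‖ := by
    have := norm_tx_le (pc k t)
    rw [tx_pc] at this
    linarith
  have a3 : 1 + t ≤ 1 + ‖pc k t‖ := by
    have := (le_abs_self _).trans (abs_al_le (pc k t))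
    rw [al_pc] at this
    have := div_nonneg (d2_nonneg k.2) (by positivity : 0 ≤ 2 * k.1)
    linarith
  have a4 : (1 + k.1) ^ 2 * (1 + ‖k.2‖) ^ 3 * (1 + t) ^ 2 * ‖G (pc k t)‖ ≤ 4 * C := by
    calc _ ≤ (2 * (1 + ‖pc k t‖)) ^ 2 * (1 + ‖pc k t‖) ^ 3 * (1 + ‖pc k t‖) ^ 2 * ‖G (pc k t)‖ := by
          gcongr
      _ = 4 * ((1 + ‖pc k t‖) ^ 7 * ‖G (pc k t)‖) := by ring
      _ ≤ _ := by linarith [hC (pc k t)]
  have a5 : ‖G (pc k t)‖ ≤ 4 * C * ((1 + k.1) ^ 2 * (1 + ‖k.2‖) ^ 3 * (1 + t) ^ 2)⁻¹ := by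
    rw [← div_eq_mul_inv, le_div_iff₀ (by positivity), mul_comm]
    exact a4
  simp only [norm_mul, Complex.norm_real, Real.norm_eq_abs, mu_pc t k0.ne', lw]
  refine (mul_le_mul (log_le k0 t0) a5 (norm_nonneg _) (by positivity)).trans_eq ?_
  rw [mul_inv, mul_inv]
  ring

theorem meas_cu' {H : ℝ → ℝ} (hH : Measurable H) (k : ℝ) : Measurable (cu H k) :=
  Measurable.ite (measurableSet_lt measurable_const (measurable_pi_apply o))
    (Complex.measurable_ofReal.comp (hH.comp (cont_mu.measurable.const_mul k))) measurable_const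

theorem cu_out {H : ℝ → ℝ} (h : ∀ t, t ≤ 0 → H t = 0) {k : ℝ} (hk : 0 ≤ k) {p : V} (hp : p ∉ Fc) :
    cu H k p = 0 := by
  by_cases ho : 0 < p o
  · have : mu p ≤ 0 := not_lt.1 fun a => hp ⟨a, ho⟩
    simp only [cu]
    rw [h _ (mul_nonpos_of_nonneg_of_nonpos hk this)]
    simp
  · simp [cu, ho]

/-- the divergence theorem with the logarithmic weight -/
theorem div_log {J : Ix → Fn} {W : Fn} (hJ : ∀ m, Sw (J m)) (hW : Sw W)
    (h : ∀ p, ∑ m, (eta m * p m : ℝ) * J m p = mu p * W p) :
    ∫ p in Fc, (Real.log (mu p) : ℂ) * ∑ m, pd m (J m) p = -2 * ∫ p in Fc, W p := by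
  obtain ⟨H, hs, h1, h2, -, h3⟩ := ex_step (one_lt_two (α := ℝ))
  have hd : Continuous (deriv H) := hs.continuous_deriv (by simp)
  have hH : Differentiable ℝ H := hs.differentiable (by simp)
  have d1 (t) (ht : t < 1) : deriv H t = 0 := by
    rw [EventuallyEq.deriv_eq (f := fun _ => 0) ((gt_mem_nhds ht).mono fun s hs => h1 s hs.le)]
    simp
  have d2 (t) (ht : 2 < t) : deriv H t = 0 := by
    rw [EventuallyEq.deriv_eq (f := fun _ => 1) ((lt_mem_nhds ht).mono fun s hs => h2 s hs.le)]
    simp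
  obtain ⟨C, hC⟩ := (isCompact_Icc (a := (1 : ℝ)) (b := 2)).exists_bound_of_continuousOn
    hd.continuousOn
  have C0 : 0 ≤ C := (norm_nonneg _).trans (hC 1 (by norm_num))
  have b0 (t) : |deriv H t| ≤ C := by
    by_cases ht : t ∈ Icc (1 : ℝ) 2
    · exact hC t ht
    · rcases not_and_or.1 ht with a | a
      · rwa [d1 t (not_le.1 a), abs_zero]
      · rwa [d2 t (not_le.1 a), abs_zero]
  have b1 (t) : |deriv H t * t| ≤ C * 2 := by
    by_cases ht : t ∈ Icc (1 : ℝ) 2
    · rw [abs_mul, abs_of_nonneg (by linarith [ht.1] : 0 ≤ t)]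
      exact mul_le_mul (b0 t) ht.2 (by linarith [ht.1]) C0
    · rcases not_and_or.1 ht with a | a
      · rw [d1 t (not_le.1 a)]; simpa using C0
      · rw [d2 t (not_le.1 a)]; simpa using C0
  have bH (t) : |H t| ≤ 1 := abs_le.2 ⟨by linarith [(h3 t).1], (h3 t).2⟩
  have bq (t) : |H t / t| ≤ 1 := by
    rcases le_or_gt t 1 with a | a
    · simp [h1 t a]
    · rw [abs_div, abs_of_pos (one_pos.trans a), div_le_one (one_pos.trans a)]
      exact (bH t).trans a.le
  have z0 (t) (ht : t ≤ 0) : H t = 0 := h1 t (ht.trans zero_le_one)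
  have z1 (t) (ht : t ≤ 0) : deriv H t = 0 := d1 t (ht.trans_lt one_pos)
  set lg : Fn → Fn := fun F => Fc.indicator fun p => (Real.log (mu p) : ℂ) * F p
  have il {F : Fn} (hF : Sw F) : Integrable (lg F) :=
    (integrable_indicator_iff meas_Fc).2 (log_int hF)
  have el {G : ℝ → ℝ} (hG : ∀ t, t ≤ 0 → G t = 0) {k : ℝ} (hk : 0 ≤ k) (F : Fn) (p : V) :
      cu G k p * lg F p = cu G k p * (Real.log (mu p) * F p) := by
    by_cases hp : p ∈ Fc
    · simp only [lg, indicator_of_mem hp]
    · simp only [cu_out hG hk hp, zero_mul]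
  have mH (k) := (meas_cu hs.continuous k).aestronglyMeasurable (μ := volume)
  have mD (k) := (meas_cu hd k).aestronglyMeasurable (μ := volume)
  have mE (k) := (meas_cu (H := fun t => deriv H t * t) (hd.mul continuous_id)
    k).aestronglyMeasurable (μ := volume)
  have mQ (k) := (meas_cu' (H := fun t => H t / t) (hs.continuous.measurable.div measurable_id)
    k).aestronglyMeasurable (μ := volume)
  have der (k : ℝ) (hk : 0 < k) (m p) : HasLineDerivAt ℝ (fun p => cu H k p * Real.log (mu p))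
      ((cu (deriv H) k p * Real.log (mu p) + cu (fun t => H t / t) k p) * (2 * k : ℝ) *
        (eta m * p m : ℝ)) p (bas m 1) := by
    have g (t : ℝ) : HasDerivAt (fun t => H t * Real.log (t / k))
        (deriv H t * Real.log (t / k) + H t / t) t := by
      rcases eq_or_ne t 0 with a | a
      · subst a
        rw [z1 0 le_rfl, z0 0 le_rfl, zero_mul, zero_div, add_zero]
        exact (hasDerivAt_const (0 : ℝ) (0 : ℝ)).congr_of_eventuallyEq
          ((gt_mem_nhds one_pos).mono fun s hs => by simp only [h1 s hs.le, zero_mul])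
      · refine ((hH t).hasDerivAt.mul (((hasDerivAt_id' t).div_const k).log
          (div_ne_zero a hk.ne'))).congr_deriv ?_
        field_simp
    have := der_cu (H := fun t => H t * Real.log (t / k)) (fun t => (g t).differentiableAt)
      (fun t ht => by simp only [h1 t ht, zero_mul]) hk.le m p
    rw [show deriv (fun t => H t * Real.log (t / k)) = _ from funext fun t => (g t).deriv] at this
    convert this using 2
    · unfold cu
      split_ifs
      · beta_reduce; rw [mul_div_cancel_left₀ _ hk.ne']; push_cast; rfl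
      · simp
    · congr 1
      unfold cu
      split_ifs
      · beta_reduce; rw [mul_div_cancel_left₀ _ hk.ne']; push_cast; rfl
      · simp
  have i2 (k : ℝ) (hk : 0 < k) {F : Fn} (hF : Sw F) :
      Integrable fun p => cu H k p * Real.log (mu p) * F p :=
    ((il hF).bdd_mul (mH k) (ae_of_all _ (norm_cu bH k))).congr
      (ae_of_all _ fun p => (el z0 hk.le F p).trans (mul_assoc _ _ _).symm)
  have i1 (k : ℝ) (hk : 0 < k) (m) : Integrable fun p =>
      (cu (deriv H) k p * Real.log (mu p) + cu (fun t => H t / t) k p) * (2 * k : ℝ) *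
        (eta m * p m : ℝ) * J m p := by
    have s := sw_cmul ((2 * k * eta m : ℝ) : ℂ) (sw_co m (hJ m))
    refine (((il s).bdd_mul (mD k) (ae_of_all _ (norm_cu b0 k))).add
      ((sw_int s).bdd_mul (mQ k) (ae_of_all _ (norm_cu bq k)))).congr (ae_of_all _ fun p => ?_)
    simp only [Pi.add_apply, el z1 hk.le]
    push_cast; ring
  have sD : Sw fun p => ∑ m, pd m (J m) p := sw_sum fun m _ => sw_pd m (hJ m)
  have key (k : ℝ) (hk : 0 < k) : ∫ p, cu H k p * lg (fun p => ∑ m, pd m (J m) p) p =
      -2 * ((∫ p, cu (fun t => deriv H t * t) k p * lg W p) + ∫ p, cu H k p * W p) := by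
    simp only [el z0 hk.le, ← mul_assoc, Finset.mul_sum]
    rw [integral_finsetSum _ fun m _ => i2 k hk (sw_pd m (hJ m))]
    have e (m) : ∫ p, cu H k p * Real.log (mu p) * pd m (J m) p =
        -∫ p, (cu (deriv H) k p * Real.log (mu p) + cu (fun t => H t / t) k p) * (2 * k : ℝ) *
          (eta m * p m : ℝ) * J m p :=
      integral_bilinear_hasLineDerivAt_right_eq_neg_left_of_integrable
        (B := ContinuousLinearMap.mul ℝ ℂ) (v := bas m 1) (i1 k hk m) (i2 k hk (sw_pd m (hJ m)))
        (i2 k hk (hJ m)) (fun p _ => der k hk m p) fun p _ => by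
          rw [pd_fd (sw_diff (hJ m) p)]
          exact (sw_diff (hJ m) p).hasFDerivAt.hasLineDerivAt _
    simp only [e, Finset.sum_neg_distrib]
    rw [← integral_finsetSum _ fun m _ => i1 k hk m, ← integral_add
      ((il hW).bdd_mul (mE k) (ae_of_all _ (norm_cu b1 k)))
      ((sw_int hW).bdd_mul (mH k) (ae_of_all _ (norm_cu bH k))), neg_mul, ← integral_const_mul]
    congr 2
    funext p
    rw [el (fun t ht => by simp only [z1 t ht, zero_mul]) hk.le]
    simp only [mul_assoc ((cu (deriv H) k p * _ + _) * _), ← Finset.mul_sum, h]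
    unfold cu
    split_ifs
    · by_cases a : mu p = 0
      · simp [a, z0 0 le_rfl]
      · have a' : (mu p : ℂ) ≠ 0 := Complex.ofReal_ne_zero.2 a
        have k' : (k : ℂ) ≠ 0 := Complex.ofReal_ne_zero.2 hk.ne'
        push_cast
        field_simp
    · simp
  have l1 {F : Fn} (iF : Integrable F) : Tendsto (fun k : ℕ => ∫ p, cu H k p * F p) atTop
      (𝓝 (∫ p in Fc, F p)) := by
    rw [← integral_indicator meas_Fc]
    refine tendsto_integral_of_dominated_convergence _ (fun k => (mH k).mul iF.1) iF.norm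
      (fun k => ae_of_all _ fun p => ?_) (ae_of_all _ fun p => tendsto_const_nhds.congr' ?_)
    · rw [norm_mul]
      exact mul_le_of_le_one_left (norm_nonneg _) (norm_cu bH _ _)
    · by_cases hp : p ∈ Fc
      · filter_upwards [(tendsto_natCast_atTop_atTop.atTop_mul_const
          (show 0 < mu p from hp.1)).eventually_ge_atTop 2] with k hk
        rw [indicator_of_mem hp, cu, if_pos hp.2, h2 _ hk]; simp
      · exact Eventually.of_forall fun k => by
          beta_reduce
          rw [indicator_of_notMem hp, cu_out z0 k.cast_nonneg hp, zero_mul]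
  have l2 {F : Fn} (iF : Integrable F) :
      Tendsto (fun k : ℕ => ∫ p, cu (fun t => deriv H t * t) k p * F p) atTop
      (𝓝 (∫ p : V, (0 : ℂ))) := by
    refine tendsto_integral_of_dominated_convergence _ (fun k => (mE k).mul iF.1)
      (iF.norm.const_mul (C * 2))
      (fun k => ae_of_all _ fun p => ?_) (ae_of_all _ fun p => tendsto_const_nhds.congr' ?_)
    · rw [norm_mul]
      gcongr
      exact norm_cu b1 _ _
    · by_cases hp : 0 < mu p
      · filter_upwards [(tendsto_natCast_atTop_atTop.atTop_mul_const hp).eventually_gt_atTop 2]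
          with k hk
        simp [cu, d2 _ hk]
      · refine Eventually.of_forall fun k => ?_
        have := d1 (k * mu p) (by nlinarith [(k.cast_nonneg : (0 : ℝ) ≤ k)])
        simp [cu, this]
  have l3 := ((l2 (il hW)).add (l1 (sw_int hW))).const_mul (-2)
  rw [integral_zero, zero_add] at l3
  have l4 := l1 (il sD)
  rw [setIntegral_congr_fun meas_Fc fun p hp => indicator_of_mem hp _] at l4
  refine tendsto_nhds_unique (l4.congr' ?_) l3
  filter_upwards [eventually_gt_atTop 0] with k hk using key k (Nat.cast_pos.2 hk)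

theorem green {F G : Fn} (hF : Sw F) (hG : Sw G) :
    (∫ p in Fc, (Real.log (mu p) : ℂ) * (conj (F p) * (-I * ∑ m, pd m (jm m G) p))) +
      ∫ p in Fc, (Real.log (mu p) : ℂ) * (conj (-I * ∑ m, pd m (jm m F) p) * G p) =
    -2 * ((∫ p in Fc, conj (F p) * (-I * dv va G p)) +
      ∫ p in Fc, conj (-I * dv va F p) * G p) := by
  have mu' {A B : Fn} (a : Sw A) (b : Sw B) : Sw fun p => A p * B p := sw_mul (sw_temp a) b
  have s {F : Fn} (hF : Sw F) : Sw fun p => -I * ∑ m, pd m (jm m F) p :=
    sw_cmul _ (sw_sum fun m _ => sw_pd m (sw_jm m hF))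
  have s1 (m) := mu' (sw_conj hF) (sw_jm m hG)
  have s2 (m) := mu' (sw_conj (sw_jm m hF)) hG
  have := div_log (J := fun m p => conj (F p) * jm m G p + -1 * (conj (jm m F p) * G p))
    (W := fun p => conj (F p) * dv va G p - conj (dv va F p) * G p)
    (fun m => sw_add (s1 m) (sw_cmul _ (s2 m)))
    (sw_sub (mu' (sw_conj hF) (sw_dv _ hG)) (mu' (sw_conj (sw_dv _ hF)) hG)) fun p => by
      simp only [jm, dv, mu, mdot_eq, be_eq, Fin.sum_univ_four]
      simp [eta, o, va]
      ring
  have e : (∫ p in Fc, conj (F p) * (-I * dv va G p)) + ∫ p in Fc, conj (-I * dv va F p) * G p =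
      -I * ∫ p in Fc, (conj (F p) * dv va G p - conj (dv va F p) * G p) := by
    rw [← integral_add (sw_int (mu' (sw_conj hF) (sw_cmul _ (sw_dv _ hG)))).integrableOn
      (sw_int (mu' (sw_conj (sw_cmul _ (sw_dv _ hF))) hG)).integrableOn, ← integral_const_mul]
    congr 1
    funext p
    simp only [map_mul, map_neg, Complex.conj_I]
    ring
  rw [e, mul_left_comm, ← this, ← integral_add (log_int (mu' (sw_conj hF) (s hG)))
    (log_int (mu' (sw_conj (s hF)) hG)), ← integral_const_mul]
  congr 1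
  funext p
  rw [← mul_add, mul_left_comm (-I)]
  congr 1
  simp only [pd_add (sw_smooth (s1 _)) (sw_smooth (sw_cmul _ (s2 _))),
    Sy.pd_cmul _ (sw_smooth (s2 _)), pd_mul (sw_smooth (sw_conj hF)) (sw_smooth (sw_jm _ hG)),
    pd_mul (sw_smooth (sw_conj (sw_jm _ hF))) (sw_smooth hG), pd_conj _ hF,
    pd_conj _ (sw_jm _ hF), Fin.sum_univ_four]
  generalize pd 0 (jm 0 F) p = a0
  generalize pd 1 (jm 1 F) p = a1
  generalize pd 2 (jm 2 F) p = a2
  generalize pd 3 (jm 3 F) p = a3
  generalize pd 0 (jm 0 G) p = b0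
  generalize pd 1 (jm 1 G) p = b1
  generalize pd 2 (jm 2 G) p = b2
  generalize pd 3 (jm 3 G) p = b3
  simp only [jm, dv, be_eq, Fin.sum_univ_four]
  simp [eta, o, va]
  ring

/-- the flat form -/
def N0 (f g : Fn) : ℂ := ∫ p in Fc, conj (ft f p) * ft g p

theorem N0_tr (f g : Fn) (a : V) : N0 (fun z => f (z + a)) (fun z => g (z + a)) = N0 f g := by
  refine integral_congr_ae (.of_forall fun p => ?_)
  simp only [ft_tsl, map_mul, ← Complex.exp_conj, map_neg, Complex.conj_I, Complex.conj_ofReal]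
  rw [mul_mul_mul_comm, ← Complex.exp_add]
  simp

theorem N0_int {f g : Fn} (hf : IsTest f) (hg : IsTest g) :
    IntegrableOn (fun p => conj (ft f p) * ft g p) Fc :=
  (sw_int (sw_mul (sw_temp (sw_conj (test_ft hf))) (test_ft hg))).integrableOn

theorem N0_sub {f g k : Fn} (hf : IsTest f) (hg : IsTest g) (hk : IsTest k) :
    N0 f (fun z => g z - k z) = N0 f g - N0 f k := by
  simp only [N0, ft_sub hg hk, mul_sub]
  exact integral_sub (N0_int hf hg) (N0_int hf hk)

theorem N0_sub' {f g k : Fn} (hf : IsTest f) (hg : IsTest g) (hk : IsTest k) :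
    N0 (fun z => g z - k z) f = N0 g f - N0 k f := by
  simp only [N0, ft_sub hg hk, map_sub, sub_mul]
  exact integral_sub (N0_int hg hf) (N0_int hk hf)

theorem ind {α β : ℂ} (h : ∀ f g, In {z | be z < 0} f → In {z | be z < 0} g →
    α * N0 f (fun z => (be z : ℝ) * g z) + β * N0 (fun z => (be z : ℝ) * f z) g = 0) :
    α = 0 ∧ β = 0 := by
  have t {f : Fn} (hf : In {z | be z < 0} f) : In {z | be z < 0} fun z => f (z + vb) :=
    in_mono (in_tr vb hf) fun z hz => by
      simp only [mem_preimage, mem_setOf_eq, be_add, be_vb] at hz ⊢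
      linarith
  have e (f : Fn) : (fun z => ((be z : ℝ) : ℂ) * f (z + vb)) =
      fun z => (fun z => ((be z : ℝ) : ℂ) * f z - f z) (z + vb) := by
    funext z
    simp only [be_add, be_vb]
    push_cast
    ring
  have k (f g) (hf : In {z | be z < 0} f) (hg : In {z | be z < 0} g) : (α + β) * N0 f g = 0 := by
    have a := h _ _ (t hf) (t hg)
    rw [e, e, N0_tr f (fun z => ((be z : ℝ) : ℂ) * g z - g z),
      N0_tr (fun z => ((be z : ℝ) : ℂ) * f z - f z) g, N0_sub hf.1 (test_be hg.1) hg.1, N0_sub' hg.1 (test_be hf.1) hf.1] at a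
    linear_combination h f g hf hg - a
  obtain ⟨f, hf, ne⟩ := Sy.ne
  have hb := in_rmul smooth_be hf
  have n : N0 f (fun z => (be z : ℝ) * f z) - N0 (fun z => (be z : ℝ) * f z) f ≠ 0 :=
    sub_ne_zero.2 ne
  have s : α + β = 0 := (mul_eq_zero.1 (by linear_combination k _ _ hf hb - k _ _ hb hf)).resolve_right n
  have a : α = 0 := (mul_eq_zero.1 (by
    linear_combination h f f hf hf - N0 (fun z => (be z : ℝ) * f z) f * s)).resolve_right n
  exact ⟨a, by linear_combination s - a⟩

end Syl

theorem syml_row : SYML where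
  int f hf := Syl.log_int hf
  log f g hf hg := by
    simp only [Sy.ft_Kc hf, Sy.ft_Kc hg, ft_be hf, ft_be hg]
    exact Syl.green (test_ft hf) (test_ft hg)
  ind _ _ := Syl.ind

end

end Vale.Agent.P352X.ZZ
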