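import Vale.Agent.P352Z.R.G1.C
import Vale.Agent.P352Z.R.DD
import Vale.Agent.P352Z.R.SYML

/-!
# P352Z: the row NL
-/

set_option linter.all false

noncomputable section

open Set Filter Topology
open scoped SchwartzMap ContDiff

namespace Vale.Agent.P352X.ZZ

open Vale.Agent.P352 Vale.Agent.P352.GF Vale.Agent.P352.H246 Vale.Agent.P352.H755
open Vale.Agent.P352.H15
open UniformSpace (Completion)
open Complex (I)

namespace G1

variable {D : Type*} [NormedAddCommGroup D] [InnerProductSpace ℂ D] {c : Ctx D}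
  {Φ Φ' ν ν' : Fn →ₗ[ℂ] Completion D} {f g : Fn} {u u' : ℝ}

theorem cov_of {ψ : Fn → Completion D} {F : ℝ → Fn → Completion D} {x y : ℝ}
    (e : ∀ u f, In (Hs u) f → ψ f = F u f)
    (lin : ∀ u f g (a : ℂ), In (Hs u) f → In (Hs u) g → F u (f + a • g) = F u f + a • F u g)
    (bd : ∀ u K, IsCompact K → K ⊆ Hs u → BD K fun f => ‖F u f‖)
    (tra : ∀ u a f, In (Hs u) f → Ut c.Q a (F (u - be a) (tr a f)) = F u f)
    (rot : ∀ u w f, In (Hs u) f → Ga c.Q w (F u fun z => f (gap w z)) = F u f)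
    (sca : ∀ u r s f, 0 < r → 0 < s → In (Hs (s * u)) f →
      Usc c.Q r s (F u fun z => f (scp r s z)) = ((r ^ x * s ^ y : ℝ) : ℂ) • ψ f)
    (perp : ∀ u f, In (Hs u) f → inner ℂ c.Om (F u f) = 0) : c.Cov2 ψ x y where
  lin f g a hf hg := by
    obtain ⟨u, h1, h2⟩ := ((ev_adm hf).and (ev_adm hg)).exists
    rw [e u f h1, e u g h2, ← lin u f g a h1 h2]
    exact e u _ (in_add h1 h2 a)
  bd K hK := by
    obtain ⟨u, h⟩ := (ex_hs hK).exists
    exact (bd u K hK h).le (N' := fun f => ‖ψ f‖) hK 1 fun f hf => by simp [e u f (mono hf h)]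
  tra a f hf := by
    obtain ⟨u, h⟩ := (ev_adm hf).exists
    rw [e u f h, ← tra u a f h]
    exact congrArg _ (e _ _ (hs_tr h a (by simp)))
  rot w f hf := by
    obtain ⟨u, h⟩ := (ev_adm hf).exists
    rw [e u f h, e u _ (in_gap h w fun z hz => by simpa [Hs] using hz), rot u w f h]
  sca r s f hr hs hf := by
    obtain ⟨u, h⟩ := (ev_adm hf).exists
    rw [← mul_div_cancel₀ u hs.ne'] at h
    rw [e _ _ (in_scp h hr hs fun z hz => lt_of_mul_lt_mul_left (by simpa [Hs] using hz) hs.le),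
      sca _ r s f hr hs h]
  perp f hf := by
    obtain ⟨u, h⟩ := (ev_adm hf).exists
    rw [e u f h, perp u f h]

variable (t : T2 c) (E : EE c)
include t E

theorem slope (h : C1 c Φ Φ') (hs0 : RS c Φ) : ∃ ν : Fn →ₗ[ℂ] Completion D, c.Cov2 ν (-1) (-1) ∧ ∀ u u' f,
    In (Hs u) f → In (Hs u') f → R c Φ u f - R c Φ u' f = ((u' : ℂ) - u) • ν f := by
  choose! w hw using fun f (hf : In univ f) => (ev_adm hf).exists
  have A : ∀ u u' f, In (Hs u) f → In (Hs u') f →
      R c Φ u f - R c Φ u' f = ((u' : ℂ) - u) • (R c Φ (w f) f - R c Φ (w f + 1) f) :=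
    fun u u' f h1 h2 => by
      have h3 : tsupport f ⊆ Hs (min (min u u') (w f)) := fun z hz => show be z < _ from
        lt_min (lt_min (h1.2.2 hz) (h2.2.2 hz)) ((hw f (all h1)).2.2 hz)
      obtain ⟨lo, l1, l2⟩ := (((ev_hs h1.2.1 h3).filter_mono nhdsWithin_le_nhds).and
        (self_mem_nhdsWithin (s := Iio (min (min u u') (w f))))).exists
      simp only [lt_min_iff] at l2
      obtain ⟨A, B, e⟩ := r_aff t h E ⟨h1.1, h1.2.1, l1⟩ (max (max u u') (w f + 1) + 1)
      have m : ∀ v, lo < v → v ≤ max (max u u') (w f + 1) → _ := fun v a b =>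
        e v ⟨a, b.trans_lt (lt_add_one _)⟩
      rw [m u l2.1.1 (by simp), m u' l2.1.2 (by simp), m (w f) l2.2 (by simp),
        m (w f + 1) (by linarith [l2.2]) (by simp)]
      push_cast
      module
  have C : c.Cov2 (fun f => R c Φ (w f) f - R c Φ (w f + 1) f) (-1) (-1) :=
    cov_of (F := fun u f => R c Φ u f - R c Φ (u + 1) f)
      (fun u f hf => by simp [A u (u + 1) f hf (hs_le hf (by simp))])
      (fun u f g a hf hg => by
        rw [r_lin t h hf hg, r_lin t h (hs_le hf (by simp)) (hs_le hg (by simp))]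
        module)
      (fun u K hK k => bd_sub hK (r_bd t h hK k) (r_bd t h hK fun z hz => (k hz).trans (lt_add_one u)))
      (fun u a f hf => by
        rw [map_sub, r_tra t h hf, sub_add_eq_add_sub, r_tra t h (hs_le hf (by simp))])
      (fun u a f hf => by rw [map_sub, r_rot t h hf, r_rot t h (hs_le hf (by simp))])
      (fun u r s f hr hs hf => by
        have k := hs_le hf (u' := s * (u + 1)) (by linarith)
        have s1 : (s : ℂ) ≠ 0 := Complex.ofReal_ne_zero.2 hs.ne'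
        rw [map_sub, hs0 _ _ _ _ hr hs hf, hs0 _ _ _ _ hr hs k, ← smul_sub, A _ _ f hf k, smul_smul, w1]
        congr 1
        push_cast
        field_simp
        ring)
      fun u f hf => by
        rw [inner_sub_right, r_perp t h hf, r_perp t h (hs_le hf (by simp)), sub_zero]
  obtain ⟨ν, e⟩ := ext_lin (φ := fun f => R c Φ (w f) f - R c Φ (w f + 1) f) C.lin
  exact ⟨ν, cov_congr C e, fun u u' f h1 h2 => by rw [A u u' f h1 h2, e f (all h1)]⟩

theorem step (h : C1 c Φ Φ') (hs0 : RS c Φ) : ∃ ν : Fn →ₗ[ℂ] Completion D, c.Cov2 ν (-1) (-1) ∧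
    ∀ f, In (Hs 0) f → R0 c Φ f = ν (bm f) := by
  obtain ⟨ν, n, A⟩ := slope t E h hs0
  choose! w hw using fun f (hf : In univ f) => (ev_adm hf).exists
  have e : ∀ u f, In (Hs u) f → R c Φ (w f) f - (ν (bm f) - (w f : ℂ) • ν f) =
      R c Φ u f - (ν (bm f) - (u : ℂ) • ν f) := fun u f hf => by
    rw [eq_add_of_sub_eq (A _ _ f (hw f (all hf)) hf)]
    module
  have C : c.Cov2 (fun f => R c Φ (w f) f - (ν (bm f) - (w f : ℂ) • ν f)) (-1) (-2) :=
    cov_of e
      (fun u f g a hf hg => by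
        rw [r_lin t h hf hg, show bm (f + a • g) = bm f + a • bm g from funext fun z => by
          simp [bm]; ring]
        simp only [map_add, map_smul]
        module)
      (fun u K hK k => bd_sub hK (r_bd t h hK k) (bd_sub hK ((cbd n hK).lo lo_bm)
        ((cbd n hK).le hK u fun f _ => by simp [norm_smul])))
      (fun u a f hf => by
        rw [map_sub, map_sub, map_smul, r_tra t h hf, bm_tr, show Ut c.Q a (ν (tr a f)) = _ from
          n.tra a f (all hf), show Ut c.Q a (ν (tr a _)) = _ from n.tra a _ (in_bm (all hf) _),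
          map_sub, map_smul]
        push_cast
        module)
      (fun u a f hf => by
        rw [map_sub, map_sub, map_smul, r_rot t h hf, n.rot a f (all hf),
          ← n.rot a _ (lo_bm.mem (all hf)), show (bm fun z => f (gap a z)) =
            fun z => bm f (gap a z) from funext fun z => by simp [bm]])
      (fun u r s f hr hs hf => by
        have s1 : (s : ℂ) ≠ 0 := Complex.ofReal_ne_zero.2 hs.ne'
        rw [e _ f hf, map_sub, map_sub, map_smul, hs0 _ _ _ _ hr hs hf, n.sca r s f hr hs (all hf),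
          show (bm fun z => f (scp r s z)) = (s : ℂ)⁻¹ • fun z => bm f (scp r s z) from
            funext fun z => by simp [bm]; field_simp, map_smul, map_smul,
          n.sca r s _ hr hs (lo_bm.mem (all hf)), w1, Real.rpow_neg_one, Real.rpow_neg hs.le,
          Real.rpow_two]
        push_cast
        match_scalars <;> field_simp)
      fun u f hf => by
        rw [inner_sub_right, inner_sub_right, inner_smul_right, r_perp t h hf, n.perp f (all hf),
          n.perp _ (lo_bm.mem (all hf))]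
        simp
  refine ⟨ν, n, fun f hf => ?_⟩
  have z := t.zc.zer _ _ _ C (by norm_num) f (all hf)
  rw [e 0 f hf, R, RY, zero_smul, tr_zero, t.grp.ut0] at z
  simpa [sub_eq_zero] using z

omit E in
theorem next (h : C1 c Φ Φ') (n : c.Cov2 ν (-1) (-1)) (n' : c.Cov2 ν' (-1) (-1))
    (e : ∀ f, In (Hs 0) f → R0 c Φ f = ν (bm f)) (e' : ∀ f, In (Hs 0) f → R0 c Φ' f = ν' (bm f)) :
    C1 c ν ν' := by
  refine ⟨cov_p0 n, cov_p0 n', fun r hr f hf => ?_⟩
  obtain ⟨g, hg, rfl⟩ := in_div hf fun z hz => (mem_Rc.1 hz).1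
  obtain ⟨r', r1, k⟩ := ex_rc hg.2.1 hg.2.2
  have k0 : In (Hs 0) g := mono hg fun z hz => (mem_Rc.1 hz).1
  rw [← e g k0, show bar (bm g) = bm (bar g) from funext fun z => by simp [bar, bm], ← e' _ k0.bar,
    R0, R0, Kc_bar (diff hg)]
  exact pr_sub (t.kd.a2 r' r _ _ hr.le r1 (h.pr r' (hr.trans r1) g ⟨hg.1, hg.2.1, k⟩)
    (gn_bo h.cov (all hg)).dm (gn_bo h.cov' (all hg.bar)).dm).1 (h.pr r hr _ ((lo_Kc 2).mem hg))

omit E in
theorem orth {Ψ Ψ' μ : Fn →ₗ[ℂ] Completion D} (h : C1 c Φ Φ') (h' : C1 c Ψ Ψ')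
    (m : c.Cov2 Φ (-1) (-1)) (m' : c.Cov2 Ψ (-1) (-1))
    (n : c.Cov2 ν (-1) (-1)) (n' : c.Cov2 μ (-1) (-1))
    (e : ∀ f, In (Hs 0) f → R0 c Φ f = ν (bm f)) (e' : ∀ f, In (Hs 0) f → R0 c Ψ f = μ (bm f))
    (hf : In univ f) (hg : In univ g) : inner ℂ (Φ f) (μ g) = 0 := by
  obtain ⟨κ, a⟩ := t.zc.cls _ _ m m'
  obtain ⟨κ2, a2⟩ := t.zc.cls _ _ m n'
  have S : ∀ f g, In (Hs 0) f → In (Hs 0) g →
      inner ℂ (ν (bm f)) (Ψ g) + inner ℂ (Φ f) (μ (bm g)) = 0 := fun f g hf hg => by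
    have b := (ug_sk t).symm (h.dm t hf).gn (h'.dm t hg).gn
    have d := t.sym.sym f g (all hf) (all hg)
    rw [← e f hf, ← e' g hg, R0, R0, inner_sub_left, inner_sub_right, inner_smul_left,
      inner_smul_right, b, a _ _ (all ((lo_Kc 2).mem hf)) (all hg),
      a _ _ (all hf) (all ((lo_Kc 2).mem hg)), Complex.conj_I]
    linear_combination -κ * d
  have q : ∀ {A B : Fn →ₗ[ℂ] Completion D} {f g}, c.Cov2 A (-1) (-1) → c.Cov2 B (-1) (-1) →
      In univ f → In univ g → inner ℂ (A (tr vb f)) (B (tr vb g)) = inner ℂ (A f) (B g) :=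
    fun p p' hf hg => by
      rw [← p.tra vb _ hf, ← p'.tra vb _ hg, Ut, inner_unitary (t.grp.uni _ _ _)]
      rfl
  obtain ⟨f0, h0, ne⟩ := t.sym.ne
  have h1 := lo_bm.mem h0
  have b1 := S _ _ (hs_tr h1 vb (by simp)) (hs_tr h0 vb (by simp))
  rw [bm_tr, bm_tr, q n m' (in_bm (all h1) _) (all h0), q m n' (all h1) (in_bm (all h0) _),
    map_sub, map_sub, map_smul, map_smul, be_vb, Complex.ofReal_one, one_smul, one_smul,
    inner_sub_left, inner_sub_right, a2 _ f0 (all h1) (all h0)] at b1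
  have b2 := S _ _ h0 h0
  rw [a2 _ _ (all h0) (all h1)] at b2
  rw [show (fun z => (be z : ℂ) * f0 z) = bm f0 from rfl] at ne
  rw [a2 f g hf hg, (mul_eq_zero.1 (show κ2 * (_ - _) = 0 by
    linear_combination b1 + b2 - S _ _ h1 h0)).resolve_right (sub_ne_zero.2 ne), zero_mul]

theorem main (h : C1 c Φ Φ) (n0 : c.Cov2 Φ (-1) (-1)) (hf : In (Hs 0) f) :
    Gn c.SK (Φ f) (-I • Φ (Kc 2 f)) := by
  obtain ⟨ν, n, a⟩ := step t E h (r_sca0 t h n0)
  have h' := next t h n n a a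
  obtain ⟨μ, m, b⟩ := step t E h' (r_sca0 t h' n)
  have k := all (lo_bm.mem hf)
  have z := (a f hf).trans (inner_self_eq_zero.1 (orth t h' h n n0 m n b a k k))
  rw [← sub_eq_zero.1 z, neg_I_I]
  exact (h.dm t hf).gn

omit t E in
theorem ex0_two {E : Type*} [AddCommGroup E] [Module ℂ E] {N : ℕ} (hN : 1 ≤ N) (l : ℝ) {x : ℕ → E}
    (h : ∀ i, 2 ≤ i → x i = 0) : ex0 N l x = x 0 + (l : ℂ) • x 1 := by
  obtain ⟨N, rfl⟩ := Nat.exists_eq_add_of_le' hN
  rw [ex0, Finset.sum_range_succ', Finset.sum_range_succ', Finset.sum_eq_zero fun i _ => by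
    rw [h _ (by omega), smul_zero]]
  simp [add_comm]

variable [Fact c.can]

omit E in
theorem c1_sg (d : DD c) (j : ℕ) :
    ∃ Φ : Fn →ₗ[ℂ] Completion D, (∀ f, In univ f → Φ f = c.sg j f) ∧ C1 c Φ Φ := by
  have p := Dd.p0_sg t.grp j
  obtain ⟨Φ, e⟩ := ext_lin p.lin
  exact ⟨Φ, e, p.congr e, p.congr e, fun r hr f hf => by
    rw [e f (all hf), e _ (all hf.bar)]
    exact d j va vb r 0 f null_va null_vb md_ab hr hf⟩

omit E in
theorem sg_sc (j : ℕ) {r s : ℝ} (hr : 0 < r) (hs : 0 < s) (hf : GF.IsTest f) :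
    Usc c.Q r s (ex0 c.k (Real.log √(r * s)) fun i => c.sg (j + i) fun z => f (scp r s z)) =
      ((r : ℂ)⁻¹ * (s : ℂ)⁻¹) • c.sg j f := by
  have k := Dd.sg_cov (c := c) j 0 (Real.sqrt_pos.2 (mul_pos hr hs)) (t.grp.lsc r s hr hs).1 hf
  simp only [(t.grp.lsc r s hr hs).2] at k
  rw [Usc, k, ← Complex.ofReal_pow, Real.sq_sqrt (mul_pos hr hs).le, Complex.ofReal_mul, mul_inv]

/-- the top logarithm vanishes -/
theorem down (d : DD c) {m : ℕ} (hm : ∀ j f, m + 1 < j → GF.IsTest f → c.sg j f = 0)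
    (hf : GF.IsTest f) : c.sg (m + 1) f = 0 := by
  rcases lt_or_ge c.k (m + 1) with hk | hk
  · exact c.hC.pot.top _ f hk hf
  obtain ⟨T, eT, hT⟩ := c1_sg t d (m + 1)
  obtain ⟨S, eS, hS⟩ := c1_sg t d m
  have sT : ∀ r s f, 0 < r → 0 < s → In univ f →
      Usc c.Q r s (T fun z => f (scp r s z)) = ((r : ℂ)⁻¹ * (s : ℂ)⁻¹) • T f :=
    fun r s f hr hs hf => by
      have k := in_scp hf hr hs (O' := univ) fun _ _ => trivial
      rw [eT _ k, eT f hf, ← sg_sc t (m + 1) hr hs hf.1,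
        Two.ex0_top _ fun i hi => hm _ _ (by omega) k.1]
  have nT : c.Cov2 T (-1) (-1) := ⟨hT.cov.lin, hT.cov.bd, hT.cov.tra, hT.cov.rot,
    fun r s f hr hs hf => by rw [w1, sT r s f hr hs hf], hT.cov.perp⟩
  have gT := fun f => main t E hT nT (f := f)
  obtain ⟨ν, n, a⟩ := step t E hS (r_sca t hS gT fun r s hr hs =>
    ⟨-(Real.log √(r * s) : ℝ), fun f hf => by
      have k := in_scp hf hr hs (O' := univ) fun _ _ => trivial
      have e := sg_sc t m hr hs hf.1
      rw [ex0_two (by omega) _ fun i hi => hm _ _ (by omega) k.1, add_zero, ← eT _ k, ← eS _ k,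
        ← eS f hf, map_add, map_smul, sT r s f hr hs hf] at e
      rw [eq_sub_of_add_eq e]
      module⟩)
  obtain ⟨κ, hκ⟩ := t.zc.cls _ _ nT n
  obtain ⟨c0, α, -, ov⟩ := ovl_thm c m hm
  have z := (syml_row.ind (c0 + κ) c0 fun f g hf hg => by
    have b := (ug_sk t).symm (gT f hf) (hS.dm t hg).gn
    have kf := all ((lo_Kc 2).mem hf)
    have kg := all ((lo_Kc 2).mem hg)
    have e1 := congrArg (inner ℂ (T f)) (a g hg)
    rw [R0, inner_sub_right, inner_smul_right, b, inner_smul_left, hκ _ _ (all hf)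
      (all (lo_bm.mem hg)), eT _ kf, eT _ (all hf), eS _ kg, eS _ (all hg),
      (ov _ _ kf.1 hg.1).2.2, (ov _ _ hf.1 kg.1).2.2, map_neg, Complex.conj_I, neg_neg,
      ← mul_assoc, Complex.I_mul_I] at e1
    have e2 := syml_row.log f g hf.1 hg.1
    have e3 := t.sym.sym f g (all hf) (all hg)
    unfold P352X.G1.bm at e1
    linear_combination -e1 + (c0 / 2 : ℂ) * e2 - α * e3).2
  rw [← inner_self_eq_zero (𝕜 := ℂ), (ov f f hf hf).1, z, zero_mul]

end G1

/-- **Row NL.** -/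
theorem nl_row {D : Type*} [NormedAddCommGroup D] [InnerProductSpace ℂ D] (c : Ctx D)
    [Fact c.can] (t : T3 c) (d : DD c) (E : EE c) : NL c := by
  have k : ∀ n m, c.k ≤ m + n → ∀ j f, m < j → GF.IsTest f → c.sg j f = 0 := fun n => by
    induction n with
    | zero => exact fun m h j f hj hf => c.hC.pot.top j f (by omega) hf
    | succ n ih =>
      intro m h j f hj hf
      have q := ih (m + 1) (by omega)
      rcases (Nat.succ_le_of_lt hj).eq_or_lt with rfl | hj
      · exact G1.down t.toT2 E d q hf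
      · exact q j f hj hf
  exact fun j f hj => k c.k 0 (by omega) j f hj

end Vale.Agent.P352X.ZZ
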