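import Vale.Agent.P352X.R.PW
import Vale.Agent.P352Z.R.PW.A

/-!
# P352Z, row PW: Ward identities on the null plane, for fields
-/

set_option linter.all false

open MeasureTheory Filter Topology Set
open scoped SchwartzMap ComplexConjugate ENNReal ContDiff

namespace Vale.Agent.P352X.ZZ

open Vale.Agent.P352 Vale.Agent.P352.GF Vale.Agent.P352.BW Vale.Agent.P352.H246
open Vale.Agent.P352.H496 Vale.Agent.P352.H755 Vale.Agent.P352.H15
open UniformSpace (Completion)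
open Complex (I)

noncomputable section

namespace Pw

export Vale.Agent.P352X.Pw (Stp ex_stp Xi smooth_Xi dr_Xi cone2 chg lim0)
open Ev

lemma sep {f : Fn} {R t1 L u0 : ℝ} {g : P3 → ℝ} {φ : ℝ → ℝ} (hL0 : 0 < L) (hL : R < t1 * L)
    (hf : ∀ y ∈ tsupport f, ‖y‖ ≤ R ∧ u0 < be y) (hg : tsupport g ⊆ {y | t1 ≤ y.1})
    (hφ : tsupport φ ⊆ Iic u0) (h : V) (Z) (m n : Ix) :
    Sep (hZ h Z (pr (kL g L) φ) m n) (bar f) := fun x hx y hy => by
  obtain ⟨a1, a2⟩ := Ap.tsupport_pr _ _ (tsupport_mul_subset_right hx)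
  have a3 : t1 ≤ al x / L := hg (Ap.tsupport_kL _ _ a1)
  have a4 : be x ≤ u0 := hφ a2
  obtain ⟨a5, a6⟩ := hf y (Ap.tsupport_bar f ▸ hy)
  rw [le_div_iff₀ hL0] at a3
  change mu (x - y) < 0
  rw [mu_eq, al_sub, be_sub]
  have a7 : 0 < al x - al y := by linarith [le_abs_self (al y), abs_al_le y]
  nlinarith [d2_nonneg (tx (x - y)), mul_pos a7 (show 0 < be y - be x by linarith)]

lemma in_hZ {X Z} (hZ' : Imp X Z) (h : V) {O : Set V} {g : Fn} (hg : In O g) : InF O (hZ h Z g) :=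
  fun m n => Ap.in_rmul (ContDiff.sum fun k _ => contDiff_const.mul (hZ'.sm k m n)) hg

variable {D : Type*} [NormedAddCommGroup D] [InnerProductSpace ℂ D] {c : Ctx D}

/-- the plane charge, for profiles of integral one -/
theorem core {W X Z} (hc : CHZ c X Z) (g : GRP c) (K : Gen.Fl c W X) (hs : Imp X Z)
    (hd : Dec c Z) {u0 : ℝ} {f1 f3 : Fn} {κ : P3 → ℝ} {ρ : ℝ → ℝ}
    (hu : 0 < u0) (h1 : In {z | u0 < be z} f1) (h3 : In {z | be z < -u0} f3) (hκ : Cut κ)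
    (hρ : Tst ρ) (hρ' : tsupport ρ ⊆ Ioo (-u0) u0) (hi : ∫ t, ρ t = 1) :
    Tendsto (fun L => Ph c f1 f3 (hZ va Z (pr (kL κ L) ρ))) atTop
      (𝓝 (inner ℂ (c.Th (bar f1)) (gen W (c.Th f3)))) := by
  obtain ⟨R, hR, hb⟩ := (h1.2.1.isCompact.union h3.2.1.isCompact).isBounded.subset_closedBall_lt 0 0
  obtain ⟨ε, ε0, hε⟩ := Metric.eventually_nhds_iff.1 hκ.2
  obtain ⟨P, hP⟩ := ex_stp hρ hρ' hi
  have hM : 0 < u0 + 2 * R := by positivity
  obtain ⟨t1, t0, e1, e2⟩ : ∃ t1, 0 < t1 ∧ 2 * t1 < ε ∧ 16 * t1 * (u0 + 2 * R) < ε ^ 2 := by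
    refine ⟨min (ε / 4) (ε ^ 2 / (32 * (u0 + 2 * R))), by positivity,
      by linarith [min_le_left (ε / 4) (ε ^ 2 / (32 * (u0 + 2 * R)))], ?_⟩
    have := min_le_right (ε / 4) (ε ^ 2 / (32 * (u0 + 2 * R)))
    rw [le_div_iff₀ (by positivity)] at this
    nlinarith [pow_pos ε0 2]
  obtain ⟨s, s1, s2, s3, -⟩ := Ap.ex_step (show t1 < 2 * t1 by linarith)
  obtain ⟨θ, hθ, -, θ1, -⟩ := Ap.ex_chi (isCompact_Icc (a := -(u0 + 2 * R)) (b := u0 + 2 * R))
    isOpen_univ (subset_univ _)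
  set k : ℝ → ℝ := fun t => 1 - s t
  have hk' : ContDiff ℝ ∞ k := contDiff_const.sub s1
  have k1 : ∀ t, t ≤ t1 → k t = 1 := fun t ht => by simp [k, s2 t ht]
  have k0 : ∀ t, 2 * t1 ≤ t → k t = 0 := fun t ht => by simp [k, s3 t ht]
  set φ : ℝ → ℝ := fun t => (1 - P t) * θ t
  have hφ : Tst φ := Ap.cs_mul_l (contDiff_const.sub hP.sm) hθ
  have sφ : tsupport φ ⊆ Iic u0 := Ap.tsupp_sub isClosed_Iic fun t ht => by_contra fun h =>
    ht (by simp [φ, hP.hi t (not_le.1 h).le])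
  have g1 : Tst fun y : P3 => κ y * k y.1 := Ap.cs_mul_r hκ.1 (hk'.comp contDiff_fst)
  have g2 : Tst fun y : P3 => κ y * deriv k y.1 :=
    Ap.cs_mul_r hκ.1 ((contDiff_infty_iff_deriv.1 hk').2.comp contDiff_fst)
  have g3 : Tst fun y : P3 => κ y * s y.1 := Ap.cs_mul_r hκ.1 (s1.comp contDiff_fst)
  have cl : IsClosed {y : P3 | t1 ≤ y.1} := isClosed_le continuous_const continuous_fst
  have u2 : tsupport (fun y : P3 => κ y * deriv k y.1) ⊆ {y | t1 ≤ y.1} :=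
    Ap.tsupp_sub cl fun y hy => by_contra fun h => right_ne_zero_of_mul hy (by
      rw [EventuallyEq.deriv_eq (f := fun _ => 1) (mem_of_superset (Iio_mem_nhds (not_le.1 h))
        fun t ht => k1 t (le_of_lt ht)), deriv_const])
  have u3 : tsupport (fun y : P3 => κ y * s y.1) ⊆ {y | t1 ≤ y.1} :=
    Ap.tsupp_sub cl fun y hy => by_contra fun h =>
      right_ne_zero_of_mul hy (s2 _ (not_le.1 h).le)
  have tt : ∀ h {g : P3 → ℝ} {ρ : ℝ → ℝ} {L}, Tst g → Tst ρ → 0 < L →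
      TT (hZ h Z (pr (kL g L) ρ)) := fun h g ρ L a b hL =>
    (in_hZ hs h (Ap.in_univ (Ap.dc_pr (Ap.tst_kL a hL) b))).tt
  have re : ∀ h (g : P3 → ℝ) (ρ : ℝ → ℝ) m n, bar (hZ h Z (pr g ρ) m n) = hZ h Z (pr g ρ) m n :=
    fun h g ρ m n => funext fun x => by simp [bar, hZ, pr]
  have l1 := lim0 (r := fun _ => 1) (by simpa only [one_mul] using (hd _ _ g1 hρ).1)
    fun _ _ => zero_le_one
  have l2 := lim0 (hd _ _ g2 hφ).2 fun L hL => (inv_pos.2 hL).le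
  have l3 := lim0 (r := fun _ => 1) (by simpa only [one_mul] using (hd _ _ g3 hρ).1)
    fun _ _ => zero_le_one
  have l := (((tendsto_const_nhds (x := ((c.Thf (bar f3) (c.Thf (bar f1) c.Q.vac) : D) :
    Completion D))).inner (𝕜 := ℂ) (l1.sub l2)).add_const
      (inner ℂ (c.Th (bar f1)) (gen W (c.Th f3)))).add ((l2.add l3).inner (𝕜 := ℂ)
        (tendsto_const_nhds (x := ((c.Thf f1 (c.Thf f3 c.Q.vac) : D) : Completion D))))
  simp only [sub_zero, add_zero, inner_zero_left, inner_zero_right, zero_add] at l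
  refine l.congr' ?_
  filter_upwards [eventually_gt_atTop 0, eventually_gt_atTop (R / t1)] with L hL0 hL
  rw [div_lt_iff₀' t0] at hL
  have hf : ∀ y ∈ tsupport f1, ‖y‖ ≤ R ∧ u0 < be y := fun y hy =>
    ⟨mem_closedBall_zero_iff.1 (hb (.inl hy)), h1.2.2 hy⟩
  have ch := chg hu hR (fun y hy => ⟨mem_closedBall_zero_iff.1 (hb (.inr hy)), h3.2.2 hy⟩) hκ.1
    (fun y hy => hε (by rwa [dist_zero_right])) hP hk' k1 k0 hθ θ1 hL0 hL e1 e2
  have θρ : ∀ t, θ t * ρ t = ρ t := fun t => by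
    by_cases h : t ∈ tsupport ρ
    · rw [(θ1 t ⟨by linarith [(hρ' h).1], by linarith [(hρ' h).2]⟩).self_of_nhds, one_mul]
    · rw [image_eq_zero_of_notMem_tsupport h, mul_zero]
  have q1 : dZ (fun z => kL κ L (pl z) * θ (be z)) (Xi P k L) Z = fun m n x =>
      hZ va Z (pr (kL (fun y => κ y * k y.1) L) ρ) m n x +
        (-(L⁻¹ : ℝ) : ℂ) * hZ vb Z (pr (kL (fun y => κ y * deriv k y.1) L) φ) m n x := by
    funext m n x
    simp only [dZ, hZ, pr, kL, dr_Xi hP.der (hk'.differentiable (by simp)), pl_1, φ,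
      Fin.sum_univ_four]
    simp only [← Complex.ofReal_mul, ← Complex.ofReal_neg, ← Complex.ofReal_add]
    congr 1
    linear_combination (κ (al x / L, (Real.sqrt L)⁻¹ • (pl x).2) * k (al x / L) *
      (eta 0 * va 0 * Z 0 m n x + eta 1 * va 1 * Z 1 m n x + eta 2 * va 2 * Z 2 m n x +
        eta 3 * va 3 * Z 3 m n x)) * θρ (be x)
  have q0 := (tt va g1 hρ hL0).lin (tt vb g2 hφ hL0) (-(L⁻¹ : ℝ) : ℂ)
  have q2 : hZ va Z (pr (kL κ L) ρ) = fun m n x => hZ va Z (pr (kL (fun y => κ y * k y.1) L) ρ)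
      m n x + 1 * hZ va Z (pr (kL (fun y => κ y * s y.1) L) ρ) m n x := by
    funext m n x
    simp only [hZ, pr, kL, k]
    push_cast
    ring
  have w := ward (f1 := f1) hc g K h3.1 h3.2.1 ch (q1 ▸ q0)
  rw [q1, Ph_lin c _ _ (tt va g1 hρ hL0) (tt vb g2 hφ hL0),
    Tv_lin c (tt va g1 hρ hL0) (tt vb g2 hφ hL0),
    Ph_sep c h1.1 (tt vb g2 hφ hL0) (re _ _ _) (sep hL0 hL hf u2 sφ _ _)] at w
  rw [q2, Ph_lin c _ _ (tt va g1 hρ hL0) (tt va g3 hρ hL0), Ph_sep c h1.1 (tt va g3 hρ hL0)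
    (re _ _ _) (sep hL0 hL hf u3 (hρ'.trans fun t ht => ht.2.le) _ _)]
  simp only [Complex.ofReal_one, one_smul, inner_add_left, inner_smul_left, Complex.conj_ofReal,
    neg_smul, ← sub_eq_add_neg] at w ⊢
  linear_combination -w

/-- the plane charge -/
theorem core' {W X Z} (hc : CHZ c X Z) (g : GRP c) (K : Gen.Fl c W X) (hs : Imp X Z)
    (hd : Dec c Z) {u0 : ℝ} {f1 f3 : Fn} {κ : P3 → ℝ} {ρ : ℝ → ℝ}
    (h1 : In {z | u0 < be z} f1) (h3 : In {z | be z < -u0} f3) (hκ : Cut κ)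
    (hρ : Tst ρ) (hρ' : tsupport ρ ⊆ Ioo (-u0) u0) :
    Tendsto (fun L => Ph c f1 f3 (hZ va Z (pr (kL κ L) ρ))) atTop
      (𝓝 ((∫ t, ρ t : ℝ) * inner ℂ (c.Th (bar f1)) (gen W (c.Th f3)))) := by
  have tt : ∀ {ρ : ℝ → ℝ} {L}, Tst ρ → 0 < L → TT (hZ va Z (pr (kL κ L) ρ)) :=
    fun b hL => (in_hZ hs va (Ap.in_univ (Ap.dc_pr (Ap.tst_kL hκ.1 hL) b))).tt
  rcases le_or_gt u0 0 with hu | hu
  · have e : ρ = fun _ => 0 := funext fun t => image_eq_zero_of_notMem_tsupport fun h => by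
      linarith [(hρ' h).1, (hρ' h).2]
    subst e
    simp only [integral_zero, Complex.ofReal_zero, zero_mul]
    refine tendsto_const_nhds.congr' ?_
    filter_upwards [eventually_gt_atTop 0] with L hL
    have := Ph_lin c f1 f3 (tt hρ hL) (tt hρ hL) 1
    rw [show (fun m n x => hZ va Z (pr (kL κ L) fun _ => 0) m n x + 1 * hZ va Z
      (pr (kL κ L) fun _ => 0) m n x) = hZ va Z (pr (kL κ L) fun _ => 0) from
        funext fun m => funext fun n => funext fun x => by simp [hZ, pr]] at this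
    linear_combination this
  obtain ⟨ρ0, a1, a2, -, a3⟩ := Ap.ex_rho volume (Ioo_mem_nhds (neg_lt_zero.2 hu) hu)
  set m := ∫ t, ρ t
  have b1 : Tst fun t => ρ t + (1 - m) * ρ0 t := Ap.cs_add hρ (Ap.cs_cmul _ a1)
  have l1 := core hc g K hs hd hu h1 h3 hκ b1 ((tsupport_add _ _).trans (union_subset hρ'
    (tsupport_mul_subset_right.trans a2))) (by
      rw [integral_add (Ap.cs_int hρ) (Ap.cs_int (Ap.cs_cmul _ a1)), integral_const_mul, a3]
      ring)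
  have l := l1.add ((core hc g K hs hd hu h1 h3 hκ a1 a2 a3).const_mul ((m : ℂ) - 1))
  rw [← one_add_mul, add_sub_cancel] at l
  refine l.congr' ?_
  filter_upwards [eventually_gt_atTop 0] with L hL
  rw [← Ph_lin c f1 f3 (tt b1 hL) (tt a1 hL)]
  congr 1
  funext m n x
  simp only [hZ, pr]
  push_cast
  ring

theorem pw [Fact c.can] (g : GRP c) : PW c := fun u0 f1 f3 κ ρ h1 h3 hκ hρ hρ' => by
  have l0 := core' (chz c (sim_const _) (imp_P _)) g (Gen.fl_ut c va) (imp_P _) (dec_a g)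
    h1 h3 hκ hρ hρ'
  simp only [hZ_P] at l0
  refine ⟨l0, fun i => ?_⟩
  have l := (core' (chz c (sim_M i) (imp_M i)) g (Gen.fl_mi g i) (imp_M i) (dec_M g i)
    h1 h3 hκ hρ hρ').sub (core' (chz c (sim_const _) (imp_P _)) g (Gen.fl_ut c (ex i)) (imp_P _)
      (dec_e g i) h1 h3 hκ (tst_t hρ) (tsupport_mul_subset_right.trans hρ'))
  refine l.congr' ?_
  filter_upwards [eventually_gt_atTop 0] with L hL
  have t := Ap.tst_kL hκ.1 hL
  rw [hZ_Ma, hZ_P, hX_M, Ph_lin c f1 f3 (TT_hk _ _ t (tst_t hρ)) (TT_hk _ _ (tst_x t i) hρ), one_mul]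
  exact add_sub_cancel_left _ _

end Pw

theorem pw_row {D : Type*} [NormedAddCommGroup D] [InnerProductSpace ℂ D] (c : Ctx D) :
    GRP c → c.can → PW c := fun g h => haveI : Fact c.can := ⟨h⟩; Pw.pw g

end

end Vale.Agent.P352X.ZZ
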