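import Vale.Agent.P352Z.R.RES.Link
import Vale.Agent.P352Z.R.RES.Coc
import Vale.Agent.P352Z.R.RES.Alg

/-!
# P352Z, row RES
-/

set_option linter.all false

namespace Vale.Agent.P352X.ZZ

open RS in
/-- row RES -/
theorem res_row {D : Type*} [NormedAddCommGroup D] [InnerProductSpace ℂ D] (c : Ctx D) [Fact c.tp] :
    T3 c → RES c := fun t => link_row fun _ h h1 =>
  coc_row (red_row h h1) (divc_row t h) (diva_row t h h1) Alg.alg1_row Alg.alg2_row

end Vale.Agent.P352X.ZZ
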