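import Vale.Agent.P352X.R.STRUCT
import Vale.Agent.P352Z.Spec

/-!
# P352Z, row STRUCT: the contact terms of the two divergences (helper20)
-/

set_option linter.all false

noncomputable section

open Filter Topology Set Metric
open scoped SchwartzMap ContDiff LineDeriv

namespace Vale.Agent.P352X.ZZ

namespace Stz

open Vale.Agent.P352 Vale.Agent.P352.GF Vale.Agent.P352.BW Api4 Grp Vale.Agent.P352X.Str
open UniformSpace (Completion)

variable {D : Type*} [NormedAddCommGroup D] [InnerProductSpace ℂ D] {Q : Theory D}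
  {T : Ix → Ix → Fld D} {e : Bool} {w : I2 → I2 → S2 →L[ℂ] Completion D}

lemma fld_lin' {B : Fld D} (hB : Q.fld B) {f : Fn} (hf : GF.IsTest f) {ι : Type*} (t : Finset ι)
    (a : ι → ℂ) (v : ι → D) : B f (∑ i ∈ t, a i • v i) = ∑ i ∈ t, a i • B f (v i) := by
  obtain ⟨B', -, h⟩ := Q.adj B hB
  exact ext_inner_right ℂ fun u => by simp only [sum_inner, inner_smul_left, h f _ u hf]

lemma coe_sum' {ι : Type*} (t : Finset ι) (a : ι → ℂ) (v : ι → D) :
    ((∑ i ∈ t, a i • v i : D) : Completion D) = ∑ i ∈ t, a i • (v i : Completion D) := by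
  rw [coe_sum]
  simp only [Completion.coe_smul]

/-- field equations of first order hold in the first slot off the diagonal -/
theorem off (hT : ∀ m n, Q.fld (T m n)) (h : TP2 Q T e w) {ι : Type} [Fintype ι] (a : ι → ℂ)
    (K : ι → I2) (m : ι → Ix)
    (h0 : ∀ f v, GF.IsTest f → ∑ i, a i • T (K i).1 (K i).2 (pd (m i) f) v = 0) (J : I2)
    {Λ : S2 →L[ℂ] Completion D}
    (hΛ : ∀ G, Λ G = ∑ i, a i • w (K i) J (∂_{((bas (m i) 1, 0) : V × V)} G)) : Off Λ := by
  refine fun G hG => ST.ker2_local _ G fun q hq => ?_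
  obtain ⟨δ, d0, d⟩ := late_near (x := q.1) (y := q.2) fun a => hG q.1 (by
    rwa [show (q.1, q.1) = q from Prod.ext rfl a])
  refine ⟨δ, d0, fun f g _ _ s1 s2 => ?_⟩
  have s3 := fun m : Ix => (SchwartzMap.tsupport_lineDerivOp_subset (bas m 1 : V) f).trans s1
  have c1 : ∀ v : D, ∑ i, a i • T (K i).1 (K i).2 (ev (∂_{(bas (m i) 1 : V)} f)) v = 0 :=
    fun v => by simpa only [pd_ev] using h0 (ev f) v ⟨f, rfl⟩
  have a1 : ∑ i, a i • ((T (K i).1 (K i).2 (ev (∂_{(bas (m i) 1 : V)} f))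
      (T J.1 J.2 (ev g) Q.vac) : D) : Completion D) = 0 := by
    rw [← coe_sum', c1, Completion.coe_zero]
  have a2 : ∑ i, a i • ((T J.1 J.2 (ev g) (T (K i).1 (K i).2 (ev (∂_{(bas (m i) 1 : V)} f))
      Q.vac) : D) : Completion D) = 0 := by
    rw [← coe_sum', ← fld_lin' (hT _ _) ⟨g, rfl⟩, c1, ← Finset.sum_empty (f := fun _ : Ix => 0),
      fld_lin (hT _ _) ⟨g, rfl⟩, Finset.sum_empty, Completion.coe_zero]
  rw [hΛ]
  rcases d with d | d
  · rw [Finset.sum_congr rfl fun i _ => congrArg (a i • ·) (h.fac (K i) J _ g _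
      (d_tens (m i) f g) fun a ha b hb => d a (s3 _ ha) b (s2 hb))]
    cases e
    exacts [a2, a1]
  · rw [Finset.sum_congr rfl fun i _ => congrArg (a i • ·) ((h.swap (K i) J _
      (ST.tens g (∂_{(bas (m i) 1 : V)} f))
      fun x y => (mul_comm _ _).trans (d_tens (m i) f g y x).symm).trans
        (h.fac J (K i) g _ _ (fun _ _ => rfl) fun a ha b hb => d a (s2 ha) b (s3 _ hb)))]
    cases e
    exacts [a1, a2]

/-- covariant families of dimension `1 + 4 + 4` -/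
def Cv (Q : Theory D) {ι : Type} [Fintype ι] (R : (Ix → V) → ι → ι → ℝ)
    (Λ : ι → S2 →L[ℂ] Completion D) : Prop :=
  ∀ s L a (hs : 0 < s) (hL : IsLor L) i F, ∃ κ : ℂ, Λ i F =
    ∑ j, ((s⁻¹ * R L j i : ℝ) : ℂ) • Ug Q s L a (Λ j (sim2 hs hL a F)) + κ • om Q

section cv

variable {ι : Type} [Fintype ι] {R : (Ix → V) → ι → ι → ℝ} {Λ Λ' : ι → S2 →L[ℂ] Completion D}

lemma Cv.add (h : Cv Q R Λ) (h' : Cv Q R Λ') : Cv Q R fun i => Λ i + Λ' i :=
  fun s L a hs hL i F => by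
    obtain ⟨κ, k⟩ := h s L a hs hL i F
    obtain ⟨κ', k'⟩ := h' s L a hs hL i F
    refine ⟨κ + κ', ?_⟩
    simp only [ContinuousLinearMap.add_apply, map_add, smul_add, Finset.sum_add_distrib, add_smul]
    rw [k, k']
    abel

lemma Cv.sub (h : Cv Q R Λ) (h' : Cv Q R Λ') : Cv Q R fun i => Λ i - Λ' i :=
  fun s L a hs hL i F => by
    obtain ⟨κ, k⟩ := h s L a hs hL i F
    obtain ⟨κ', k'⟩ := h' s L a hs hL i F
    refine ⟨κ - κ', ?_⟩
    simp only [ContinuousLinearMap.sub_apply, map_sub, smul_sub, Finset.sum_sub_distrib, sub_smul]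
    rw [k, k']
    abel

lemma Cv.perm (h : Cv Q R Λ) (σ : ι ≃ ι) (hσ : ∀ L j i, R L (σ j) (σ i) = R L j i) :
    Cv Q R fun i => Λ (σ i) := fun s L a hs hL i F => by
  obtain ⟨κ, k⟩ := h s L a hs hL (σ i) F
  refine ⟨κ, ?_⟩
  rw [k, ← σ.sum_comp]
  simp only [hσ]

theorem ct_cov (of : ∀ i, Off (Λ i)) (cv : Cv Q R Λ) {χ : V → ℂ} (hχ : Dc χ)
    (h1 : ∀ᶠ u in 𝓝 (0 : V), χ u = 1) {k M : ℕ} (ε : ι × (Fin k → Ix) ≃ (Fin M → Ix))
    (he : ∀ (L : Ix → V) p q, ∏ i, L (ε p i) (ε q i) = R L p.1 q.1 * ∏ i, L (p.2 i) (q.2 i)) :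
    CovM Q M (5 - k) fun μ =>
      Λ (ε.symm μ).1 ∘L ten2 (sch fun u => mon (ε.symm μ).2 u * χ u) := by
  refine ⟨fun μ s L a f g hs hL hg => ?_⟩
  obtain ⟨⟨n, γ⟩, rfl⟩ := ε.surjective μ
  have dc := fun γ : Fin k → Ix => dc_mul_left (smooth_mon γ) hχ
  refine (cv s L a hs hL n (ten2 (sch fun u => mon γ u * χ u) f)).imp fun κ hκ => ?_
  have key : ∀ j, Λ j (sim2 hs hL a (ten2 (sch fun u => mon γ u * χ u) f)) =
      ∑ ν, ((s ^ k * ∏ i, L (ν i) (γ i) : ℝ) : ℂ) •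
        Λ j (ten2 (sch fun u => mon ν u * χ u) g) := fun j => by
    simp only [← map_smul, ← map_sum]
    refine (of j).congr fun x => ?_
    filter_upwards [near h1 continuous_id rfl x, near h1 (sl hs hL).continuous (map_zero _) x]
      with ⟨y, z⟩ a1 a2
    have : sim s L a y - sim s L a z = sim s L 0 (y - z) := by
      rw [← sl_apply hs hL, map_sub, sl_apply, sl_apply, HM.sim_at s L a, HM.sim_at s L a z]
      abel
    rw [sl_apply] at a2
    simp only [map_smul, sim2_apply, SchwartzMap.sum_apply, SchwartzMap.smul_apply, ten2_apply,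
      sch_apply (dc _), this, a2, show χ (y - z) = 1 from a1, hg, mon_sim, mul_one,
      Finset.sum_mul, smul_eq_mul, mul_assoc]
  rw [← ε.sum_comp, Fintype.sum_prod_type]
  simp only [Equiv.symm_apply_apply, ContinuousLinearMap.comp_apply, he]
  rw [hκ]
  simp only [key, map_sum, map_smul, Finset.smul_sum, smul_smul, ← Ug_apply Q hs hL, add_left_inj]
  refine Finset.sum_congr rfl fun j _ => Finset.sum_congr rfl fun ν _ => ?_
  congr 1
  rw [show (4 - (5 - k) : ℝ) = k - 1 by ring, Real.rpow_sub_one hs.ne', Real.rpow_natCast]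
  push_cast
  ring

/-- **the contact terms of a covariant family that vanishes off the diagonal** -/
theorem contact (of : ∀ i, Off (Λ i)) (cv : Cv Q R Λ) {r : ℕ}
    (ε : ∀ k, ι × (Fin k → Ix) ≃ (Fin (k + r) → Ix))
    (he : ∀ k (L : Ix → V) p q,
      ∏ i, L (ε k p i) (ε k q i) = R L p.1 q.1 * ∏ i, L (p.2 i) (q.2 i)) :
    ∃ (k0 : ℕ) (O : (k : ℕ) → (Fin (k + r) → Ix) → Sch →L[ℂ] Completion D),
      (∀ k, CovM Q (k + r) (5 - k) (O k)) ∧
      (∀ k i (γ : Fin k → Ix) (σ : Equiv.Perm (Fin k)),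
        O k (ε k (i, γ ∘ σ)) = O k (ε k (i, γ))) ∧
      ∀ i (G : S2), HasCompactSupport G → Λ i G = ∑ k ∈ Finset.range (k0 + 1),
        ∑ γ : Fin k → Ix, ((k.factorial : ℂ)⁻¹) • O k (ε k (i, γ)) (dg γ G) := by
  let b : ContDiffBump (0 : V) := ⟨1, 2, one_pos, one_lt_two⟩
  have hχ : Dc (cx b) := dc_cx ⟨b.contDiff, b.hasCompactSupport⟩
  have h1 : ∀ᶠ u in 𝓝 0, cx b u = 1 := b.eventuallyEq_one.mono fun u hu => by
    rw [cx, hu]
    rfl
  choose C N hC hb using fun i => ST.clm_sn_c (Λ i)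
  refine ⟨Finset.univ.sup N, _, fun k => ct_cov of cv hχ h1 (ε k) (he k), fun k i γ σ => ?_,
    fun i G hG => ?_⟩
  · simp only [Equiv.symm_apply_apply]
    rw [show mon (γ ∘ σ) = mon γ from funext fun u => Equiv.prod_comp σ fun i => (u (γ i) : ℂ)]
  · simp only [Equiv.symm_apply_apply, ContinuousLinearMap.comp_apply]
    exact (of i).expand (hC i) (fun f => (hb i f).trans (mul_le_mul_of_nonneg_left
      (ST.sn_mono (Finset.le_sup (Finset.mem_univ _)) f) (hC _))) hχ h1 hG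

end cv

/-! ### the divergence -/

/-- the action on three indices -/
def R3 (L : Ix → V) (j i : Ix × I2) : ℝ := L j.1 i.1 * (L j.2.1 i.2.1 * L j.2.2 i.2.2)

/-- the index `(n, j1, j2, γ)` -/
def e3 (k : ℕ) : (Ix × I2) × (Fin k → Ix) ≃ (Fin (k + 3) → Ix) where
  toFun p := ix3 p.1.1 p.1.2 p.2
  invFun μ := ((μ 0, μ 1, μ 2), fun i => μ i.succ.succ.succ)
  left_inv _ := rfl
  right_inv μ := funext fun i => Fin.cases rfl (Fin.cases rfl (Fin.cases rfl fun _ => rfl)) i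

theorem dv_cv (h : TP2 Q T e w) : Cv Q R3 fun i => dvL w i.1 i.2 := by
  rintro s L a hs hL ⟨n, J⟩ F
  choose κ hκ using fun m => h.cov s L a (m, n) J (∂_{((bas m 1, 0) : V × V)} F) _ hs hL
    (sim2_apply hs hL a _)
  refine ⟨∑ m, κ m, ?_⟩
  rw [Fintype.sum_prod_type]
  simp only [dvL_apply, dv1, hκ, Finset.sum_add_distrib, Finset.sum_smul, d_sim2, map_sum, map_smul,
    Finset.smul_sum, smul_smul, ← Ug_apply Q hs hL, Fintype.sum_prod_type (α₁ := Ix) (f := fun K =>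
      ∑ M, (L2 L K _ * L2 L M J) • _), add_left_inj]
  refine (Finset.sum_congr rfl fun m _ => Finset.sum_comm).trans (Finset.sum_comm.trans
    (Finset.sum_congr rfl fun k _ => ((Finset.sum_congr rfl fun m _ => Finset.sum_comm).trans
      Finset.sum_comm).trans (Finset.sum_congr rfl fun M _ => Finset.sum_comm.trans
        (Finset.sum_congr rfl fun j _ => Finset.sum_congr rfl fun m _ => ?_))))
  congr 1
  have : (s : ℂ) ≠ 0 := by exact_mod_cast hs.ne'
  simp only [L2, R3]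
  push_cast
  field_simp

/-! ### the Bianchi divergence -/

lemma up_sim2 {s : ℝ} {L : Ix → V} (hs : 0 < s) (hL : IsLor L) (a : V) (F : S2) (l : Ix) :
    (eta l : ℂ) • sim2 hs hL a (∂_{((bas l 1, 0) : V × V)} F) =
      ∑ k, ((s⁻¹ * L k l * eta k : ℝ) : ℂ) • ∂_{((bas k 1, 0) : V × V)} (sim2 hs hL a F) := by
  simp only [d_sim2, Finset.smul_sum, smul_smul]
  rw [Finset.sum_comm]
  simp only [← Finset.sum_smul, ← Complex.ofReal_mul, ← Complex.ofReal_sum]
  have k : ∀ m, ∑ k, s⁻¹ * L k l * eta k * (s * L k m) = bas l (eta l) m := fun m => by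
    rw [← lor_transpose hL l m]
    refine Finset.sum_congr rfl fun k _ => ?_
    field_simp
  simp only [k]
  rw [Finset.sum_eq_single l (fun m _ hm => by simp [bas, hm]) (by simp)]
  simp [bas]

/-- the action on five indices -/
def R5 (L : Ix → V) (j i : Ix × I2 × I2) : ℝ :=
  L j.1 i.1 * (L j.2.1.1 i.2.1.1 * (L j.2.1.2 i.2.1.2 * (L j.2.2.1 i.2.2.1 * L j.2.2.2 i.2.2.2)))

/-- the index `(l, m, n, j1, j2, γ)` -/
def e5 (k : ℕ) : (Ix × I2 × I2) × (Fin k → Ix) ≃ (Fin (k + 5) → Ix) where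
  toFun p := ix5 p.1.1 p.1.2.1.1 p.1.2.1.2 p.1.2.2 p.2
  invFun μ := ((μ 0, (μ 1, μ 2), μ 3, μ 4), fun i => μ i.succ.succ.succ.succ.succ)
  left_inv _ := rfl
  right_inv μ := funext fun i => Fin.cases rfl (Fin.cases rfl (Fin.cases rfl (Fin.cases rfl
    (Fin.cases rfl fun _ => rfl)))) i

/-- the gradient in the first slot -/
def gr (w : I2 → I2 → S2 →L[ℂ] Completion D) (i : Ix × I2 × I2) : S2 →L[ℂ] Completion D :=
  (eta i.1 : ℂ) • (w i.2.1 i.2.2 ∘L p21 i.1)

lemma gr_apply (i : Ix × I2 × I2) (G : S2) :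
    gr w i G = (eta i.1 : ℂ) • w i.2.1 i.2.2 (∂_{((bas i.1 1, 0) : V × V)} G) := rfl

theorem gr_cv (h : TP2 Q T e w) : Cv Q R5 (gr w) := by
  rintro s L a hs hL ⟨l, K, J⟩ F
  obtain ⟨κ, hκ⟩ := h.cov s L a K J (∂_{((bas l 1, 0) : V × V)} F) _ hs hL (sim2_apply hs hL a _)
  refine ⟨eta l * κ, ?_⟩
  have k : ∀ K' M, (eta l : ℂ) • Ug Q s L a (w K' M (sim2 hs hL a
      (∂_{((bas l 1, 0) : V × V)} F))) = ∑ k, ((s⁻¹ * L k l * eta k : ℝ) : ℂ) •
        Ug Q s L a (w K' M (∂_{((bas k 1, 0) : V × V)} (sim2 hs hL a F))) := fun K' M => by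
    rw [← map_smul, ← map_smul, up_sim2]
    simp only [map_sum, map_smul]
  simp only [gr_apply, hκ, smul_add, Finset.smul_sum, ← Ug_apply Q hs hL, smul_comm (eta l : ℂ), k,
    mul_smul (eta l : ℂ), map_smul, add_left_inj]
  conv_rhs => rw [Fintype.sum_prod_type, Finset.sum_comm, Fintype.sum_prod_type]
  refine Finset.sum_congr rfl fun K' _ => Finset.sum_congr rfl fun M _ =>
    Finset.sum_congr rfl fun k _ => ?_
  simp only [smul_smul, L2, R5]
  congr 1
  push_cast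
  ring

/-- the exchange of the two indices of the first slot -/
def sw5 : Ix × I2 × I2 ≃ Ix × I2 × I2 :=
  ⟨fun i => (i.1, (i.2.1.2, i.2.1.1), i.2.2), fun i => (i.1, (i.2.1.2, i.2.1.1), i.2.2),
    fun _ => rfl, fun _ => rfl⟩

/-- the cyclic permutation of the first three indices -/
def cy5 : Ix × I2 × I2 ≃ Ix × I2 × I2 :=
  ⟨fun i => (i.2.1.1, (i.2.1.2, i.1), i.2.2), fun i => (i.2.1.2, (i.1, i.2.1.1), i.2.2),
    fun _ => rfl, fun _ => rfl⟩

/-- the curl -/
def cuL (w : I2 → I2 → S2 →L[ℂ] Completion D) (i : Ix × I2 × I2) : S2 →L[ℂ] Completion D :=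
  gr w i - gr w (sw5 i)

/-- the Bianchi divergence -/
def biL (w : I2 → I2 → S2 →L[ℂ] Completion D) (i : Ix × I2 × I2) : S2 →L[ℂ] Completion D :=
  cuL w i + cuL w (cy5 i) + cuL w (cy5 (cy5 i))

lemma biL_apply (l m n : Ix) (J : I2) (G : S2) : biL w (l, (m, n), J) G = bi1 w l m n J G := by
  simp only [biL, cuL, bi1, cu1, ContinuousLinearMap.add_apply, ContinuousLinearMap.sub_apply,
    smul_sub]
  rfl

theorem bi_cv (h : TP2 Q T e w) : Cv Q R5 (biL w) := by
  have c1 : Cv Q R5 (cuL w) := (gr_cv h).sub ((gr_cv h).perm sw5 fun L j i => by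
    simp only [R5, sw5, Equiv.coe_fn_mk]
    ring)
  have p : ∀ L j i, R5 L (cy5 j) (cy5 i) = R5 L j i := fun L j i => by
    simp only [R5, cy5, Equiv.coe_fn_mk]
    ring
  exact (c1.add (c1.perm cy5 p)).add ((c1.perm cy5 p).perm cy5 p)

theorem bi_off (hT : ∀ m n, Q.fld (T m n)) (hc : CT Q T) (h : TP2 Q T e w) (i : Ix × I2 × I2) :
    Off (biL w i) := by
  obtain ⟨l, ⟨m, n⟩, J⟩ := i
  refine off hT h (ι := Fin 6) ![eta l, -eta l, eta m, -eta m, eta n, -eta n]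
    ![(m, n), (n, m), (n, l), (l, n), (l, m), (m, l)] ![l, l, m, m, n, n] (fun f v hf => ?_) J
    fun G => ?_
  · rw [← hc.bian l m n f v hf]
    simp [Fin.sum_univ_six, cu, smul_sub, sub_eq_add_neg, add_assoc]
  · rw [biL_apply]
    simp [Fin.sum_univ_six, bi1, cu1, p21, smul_sub, sub_eq_add_neg, add_assoc]

end Stz

open Stz Vale.Agent.P352X.Str Vale.Agent.P352.GF in
/-- **row STRUCT** -/
theorem struct_thm {D : Type*} [NormedAddCommGroup D] [InnerProductSpace ℂ D] (c : Ctx D)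
    (hc : CT c.Q c.T) : STRUCT c := by
  have hT := fun m n => c.Q.bose_fld _ (c.hT.bose m n)
  refine ⟨fun e w h => ?_, fun e w h => ?_⟩
  · obtain ⟨k0, O, h1, h2, h3⟩ := contact (fun i : Ix × I2 => off hT h (fun _ => 1)
      (fun m => (m, i.1)) id (fun f v hf => by simpa using hc.conserved i.1 f v hf) i.2
      fun G => by simp [dvL_apply, dv1]) (dv_cv h) e3 fun k L p q => by
        simp only [e3, Equiv.coe_fn_mk, ix3, Fin.prod_univ_succ, Matrix.cons_val_zero,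
          Matrix.cons_val_succ, R3]
        ring
    exact ⟨k0, O, h1, fun k n J => h2 k (n, J), fun n J G hG =>
      (dvL_apply n J G).symm.trans (h3 (n, J) G hG)⟩
  · obtain ⟨k0, O, h1, h2, h3⟩ := contact (bi_off hT hc h) (bi_cv h) e5 fun k L p q => by
      simp only [e5, Equiv.coe_fn_mk, ix5, ix3, Fin.prod_univ_succ, Matrix.cons_val_zero,
        Matrix.cons_val_succ, R5]
      ring
    exact ⟨k0, O, h1, fun k l m n J => h2 k (l, (m, n), J), fun l m n J G hG =>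
      (biL_apply l m n J G).symm.trans (h3 (l, (m, n), J) G hG)⟩

theorem struct_row {D : Type*} [NormedAddCommGroup D] [InnerProductSpace ℂ D] (c : Ctx D) :
    c.can → STRUCT c := fun h => struct_thm c (c.hC0 h).ct

end Vale.Agent.P352X.ZZ
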