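import Vale.Agent.P352Z.R.SW.Wz

/-!
# P352Z (port of P352X): row SW
-/

noncomputable section

open MeasureTheory Filter Topology Complex Set
open scoped ComplexConjugate SchwartzMap ENNReal Real

namespace Vale.Agent.P352X.ZZ

open Vale.Agent.P352 Vale.Agent.P352.GF Vale.Agent.P352.BW Vale.Agent.P352.H755
open UniformSpace (Completion)

namespace Ib.Sw

open Vale.Agent.P352X.Ib
open Vale.Agent.P352X.Swp (ab_add lim0)

variable {D : Type*} [NormedAddCommGroup D] [InnerProductSpace ℂ D] {c : Ctx D}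
  {ell : (V → ℂ) → Completion D} {c0 : ℝ} {γ : P3 → ℂ} {θ φ χ : ℝ → ℝ} {a b ε σ R : ℝ}
  {cc : (ℝ → ℝ) → (ℝ → ℝ) → ℂ} {dd : (ℝ → ℝ) → ℝ}

lemma ex_g : ∃ g, Tst g ∧ 0 < ∫ k, ‖ft3 (cx (Dx (1, 0) (Dx (1, 0) g))) k‖ ^ 2 ∂m3 := by
  obtain ⟨u, hu, -, -, i⟩ := Ap.ex_rho (volume : Measure P3) (x := 0) univ_mem
  have c2 := cont_ft3 (g := cx u) (Ap.cs_int (Ap.dc_cx hu))
  have hd := tst_Dx (1, 0) hu
  have hd' := tst_Dx (1, 0) hd
  have e : ∀ᶠ t in 𝓝 (0 : ℝ), ft3 (cx u) (t, 0) ≠ 0 :=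
    (c2.comp (continuous_id.prodMk continuous_const)).continuousAt.eventually_ne (by
      have := ft3_zero (cx u)
      simp only [cx, integral_complex_ofReal, i] at this
      exact this.trans_ne (by simp))
  obtain ⟨t, t1, t2⟩ := ((e.filter_mono nhdsWithin_le_nhds).and
    (self_mem_nhdsWithin (s := Ioi (0 : ℝ)))).exists
  refine ⟨u, hu, Sch.pos_of_ne (mem_ft3 hd') (isOpen_compl_singleton.preimage
    (cont_ft3 (g := cx _) (Ap.cs_int (Ap.dc_cx hd')))) ⟨(t, 0), ?_, t2⟩ fun k hk => hk.1⟩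
  have n : -(I * (((t, 0) : P3).1 : ℂ)) ≠ 0 := by simpa using t2.ne'
  exact (ft3_Dx hd _).trans_ne (mul_ne_zero n ((ft3_Dx hu _).trans_ne (mul_ne_zero n t1)))

lemma tht_dil (he : Ell c ell c0) (hγ : MemLp γ 2 m3) (hθ : Tst θ) : ∃ C : ℝ, 0 ≤ C ∧ ∀ s, 0 < s →
    ‖Tht ell γ (dil s θ)‖ ≤ C / √s := by
  refine ⟨√(9 * c0 * (∫ k, ‖γ k‖ ^ 2 ∂m3) * (8 * π * q2 (deriv (cx θ)))),
    Real.sqrt_nonneg _, fun s hs => ?_⟩
  have := tt_sq he hγ (S1 (dil s θ))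
  rw [S1_coe (tst_dil hθ hs), deriv_dil, q2_dil hs, ← Tht_eq] at this
  rw [← Real.sqrt_div' _ hs.le]
  refine Real.le_sqrt_of_sq_le (this.trans_eq ?_)
  field_simp

section

variable (he : Ell c ell c0) (hs : Schur c ell cc dd) (hγ : MemLp γ 2 m3) (hθ : Bump θ)
  (hR : ∀ t, R ≤ |t| → θ t = 0) (hσ : σ = 1 ∨ σ = -1) (ha : 0 < a) (hb : a ≤ b) (k : R * a ≤ b)
include hs hγ hθ hR hσ ha hb k

lemma plat_eq (hχ : D0 χ) (hε : 0 < ε) :
    inner ℂ (TtL he hγ (S1 (ab σ (dil b θ) θ a))) (gen c.Sk (Tht ell γ (dil ε χ))) =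
      (∫ s in a / ε..b / ε, cc (dil s (ch σ θ)) χ / s) * ((∫ k, ‖γ k‖ ^ 2 ∂m3 : ℝ) : ℂ) := by
  have d := (sd_ch hσ hθ).d0
  rw [← inner_conj_symm, ← innerSL_apply_apply, ← ContinuousLinearMap.comp_apply,
    plat _ hσ hθ hR ha hb k, ← intervalIntegral.intervalIntegral_conj,
    ← intervalIntegral.inv_smul_integral_comp_div, ← intervalIntegral.integral_smul,
    ← intervalIntegral.integral_mul_const]
  refine intervalIntegral.integral_congr fun s h => ?_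
  rw [uIcc_of_le hb] at h
  have s0 := ha.trans_le h.1
  have e := hs.scc _ _ ε (Ap.d0_dil d (div_pos s0 hε).ne') hχ hε
  rw [dil_dil, mul_div_cancel₀ _ hε.ne'] at e
  simp only [ContinuousLinearMap.comp_apply, innerSL_apply_apply, TtL_S1 he hγ (tst_dil d.1 s0),
    smul_eq_mul, map_mul, conj_ofReal, inner_conj_symm, real_smul,
    hs.form _ _ _ _ hγ (Ap.d0_dil d s0.ne') hγ (Ap.d0_dil hχ hε.ne'), Sch.integral_sq, e]
  have := ofReal_ne_zero.2 hε.ne'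
  push_cast
  field_simp

lemma plat_err {z : Completion D} (hz : Dm c.Sk z) :
    ‖inner ℂ (TtL he hγ (S1 (ab σ (dil b θ) θ a))) (gen c.Sk z)‖ ≤
      2 * (‖z‖ * ‖gen c.Sk (Tht ell γ (ch σ θ))‖) * √b := by
  have d := (sd_ch hσ hθ).d0
  rw [norm_inner_symm]
  refine plat_le (innerSL ℂ (gen c.Sk z) ∘L TtL he hγ) hσ hθ hR ha hb k fun s h => ?_
  have s0 := ha.trans_le h.1
  have d' := Ap.d0_dil d s0.ne'
  have e : ‖gen c.Sk (Tht ell γ (dil s (ch σ θ)))‖ = ‖gen c.Sk (Tht ell γ (ch σ θ))‖ * √s := by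
    rw [← pow_left_inj₀ (norm_nonneg _) (by positivity) two_ne_zero, mul_pow, Real.sq_sqrt s0.le,
      hs.nrm _ _ hγ d', hs.nrm _ _ hγ d, hs.sdd _ _ d s0]
    ring
  rw [ContinuousLinearMap.comp_apply, innerSL_apply_apply, TtL_S1 he hγ d'.1, norm_inner_symm,
    ← sym_inner (kt_thm c).ugk hz (hs.dom _ _ hγ d'), norm_conj, mul_assoc, ← e]
  exact norm_inner_le_norm _ _

end

theorem sw_thm [Fact c.can] (t : T3 c) : SW c := fun ell c0 cc dd he hs θ hθ => by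
  obtain ⟨g, hg, n0⟩ := ex_g
  have hd := tst_Dx (1, 0) hg
  have hγ := mem_ft3 (tst_Dx (1, 0) hd)
  set γ := ft3 (cx (Dx (1, 0) (Dx (1, 0) g)))
  set n := ∫ k, ‖γ k‖ ^ 2 ∂m3
  have hχ := Ap.d0_chm hθ
  have sχ : Sd (chm θ) := chm_eq θ ▸ sd_ch (.inr rfl) hθ
  obtain ⟨R, R0, hR⟩ := rad hθ.1
  obtain ⟨C1, p1, h1⟩ := dt_dil he hd hχ.1
  obtain ⟨C2, p2, h2⟩ := cell t.grp t.kd t.kt hd sχ
  obtain ⟨C3, p3, h3⟩ := tht_dil he hγ hθ.1
  set χ := chm θ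
  have i : ∀ {σ : ℝ}, σ = 1 ∨ σ = -1 →
      IntegrableOn (fun s : ℝ => cc (dil s (ch σ θ)) χ / s) (Ioi 0) := fun h =>
    hs.int _ _ (sd_ch h hθ).d0 hχ
  set A := ‖gen c.Sk (Tht ell γ (ch 1 θ))‖ + ‖gen c.Sk (Tht ell γ (ch (-1) θ))‖
  set F : ℝ → ℝ → ℂ := fun x y => ((∫ s in x..y, cc (dil s (ch 1 θ)) χ / s) +
    ∫ s in x..y, cc (dil s (ch (-1) θ)) χ / s) * n
  have key : ∀ b > 0, ∀ ε ∈ Ioc (0 : ℝ) 1,
      ‖F 0 (b / ε)‖ ≤ 2 * (C1 * √ε * A) * √b + C3 / √b * C2 := fun b hb ε hε => by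
    have sε := sχ.dil hε.1
    set x := c.Th (pr (Dx (1, 0) g) (dil ε χ))
    have dx : Dm c.Sk x := dm_k t.toT2 hd sε
    have dy := hs.dom _ _ hγ sε.d0
    obtain ⟨b1, b2, q1, q2⟩ : ∃ b1 b2, b2 < 0 ∧ tsupport (dil ε χ) ⊆ Icc b1 b2 := by
      obtain ⟨r, -, hr⟩ := Ap.ex_Icc hχ.1
      exact ⟨_, _, by linarith [hε.1], Ap.tsupport_dil_Icc (a := -r) (b := -1)
        (fun y hy => ⟨(hr hy).1, (Ap.tsupport_chm hθ hy).1⟩) hε.1⟩
    have z := Swp.wz_kt t he hγ hθ.1 (test_pr hg sε.1) (b1 := b1) q1 (by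
      rw [da_pr hg sε.1]
      exact fun y hy => q2 (Ap.tsupport_pr _ _ hy).2)
    rw [da_pr hg sε.1] at z
    have l := (((lim0 (i (.inl rfl)) (div_pos hb hε.1) hε.1).add
      (lim0 (i (.inr rfl)) (div_pos hb hε.1) hε.1)).mul_const (n : ℂ)).norm
    refine le_of_tendsto_of_tendsto l (by simpa using z.norm.const_add _) ?_
    filter_upwards [Ioo_mem_nhdsGT (lt_min hb (div_pos hb R0))] with a ha
    have k1 := (ha.2.trans_le (min_le_left _ _)).le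
    have k2 := ((lt_div_iff₀' R0).1 (ha.2.trans_le (min_le_right _ _))).le
    have e := fun {σ : ℝ} (h : σ = 1 ∨ σ = -1) =>
      plat_err he hs hγ hθ hR h ha.1 k1 k2 (dy.gn.sub dx.gn).dm
    have e' := congrArg (fun v => inner ℂ (TtL he hγ v) (gen c.Sk x)) (ab_add hθ hR ha.1 hb k2)
    simp only [map_add, map_sub, inner_add_left, inner_sub_left, TtL_S1 he hγ (tst_dil hθ.1 hb),
      TtL_S1 he hγ (tst_dil hθ.1 ha.1)] at e'
    simp only [(dy.gn.sub dx.gn).gen_eq, inner_sub_right] at e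
    have e1 := e (.inl rfl)
    have e2 := e (.inr rfl)
    rw [plat_eq he hs hγ hθ hR (.inl rfl) ha.1 k1 k2 hχ hε.1] at e1
    rw [plat_eq he hs hγ hθ hR (.inr rfl) ha.1 k1 k2 hχ hε.1] at e2
    have f1 := (norm_inner_le_norm (𝕜 := ℂ) (Tht ell γ (dil b θ)) (gen c.Sk x)).trans
      (mul_le_mul (h3 b hb) (h2 ε hε.1 hε.2) (norm_nonneg _) (by positivity))
    have f2 : ‖Tht ell γ (dil ε χ) - x‖ * A * √b ≤ C1 * √ε * A * √b := by
      gcongr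
      exact norm_sub_rev _ x ▸ h1 ε hε.1
    have f3 := norm_add_le_of_le (norm_add_le_of_le e1 e2) (norm_sub_le_of_le f1
      (norm_inner_symm (𝕜 := ℂ) (Tht ell γ (dil a θ)) (gen c.Sk x)).le)
    rw [← e', sub_add_sub_comm, sub_add_cancel, ← add_mul] at f3
    simp only [A] at f2
    linarith
  have key2 : ∀ b > 0, ‖(YY cc (chp θ) χ + YY cc χ χ) * n‖ ≤ C3 / √b * C2 := fun b hb => by
    have l : Tendsto (fun ε : ℝ => b / ε) (𝓝[>] 0) atTop :=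
      tendsto_inv_nhdsGT_zero.const_mul_atTop hb
    have l2 : Tendsto (fun ε : ℝ => 2 * (C1 * √ε * A) * √b + C3 / √b * C2) (𝓝[>] 0)
        (𝓝 (C3 / √b * C2)) := (Continuous.tendsto' (by fun_prop) 0 _ (by simp)).mono_left
          nhdsWithin_le_nhds
    rw [chp_eq, YY, YY]
    nth_rewrite 2 [show χ = ch (-1) θ from chm_eq θ]
    refine le_of_tendsto_of_tendsto (((intervalIntegral_tendsto_integral_Ioi 0 (i (.inl rfl)) l).add
      (intervalIntegral_tendsto_integral_Ioi 0 (i (.inr rfl)) l)).mul_const (n : ℂ)).norm l2 ?_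
    filter_upwards [Ioc_mem_nhdsGT one_pos] with ε hε using key b hb ε hε
  have l : Tendsto (fun b : ℝ => C3 / √b * C2) atTop (𝓝 (0 * C2)) :=
    (Real.tendsto_sqrt_atTop.const_div_atTop C3).mul_const C2
  have := ge_of_tendsto l ((eventually_gt_atTop 0).mono key2)
  rw [zero_mul, norm_le_zero_iff] at this
  exact (mul_eq_zero.1 this).resolve_right (ofReal_ne_zero.2 n0.ne')

end Ib.Sw

theorem sw_row {D : Type*} [NormedAddCommGroup D] [InnerProductSpace ℂ D] (c : Ctx D)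
    [Fact c.can] : T3 c → SW c := Ib.Sw.sw_thm

end Vale.Agent.P352X.ZZ

end
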